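import Crest.Agent.R153.LevelDefs

/-! Row 153: dictionary between expectations over lists (`EL`) and uniform averages over
`Fin M → α`; exchangeability of `EL` (helper639). -/

set_option autoImplicit false

open Crest.ProbabilityR.RandomSAT

namespace Crest.Agent.R153

section general
variable {α : Type*} [Fintype α]

/-- `EL` is the uniform average over `Fin M → α` -/
theorem EL_eq_avg (M : ℕ) : ∀ f : List α → ℝ,
    EL M f = avg (fun F : Fin M → α => f (List.ofFn F)) := by
  induction M with
  | zero =>
    intro f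
    unfold avg
    simp [EL]
  | succ M ih =>
    intro f
    rw [EL_succ, avg_congr fun c => ih (fun F => f (c :: F))]
    unfold avg
    rw [← Finset.sum_div, div_div]
    congr 1
    · rw [← Finset.sum_product', Finset.univ_product_univ]
      refine Fintype.sum_equiv (Fin.consEquiv (fun _ : Fin (M + 1) => α)) _ _ ?_
      rintro ⟨c, F⟩
      simp [Fin.consEquiv, List.ofFn_succ]
    · rw [Fintype.card_fun, Fintype.card_fun, Fintype.card_fin, Fintype.card_fin, pow_succ]
      push_cast; ring

/-- a new independent entry may be inserted at any place -/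
theorem EL_insertIdx {i : ℕ} : ∀ {M : ℕ}, i ≤ M → ∀ f : List α → ℝ,
    EL (M + 1) f = EL M (fun F => avg (fun c => f (F.insertIdx i c))) := by
  induction i with
  | zero =>
    intro M _ f
    rw [EL_succ, EL_avg_comm]
    simp
  | succ i ih =>
    intro M hM f
    obtain ⟨M', rfl⟩ : ∃ M', M = M' + 1 := ⟨M - 1, by omega⟩
    rw [EL_succ, EL_succ M']
    refine avg_congr fun d => ?_
    rw [ih (by omega : i ≤ M') (fun F => f (d :: F))]
    simp

/-- removing entry `i` from a list of independent entries -/
theorem EL_eraseIdx {i M : ℕ} (hi : i ≤ M) (g : List α → Option α → ℝ) :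
    EL (M + 1) (fun F => g (F.eraseIdx i) F[i]?) = EL M (fun F => avg (fun c => g F (some c))) := by
  rw [EL_insertIdx hi]
  refine EL_congr' fun F hF => avg_congr fun c => ?_
  rw [List.eraseIdx_insertIdx_self, List.getElem?_insertIdx_self]
  simp [hF, hi]

/-- sum over all removed entries -/
theorem EL_sum_eraseIdx (M : ℕ) (g : List α → Option α → ℝ) :
    EL (M + 1) (fun F => ∑ i ∈ Finset.range (M + 1), g (F.eraseIdx i) F[i]?) =
      (M + 1) * EL M (fun F => avg (fun c => g F (some c))) := by
  rw [EL_sum, Finset.sum_congr rfl fun i hi =>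
    EL_eraseIdx (Nat.lt_succ_iff.1 (Finset.mem_range.1 hi)) g]
  simp

/-- inequality form, used for sums over the entries of the list with an estimate which depends on
the place `i` -/
theorem EL_sum_eraseIdx_le (M : ℕ) (D : List α → ℕ → ℝ) (g : List α → Option α → ℝ)
    (h : ∀ F : List α, F.length = M + 1 → ∀ i < M + 1, D F i ≤ g (F.eraseIdx i) F[i]?) :
    EL (M + 1) (fun F => ∑ i ∈ Finset.range (M + 1), D F i) ≤
      (M + 1) * EL M (fun F => avg (fun c => g F (some c))) := by
  rw [← EL_sum_eraseIdx]
  exact EL_mono' fun F hF => Finset.sum_le_sum fun i hi => h F hF i (Finset.mem_range.1 hi)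

/-- `avg` over a permutation of the coordinates -/
theorem EL_perm_invariant {M : ℕ} (e : Equiv.Perm (Fin M)) (f : (Fin M → α) → ℝ) :
    avg (fun F : Fin M → α => f (F ∘ e)) = avg f := by
  have := avg_equiv (Equiv.arrowCongr e (Equiv.refl α)).symm f
  rw [← this]
  rfl

end general

section sat
variable {k n : ℕ}

/-- the satisfiability probability as an expectation over lists, in terms of violated clauses -/
theorem satProb_eq_EL_mc (k n M : ℕ) :
    satProb k n M = EL M (fun F : List (Clause k n) => if mc F = 0 then (1 : ℝ) else 0) := by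
  classical
  rw [EL_eq_avg]
  unfold satProb Crest.FinProb.uniformProb avg
  congr 1
  · rw [Finset.sum_boole]
    congr 2
    ext F
    simp only [Finset.mem_filter, Finset.mem_univ, true_and, Set.mem_ofPred_eq, mc_ofFn]
    exact satisfiable_iff_minUnsat F

theorem mc_eq_zero_iff (F : List (Clause k n)) : mc F = 0 ↔ ∃ σ : Asg n, ∀ c ∈ F, ClauseSat σ c := by
  rw [← Nat.le_zero, mc_le_iff]
  refine exists_congr fun σ => ?_
  rw [Nat.le_zero]
  unfold vc
  rw [List.sum_eq_zero_iff]
  constructor
  · intro h c hc
    exact viol_eq_zero.1 (h _ (List.mem_map.2 ⟨c, hc, rfl⟩))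
  · intro h x hx
    obtain ⟨c, hc, rfl⟩ := List.mem_map.1 hx
    exact viol_eq_zero.2 (h c hc)

theorem ne_cutL_eq (F : List (Clause k n)) :
    ne (cutL Finset.univ F) = if mc F = 0 then (1 : ℝ) else 0 := by
  by_cases h : mc F = 0
  · obtain ⟨σ, hσ⟩ := (mc_eq_zero_iff F).1 h
    rw [if_pos h, ne_of_nonempty ⟨σ, mem_cutL.2 ⟨Finset.mem_univ _, hσ⟩⟩]
  · rw [if_neg h]
    refine ne_eq_zero fun ⟨σ, hσ⟩ => h ((mc_eq_zero_iff F).2 ⟨σ, (mem_cutL.1 hσ).2⟩)

/-- average minimal number of violated clauses: list form and `Fin M → Clause k n` form -/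
theorem EL_mc_eq (k n M : ℕ) :
    EL M (fun F : List (Clause k n) => (mc F : ℝ)) =
      avg (fun F : Fin M → Clause k n => (minUnsat F : ℝ)) := by
  rw [EL_eq_avg]
  exact avg_congr fun F => by rw [mc_ofFn]

/-- probability that at most `J` clauses are violated -/
theorem EL_mc_le_eq (k n M J : ℕ) :
    EL M (fun F : List (Clause k n) => if mc F ≤ J then (1 : ℝ) else 0) =
      avg (fun F : Fin M → Clause k n => if minUnsat F ≤ J then (1 : ℝ) else 0) := by
  rw [EL_eq_avg]
  exact avg_congr fun F => by rw [mc_ofFn]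

end sat

end Crest.Agent.R153
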