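import Crest.Agent.R153.Split

/-! Row 153 (S0217), task FROZEN: killing probabilities against the frozen fraction. -/

set_option autoImplicit false

open Crest.ProbabilityR.RandomSAT

namespace Crest.Agent.R153

/-- the set of literals which are false on all of `X` -/
noncomputable def frL {n : ℕ} (X : Finset (Asg n)) : Finset (Fin n × Bool) := by
  classical exact Finset.univ.filter (fun l => ¬ (cutLit X l).Nonempty)

theorem mem_frL {n : ℕ} {X : Finset (Asg n)} {l : Fin n × Bool} :
    l ∈ frL X ↔ ∀ σ ∈ X, σ l.1 ≠ l.2 := by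
  classical
  unfold frL
  rw [Finset.mem_filter, Finset.not_nonempty_iff_eq_empty, Finset.eq_empty_iff_forall_notMem]
  simp only [Finset.mem_univ, true_and, mem_cutLit, not_and]

theorem one_sub_ne {n : ℕ} (X : Finset (Asg n)) [Decidable (¬ X.Nonempty)] :
    1 - ne X = if ¬ X.Nonempty then 1 else 0 := by
  classical
  by_cases h : X.Nonempty
  · rw [ne_of_nonempty h, if_neg (not_not.2 h)]; ring
  · rw [ne_eq_zero h, if_pos h]; ring

theorem phi1_eq {n : ℕ} (X : Finset (Asg n)) :
    phi1 X = ((frL X).card : ℝ) / (2 * n) := by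
  classical
  unfold phi1 avg
  congr 1
  · simp only [one_sub_ne]
    rw [Finset.sum_boole]
    unfold frL
    congr 2
  · simp [mul_comm]

theorem frL_fst_inj {n : ℕ} {X : Finset (Asg n)} (hX : X.Nonempty) {l l' : Fin n × Bool}
    (h : l ∈ frL X) (h' : l' ∈ frL X) (hv : l.1 = l'.1) : l = l' := by
  obtain ⟨σ, hσ⟩ := hX
  have h1 := mem_frL.1 h σ hσ
  have h2 := mem_frL.1 h' σ hσ
  refine Prod.ext hv ?_
  rw [← hv] at h2
  revert h1 h2
  cases σ l.1 <;> cases l.2 <;> cases l'.2 <;> simp

theorem frL_card_le {n : ℕ} {X : Finset (Asg n)} (hX : X.Nonempty) : (frL X).card ≤ n := by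
  classical
  have : (frL X).card ≤ (Finset.univ : Finset (Fin n)).card :=
    Finset.card_le_card_of_injOn Prod.fst (fun _ _ => Finset.mem_univ _)
      (fun l hl l' hl' h => frL_fst_inj hX (Finset.mem_coe.1 hl) (Finset.mem_coe.1 hl') h)
  simpa using this

theorem cut_empty_iff {m n : ℕ} (X : Finset (Asg n)) (q : Clause m n) :
    ¬ (cut X q).Nonempty ↔ ∀ i, (q.1.1 i, q.2 i) ∈ frL X := by
  rw [Finset.not_nonempty_iff_eq_empty, Finset.eq_empty_iff_forall_notMem]
  simp only [mem_cut, mem_frL]
  constructor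
  · intro h i σ hσ hi
    exact h σ ⟨hσ, i, hi⟩
  · rintro h σ ⟨hσ, i, hi⟩
    exact h i σ hσ hi

/-- clauses all of whose literals are frozen are the injections into the frozen literals -/
noncomputable def killE {m n : ℕ} {X : Finset (Asg n)} (hX : X.Nonempty) :
    {q : Clause m n // ∀ i, (q.1.1 i, q.2 i) ∈ frL X} ≃ (Fin m ↪ {l // l ∈ frL X}) where
  toFun q := ⟨fun i => ⟨(q.1.1.1 i, q.1.2 i), q.2 i⟩, by
    intro a b h
    apply q.1.1.2
    exact congrArg Prod.fst (congrArg Subtype.val h)⟩
  invFun e := ⟨(⟨fun i => (e i).1.1, by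
    intro a b h
    apply e.injective
    exact Subtype.ext (frL_fst_inj hX (e a).2 (e b).2 h)⟩, fun i => (e i).1.2), fun i => (e i).2⟩
  left_inv q := rfl
  right_inv e := rfl

theorem phi_eq {m n : ℕ} {X : Finset (Asg n)} (hX : X.Nonempty) :
    phi m X = ((frL X).card.descFactorial m : ℝ) / (n.descFactorial m * 2 ^ m) := by
  classical
  unfold phi avg
  rw [card_clause]
  push_cast
  congr 1
  simp only [one_sub_ne]
  rw [Finset.sum_boole]
  have h1 : (Finset.univ.filter (fun q : Clause m n => ¬ (cut X q).Nonempty)).card =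
      Fintype.card {q : Clause m n // ∀ i, (q.1.1 i, q.2 i) ∈ frL X} := by
    rw [Fintype.card_subtype]
    congr 1
    ext q
    simp only [Finset.mem_filter, Finset.mem_univ, true_and]
    exact cut_empty_iff X q
  rw [h1, Fintype.card_congr (killE hX), Fintype.card_embedding_eq]
  simp

theorem desc_mul_pow_le {r n : ℕ} (h : r ≤ n) (m : ℕ) :
    r.descFactorial m * n ^ m ≤ r ^ m * n.descFactorial m := by
  induction m with
  | zero => simp
  | succ m ih =>
    rw [Nat.descFactorial_succ, Nat.descFactorial_succ, pow_succ, pow_succ]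
    have h1 : (r - m) * n ≤ r * (n - m) := by
      rw [Nat.sub_mul, Nat.mul_sub]
      have : m * r ≤ m * n := Nat.mul_le_mul_left _ h
      have e : r * m = m * r := Nat.mul_comm _ _
      omega
    calc (r - m) * r.descFactorial m * (n ^ m * n)
        = ((r - m) * n) * (r.descFactorial m * n ^ m) := by ring
      _ ≤ (r * (n - m)) * (r ^ m * n.descFactorial m) := Nat.mul_le_mul h1 ih
      _ = r ^ m * r * ((n - m) * n.descFactorial m) := by ring

/-- A clause kills the nonempty set `X` iff all its literals are frozen to false. -/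
theorem phi_le_pow (m : ℕ) {n : ℕ} (X : Finset (Asg n)) (hX : X.Nonempty) :
    phi m X ≤ phi1 X ^ m := by
  rw [phi_eq hX, phi1_eq]
  have hr := frL_card_le hX
  set r := (frL X).card with hrdef
  rcases Nat.eq_zero_or_pos (n.descFactorial m) with h0 | h0
  · rw [h0]
    simp only [Nat.cast_zero, zero_mul, div_zero]
    positivity
  · have h0' : (0 : ℝ) < n.descFactorial m := by exact_mod_cast h0
    rcases Nat.eq_zero_or_pos n with hn | hn
    · subst hn
      have hm : m = 0 := by
        by_contra hm
        have : (0 : ℕ).descFactorial m = 0 := Nat.descFactorial_eq_zero_iff_lt.2 (by omega)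
        omega
      subst hm
      simp
    · have hn' : (0 : ℝ) < n := by exact_mod_cast hn
      rw [div_pow, mul_pow, div_le_div_iff₀ (by positivity) (by positivity)]
      have key : ((r.descFactorial m * n ^ m : ℕ) : ℝ) ≤ ((r ^ m * n.descFactorial m : ℕ) : ℝ) := by
        exact_mod_cast desc_mul_pow_le hr m
      push_cast at key
      calc (r.descFactorial m : ℝ) * (2 ^ m * n ^ m) = (r.descFactorial m * n ^ m) * 2 ^ m := by ring
        _ ≤ (r ^ m * n.descFactorial m) * 2 ^ m := by gcongr
        _ = r ^ m * (n.descFactorial m * 2 ^ m) := by ring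

theorem phi_lower (m : ℕ) {n : ℕ} (ε : ℝ) (hε : 0 < ε) (hn : (m : ℝ) ≤ ε * n)
    (X : Finset (Asg n)) (hX : X.Nonempty) (h : ε < phi1 X) : (ε / 2) ^ m ≤ phi m X := by
  rw [phi_eq hX]
  rw [phi1_eq] at h
  have hr := frL_card_le hX
  set r := (frL X).card with hrdef
  rcases Nat.eq_zero_or_pos n with hn0 | hn0
  · subst hn0
    simp only [Nat.cast_zero, mul_zero, div_zero] at h
    linarith
  have hn' : (0 : ℝ) < n := by exact_mod_cast hn0
  have hr2 : 2 * ε * n < r := by
    rw [lt_div_iff₀ (by positivity)] at h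
    linarith
  have hmr : (m : ℝ) ≤ r := by
    have : 0 ≤ ε * n := by positivity
    linarith
  have hmr' : m ≤ r := by exact_mod_cast hmr
  have h0 : 0 < n.descFactorial m := Nat.descFactorial_pos.2 (hmr'.trans hr)
  have h0' : (0 : ℝ) < n.descFactorial m := by exact_mod_cast h0
  have h1 : (ε * n) ^ m ≤ (r.descFactorial m : ℝ) := by
    have hp : (((r + 1 - m) ^ m : ℕ) : ℝ) ≤ (r.descFactorial m : ℝ) := by
      exact_mod_cast Nat.pow_sub_le_descFactorial r m
    refine le_trans ?_ hp
    push_cast [Nat.cast_sub (show m ≤ r + 1 by omega)]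
    apply pow_le_pow_left₀ (by positivity)
    linarith
  have h2 : (n.descFactorial m : ℝ) ≤ (n : ℝ) ^ m := by
    exact_mod_cast Nat.descFactorial_le_pow n m
  rw [le_div_iff₀ (by positivity)]
  calc (ε / 2) ^ m * (n.descFactorial m * 2 ^ m) = ε ^ m * n.descFactorial m := by
        rw [div_pow]; field_simp
    _ ≤ ε ^ m * n ^ m := by gcongr
    _ = (ε * n) ^ m := by rw [mul_pow]
    _ ≤ _ := h1

theorem phi1_le_one {n : ℕ} (X : Finset (Asg n)) : phi1 X ≤ 1 := by
  unfold phi1
  refine le_trans (avg_mono (g := fun _ => (1 : ℝ)) fun l => ?_) (avg_const_le zero_le_one)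
  have := ne_nonneg (cutLit X l)
  linarith

theorem phi1_nonneg {n : ℕ} (X : Finset (Asg n)) : 0 ≤ phi1 X := by
  unfold phi1
  refine avg_nonneg fun l => ?_
  have := ne_le_one (cutLit X l)
  linarith

/-- the frozen fraction increases when `X` decreases -/
theorem phi1_anti {n : ℕ} {X Y : Finset (Asg n)} (h : X ⊆ Y) : phi1 Y ≤ phi1 X := by
  unfold phi1
  refine avg_mono fun l => ?_
  have := ne_mono (cutLit_mono h l)
  linarith

/-- first literal of a uniform clause is a uniform literal -/
theorem avg_fstLit {m n : ℕ} (hmn : m + 1 ≤ n) (g : Fin n × Bool → ℝ) :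
    avg (fun q : Clause (m + 1) n => g (fstLit q)) = avg g := by
  obtain ⟨n, rfl⟩ : ∃ k, n = k + 1 := ⟨n - 1, by omega⟩
  -- translations
  let T : Fin (n + 1) × Bool → Clause (m + 1) (n + 1) ≃ Clause (m + 1) (n + 1) := fun a =>
    { toFun := fun q => (⟨fun i => q.1.1 i + a.1, fun _ _ h => q.1.2 (add_right_cancel h)⟩,
        fun i => xor (q.2 i) a.2)
      invFun := fun q => (⟨fun i => q.1.1 i - a.1, fun _ _ h => q.1.2 (sub_left_injective h)⟩,
        fun i => xor (q.2 i) a.2)
      left_inv := fun q => by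
        refine Prod.ext (Subtype.ext (funext fun i => ?_)) (funext fun i => ?_) <;> simp
      right_inv := fun q => by
        refine Prod.ext (Subtype.ext (funext fun i => ?_)) (funext fun i => ?_) <;> simp }
  let S : Fin (n + 1) × Bool → (Fin (n + 1) × Bool) ≃ (Fin (n + 1) × Bool) := fun l =>
    { toFun := fun a => (l.1 + a.1, xor l.2 a.2)
      invFun := fun a => (a.1 - l.1, xor l.2 a.2)
      left_inv := fun a => by
        refine Prod.ext ?_ ?_ <;> simp
      right_inv := fun a => by
        refine Prod.ext ?_ ?_ <;> simp }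
  have : Nonempty (Clause (m + 1) (n + 1)) := by
    rw [← Fintype.card_pos_iff, card_clause]
    exact Nat.mul_pos (Nat.descFactorial_pos.2 hmn) (by positivity)
  have h1 : ∀ a, avg (fun q : Clause (m + 1) (n + 1) => g (fstLit (T a q))) =
      avg (fun q : Clause (m + 1) (n + 1) => g (fstLit q)) := fun a =>
    avg_equiv (T a) (fun q => g (fstLit q))
  have h2 : ∀ q : Clause (m + 1) (n + 1), avg (fun a => g (fstLit (T a q))) = avg g := fun q =>
    avg_equiv (S (fstLit q)) g
  calc avg (fun q : Clause (m + 1) (n + 1) => g (fstLit q))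
      = avg (fun _ : Fin (n + 1) × Bool =>
          avg (fun q : Clause (m + 1) (n + 1) => g (fstLit q))) := (avg_const _).symm
    _ = avg (fun a => avg (fun q : Clause (m + 1) (n + 1) => g (fstLit (T a q)))) :=
        avg_congr fun a => (h1 a).symm
    _ = avg (fun q : Clause (m + 1) (n + 1) => avg (fun a => g (fstLit (T a q)))) := avg_comm _
    _ = avg (fun _ : Clause (m + 1) (n + 1) => avg g) := avg_congr h2
    _ = avg g := avg_const _

end Crest.Agent.R153
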