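import Mathlib

/-!
Row 153, part E: a real number with two recursively enumerable dyadic cuts is computable in the
sense of S0218.
-/

set_option autoImplicit false

namespace Crest.Agent.R153

/-- If the left and the right dyadic cut of `α ≥ 0` have computable certificate relations, then `α`
is computable in the sense of S0218. -/
theorem computable_of_cuts (α : ℝ) (hα : 0 ≤ α)
    (Lo Up : ℕ × ℕ × ℕ → Bool) (hLo : Computable Lo) (hUp : Computable Up)
    (lo_sound : ∀ a k w : ℕ, Lo (a, k, w) = true → (a : ℝ) / 2 ^ k ≤ α)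
    (lo_compl : ∀ a k : ℕ, (a : ℝ) / 2 ^ k < α → ∃ w, Lo (a, k, w) = true)
    (up_sound : ∀ a k w : ℕ, Up (a, k, w) = true → α ≤ (a : ℝ) / 2 ^ k)
    (up_compl : ∀ a k : ℕ, α < (a : ℝ) / 2 ^ k → ∃ w, Up (a, k, w) = true) :
    ∃ f : ℕ → ℕ, Computable f ∧ ∀ r : ℕ, |(f r : ℝ) / 2 ^ r - α| ≤ 1 / 2 ^ r := by
  classical
  -- the test: `t = pair a (pair w₁ w₂)`; accept when `a = 0` or `(a-1)/2^r ≤ α` is certified, and
  -- `α ≤ (a+1)/2^r` is certified
  let test : ℕ → ℕ → Bool := fun r t =>
    (((t.unpair.1 == 0) || Lo (t.unpair.1 - 1, r, t.unpair.2.unpair.1)) &&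
      Up (t.unpair.1 + 1, r, t.unpair.2.unpair.2))
  have hfst : Computable (fun p : ℕ × ℕ => p.2.unpair.1) :=
    (Primrec.fst.comp (Primrec.unpair.comp Primrec.snd)).to_comp
  have hsnd : Computable (fun p : ℕ × ℕ => p.2.unpair.2) :=
    (Primrec.snd.comp (Primrec.unpair.comp Primrec.snd)).to_comp
  have hw1 : Computable (fun p : ℕ × ℕ => p.2.unpair.2.unpair.1) :=
    (Primrec.fst.comp (Primrec.unpair.comp
      (Primrec.snd.comp (Primrec.unpair.comp Primrec.snd)))).to_comp
  have hw2 : Computable (fun p : ℕ × ℕ => p.2.unpair.2.unpair.2) :=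
    (Primrec.snd.comp (Primrec.unpair.comp
      (Primrec.snd.comp (Primrec.unpair.comp Primrec.snd)))).to_comp
  have htest : Computable₂ test := by
    have h0 : Computable (fun p : ℕ × ℕ => (p.2.unpair.1 == 0)) := by
      exact (Primrec.beq.to_comp).comp hfst (Computable.const 0)
    have h1 : Computable (fun p : ℕ × ℕ => Lo (p.2.unpair.1 - 1, p.1, p.2.unpair.2.unpair.1)) := by
      refine hLo.comp (Computable.pair ?_ (Computable.pair Computable.fst hw1))
      exact (Primrec.nat_sub.to_comp).comp hfst (Computable.const 1)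
    have h2 : Computable (fun p : ℕ × ℕ => Up (p.2.unpair.1 + 1, p.1, p.2.unpair.2.unpair.2)) := by
      refine hUp.comp (Computable.pair ?_ (Computable.pair Computable.fst hw2))
      exact (Primrec.nat_add.to_comp).comp hfst (Computable.const 1)
    exact (Primrec.and.to_comp).comp ((Primrec.or.to_comp).comp h0 h1) h2
  -- existence of a witness
  have hex : ∀ r, ∃ t, test r t = true := by
    intro r
    have h2 : (0 : ℝ) < 2 ^ r := by positivity
    set a : ℕ := ⌊α * 2 ^ r⌋₊ with ha
    have hle : (a : ℝ) ≤ α * 2 ^ r := Nat.floor_le (by positivity)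
    have hlt : α * 2 ^ r < a + 1 := Nat.lt_floor_add_one _
    obtain ⟨w2, hw2⟩ := up_compl (a + 1) r (by
      rw [lt_div_iff₀ h2]; push_cast; linarith)
    have hL : ∃ w1, ((a == 0) || Lo (a - 1, r, w1)) = true := by
      by_cases h0 : a = 0
      · exact ⟨0, by simp [h0]⟩
      · obtain ⟨w1, hw1⟩ := lo_compl (a - 1) r (by
          rw [div_lt_iff₀ h2]
          have : ((a - 1 : ℕ) : ℝ) = a - 1 := by
            have : 1 ≤ a := Nat.one_le_iff_ne_zero.mpr h0
            push_cast [Nat.cast_sub this]; ring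
          rw [this]; linarith)
        exact ⟨w1, by simp [hw1]⟩
    obtain ⟨w1, hw1⟩ := hL
    refine ⟨Nat.pair a (Nat.pair w1 w2), ?_⟩
    simp only [test, Nat.unpair_pair, Bool.and_eq_true]
    exact ⟨hw1, hw2⟩
  -- the search
  let g : ℕ → ℕ := fun r => Nat.find (hex r)
  have hg : Computable g := by
    have hp : Partrec fun r : ℕ => Nat.rfind ((fun t : ℕ => Part.some (test r t)) : ℕ →. Bool) :=
      Partrec.rfind htest.partrec₂
    refine Partrec.of_eq hp ?_
    intro r
    have : g r ∈ Nat.rfind ((fun t : ℕ => Part.some (test r t)) : ℕ →. Bool) := by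
      refine Nat.mem_rfind.mpr ⟨?_, ?_⟩
      · have := Nat.find_spec (hex r)
        simp [g, this]
      · intro m hm
        have := Nat.find_min (hex r) hm
        simp at this
        simp [this]
    exact Part.eq_some_iff.mpr this
  refine ⟨fun r => (g r).unpair.1, ?_, ?_⟩
  · exact (Primrec.fst.comp Primrec.unpair).to_comp.comp hg
  · intro r
    have h2 : (0 : ℝ) < 2 ^ r := by positivity
    have hs : test r (g r) = true := Nat.find_spec (hex r)
    simp only [test, Bool.and_eq_true, Bool.or_eq_true, beq_iff_eq] at hs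
    obtain ⟨h1, h3⟩ := hs
    show |(((g r).unpair.1 : ℕ) : ℝ) / 2 ^ r - α| ≤ 1 / 2 ^ r
    generalize (g r).unpair.1 = a at *
    have hup := up_sound _ _ _ h3
    push_cast at hup
    rw [abs_le]
    have hsplit : ((a : ℝ) + 1) / 2 ^ r = a / 2 ^ r + 1 / 2 ^ r := by ring
    constructor
    · rw [hsplit] at hup; linarith
    · rcases h1 with h1 | h1
      · rw [h1]; simp
        have : (0 : ℝ) ≤ (2 ^ r)⁻¹ := by positivity
        linarith
      · have hlo := lo_sound _ _ _ h1
        by_cases h0 : a = 0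
        · rw [h0]; simp
          have : (0 : ℝ) ≤ (2 ^ r)⁻¹ := by positivity
          linarith
        · have hc : ((a - 1 : ℕ) : ℝ) = a - 1 := by
            have : 1 ≤ a := Nat.one_le_iff_ne_zero.mpr h0
            push_cast [Nat.cast_sub this]; ring
          rw [hc] at hlo
          have : ((a : ℝ) - 1) / 2 ^ r = a / 2 ^ r - 1 / 2 ^ r := by ring
          rw [this] at hlo
          linarith

end Crest.Agent.R153
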