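import Crest.Agent.R153.CompCount
import Crest.Agent.R153.Cuts

set_option autoImplicit false

/-! Row 153: the left certificate of the 3-SAT threshold.

`Lo C (a, k, w)`, with `w = pair n m`: at least half of the formulas with `m` clauses on `n`
variables are satisfiable and `m / n - C / √n ≥ a / 2 ^ k`. -/

namespace Crest.Agent.R153

open Crest.ProbabilityR.RandomSAT Filter Topology

/-- the relation behind the left certificate -/
def LoRel (C : ℕ) (p : ℕ × ℕ × ℕ) : Prop :=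
  3 ≤ p.2.2.unpair.1 ∧
    totCount p.2.2.unpair.1 p.2.2.unpair.2 ≤ 2 * satCount p.2.2.unpair.1 p.2.2.unpair.2 ∧
    (C ^ 2 * p.2.2.unpair.1) * (2 ^ p.2.1) ^ 2 ≤
      (p.2.2.unpair.2 * 2 ^ p.2.1 - p.1 * p.2.2.unpair.1) ^ 2

open Classical in
/-- the left certificate -/
noncomputable def Lo (C : ℕ) (p : ℕ × ℕ × ℕ) : Bool := decide (LoRel C p)

theorem LoRel_primrec (C : ℕ) : PrimrecPred (LoRel C) := by
  have hn : Primrec (fun p : ℕ × ℕ × ℕ => p.2.2.unpair.1) :=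
    Primrec.fst.comp (Primrec.unpair.comp (Primrec.snd.comp Primrec.snd))
  have hm : Primrec (fun p : ℕ × ℕ × ℕ => p.2.2.unpair.2) :=
    Primrec.snd.comp (Primrec.unpair.comp (Primrec.snd.comp Primrec.snd))
  have ha : Primrec (fun p : ℕ × ℕ × ℕ => p.1) := Primrec.fst
  have hk : Primrec (fun p : ℕ × ℕ × ℕ => p.2.1) := Primrec.fst.comp Primrec.snd
  have h2k : Primrec (fun p : ℕ × ℕ × ℕ => 2 ^ p.2.1) :=
    Crest.Agent.Lib.RatPrimrec.primrec_pow.comp (Primrec.const 2) hk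
  have hsq : ∀ {f : ℕ × ℕ × ℕ → ℕ}, Primrec f → Primrec (fun p => f p ^ 2) := fun hf =>
    Crest.Agent.Lib.RatPrimrec.primrec_pow.comp hf (Primrec.const 2)
  unfold LoRel
  refine (Primrec.nat_le.comp (Primrec.const 3) hn).and
    ((Primrec.nat_le.comp (totCount_primrec.comp hn hm)
      (Primrec.nat_mul.comp (Primrec.const 2) (satCount_primrec.comp hn hm))).and ?_)
  exact Primrec.nat_le.comp
    (Primrec.nat_mul.comp (Primrec.nat_mul.comp (Primrec.const (C ^ 2)) hn) (hsq h2k))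
    (hsq (Primrec.nat_sub.comp (Primrec.nat_mul.comp hm h2k) (Primrec.nat_mul.comp ha hn)))

theorem Lo_computable (C : ℕ) : Computable (Lo C) := by
  classical
  have h := (LoRel_primrec C).decide
  have h' : Primrec (Lo C) := h.of_eq (fun p => by unfold Lo; congr)
  exact h'.to_comp

theorem Lo_iff (C a k n m : ℕ) : Lo C (a, k, Nat.pair n m) = true ↔
    3 ≤ n ∧ totCount n m ≤ 2 * satCount n m ∧
      (C ^ 2 * n) * (2 ^ k) ^ 2 ≤ (m * 2 ^ k - a * n) ^ 2 := by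
  classical
  unfold Lo LoRel
  simp only [decide_eq_true_eq, Nat.unpair_pair]

theorem totCount_pos {n : ℕ} (hn : 3 ≤ n) (m : ℕ) : 0 < totCount n m := by
  unfold totCount
  have h1 : 0 < n - 1 := by omega
  have h2 : 0 < n - 2 := by omega
  have h3 : 0 < n := by omega
  positivity

theorem half_iff {n : ℕ} (hn : 3 ≤ n) (m : ℕ) :
    totCount n m ≤ 2 * satCount n m ↔ (1 : ℝ) / 2 ≤ satProb 3 n m := by
  rw [satProb_eq]
  have h : (0 : ℝ) < totCount n m := by exact_mod_cast totCount_pos hn m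
  rw [div_le_div_iff₀ (by norm_num) h]
  constructor
  · intro h1
    have : (totCount n m : ℝ) ≤ 2 * satCount n m := by exact_mod_cast h1
    linarith
  · intro h1
    have : (totCount n m : ℝ) ≤ 2 * satCount n m := by linarith
    exact_mod_cast this

/-- threshold is nonnegative -/
theorem threshold_nonneg {k : ℕ} {α : ℝ} (hα : IsSharpThreshold (satProb k) α) : 0 ≤ α := by
  by_contra hlt
  push Not at hlt
  have h := (hα 0 le_rfl).2 hlt
  have h1 : (fun n : ℕ => satProb k n ⌊(0 : ℝ) * n⌋₊) = fun _ => 1 := by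
    funext n
    rw [zero_mul, Nat.floor_zero]
    unfold satProb Crest.FinProb.uniformProb
    have hs : ∀ F : Fin 0 → Clause k n, Satisfiable F := fun F => ⟨fun _ => true, fun j => j.elim0⟩
    simp [hs]
  rw [h1] at h
  exact zero_ne_one (tendsto_nhds_unique h tendsto_const_nhds)

theorem Lo_sound {C : ℕ} {α : ℝ}
    (hLC : ∀ n m : ℕ, 3 ≤ n → (1 : ℝ) / 2 ≤ satProb 3 n m → (m : ℝ) / n ≤ α + C / Real.sqrt n)
    (hC : 1 ≤ C) (a k w : ℕ) (h : Lo C (a, k, w) = true) : (a : ℝ) / 2 ^ k ≤ α := by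
  rw [← Nat.pair_unpair w] at h
  generalize w.unpair.1 = n at h
  generalize w.unpair.2 = m at h
  obtain ⟨hn, hh, hq⟩ := (Lo_iff C a k n m).1 h
  have hP := (half_iff hn m).1 hh
  have hL := hLC n m hn hP
  have hn0 : (0 : ℝ) < n := by
    have : 0 < n := by omega
    exact_mod_cast this
  have hs0 : 0 < Real.sqrt n := Real.sqrt_pos.2 hn0
  have h2 : (0 : ℝ) < 2 ^ k := by positivity
  -- the truncated subtraction is a real subtraction
  have hpos : a * n < m * 2 ^ k := by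
    by_contra hle
    push Not at hle
    have h0 : m * 2 ^ k - a * n = 0 := Nat.sub_eq_zero_of_le hle
    rw [h0] at hq
    have : 0 < (C ^ 2 * n) * (2 ^ k) ^ 2 := by
      have : 0 < n := by omega
      positivity
    simp at hq
    rcases hq with h1 | h1 <;> omega
  have hcast : ((m * 2 ^ k - a * n : ℕ) : ℝ) = m * 2 ^ k - a * n := by
    rw [Nat.cast_sub hpos.le]; push_cast; ring
  have hq' : ((C : ℝ) ^ 2 * n) * (2 ^ k) ^ 2 ≤ ((m : ℝ) * 2 ^ k - a * n) ^ 2 := by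
    rw [← hcast]; exact_mod_cast hq
  have hd0 : (0 : ℝ) ≤ (m : ℝ) * 2 ^ k - a * n := by
    rw [← hcast]; positivity
  have hsq : ((C : ℝ) * Real.sqrt n * 2 ^ k) ^ 2 ≤ ((m : ℝ) * 2 ^ k - a * n) ^ 2 := by
    have : ((C : ℝ) * Real.sqrt n * 2 ^ k) ^ 2 = ((C : ℝ) ^ 2 * n) * (2 ^ k) ^ 2 := by
      rw [mul_pow, mul_pow, Real.sq_sqrt hn0.le]
    rw [this]; exact hq'
  have hle : (C : ℝ) * Real.sqrt n * 2 ^ k ≤ (m : ℝ) * 2 ^ k - a * n :=
    (pow_le_pow_iff_left₀ (by positivity) hd0 (by norm_num)).1 hsq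
  have h1 : (C : ℝ) / Real.sqrt n = C * Real.sqrt n / n := by
    rw [div_eq_div_iff hs0.ne' hn0.ne', mul_assoc, Real.mul_self_sqrt hn0.le]
  rw [h1] at hL
  have h3 : (a : ℝ) / 2 ^ k ≤ (m : ℝ) / n - C * Real.sqrt n / n := by
    rw [← sub_div, div_le_div_iff₀ h2 hn0]
    nlinarith [hle]
  linarith

theorem Lo_complete (C : ℕ) {α : ℝ} (hα : IsSharpThreshold (satProb 3) α) (a k : ℕ)
    (h : (a : ℝ) / 2 ^ k < α) : ∃ w, Lo C (a, k, w) = true := by
  obtain ⟨c, hc1, hc2⟩ := exists_between h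
  have ha0 : (0 : ℝ) ≤ (a : ℝ) / 2 ^ k := by positivity
  have hc0 : 0 ≤ c := ha0.trans hc1.le
  have hT := (hα c hc0).1 hc2
  have hev1 : ∀ᶠ n : ℕ in atTop, (1 : ℝ) / 2 ≤ satProb 3 n ⌊c * n⌋₊ :=
    (hT.eventually (lt_mem_nhds (show (1 : ℝ) / 2 < 1 by norm_num))).mono fun n hn => le_of_lt hn
  have hlim : Tendsto (fun n : ℕ => c - 1 / (n : ℝ) - C / Real.sqrt n) atTop (𝓝 (c - 0 - 0)) := by
    refine (tendsto_const_nhds.sub tendsto_one_div_atTop_nhds_zero_nat).sub ?_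
    exact Tendsto.const_div_atTop (Real.tendsto_sqrt_atTop.comp tendsto_natCast_atTop_atTop) _
  have hev2 : ∀ᶠ n : ℕ in atTop, (a : ℝ) / 2 ^ k < c - 1 / (n : ℝ) - C / Real.sqrt n := by
    refine hlim.eventually (lt_mem_nhds ?_)
    simpa using hc1
  obtain ⟨n, ⟨h1, h2⟩, h3⟩ := ((hev1.and hev2).and (eventually_ge_atTop 3)).exists
  refine ⟨Nat.pair n ⌊c * n⌋₊, (Lo_iff _ _ _ _ _).2 ⟨h3, (half_iff h3 _).2 h1, ?_⟩⟩
  set m : ℕ := ⌊c * n⌋₊ with hm
  have hn0 : (0 : ℝ) < n := by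
    have : 0 < n := by omega
    exact_mod_cast this
  have hs0 : 0 < Real.sqrt n := Real.sqrt_pos.2 hn0
  have h2k : (0 : ℝ) < 2 ^ k := by positivity
  have hmge : c * n - 1 ≤ m := (Nat.sub_one_lt_floor (c * n)).le
  have hmn : c - 1 / (n : ℝ) ≤ (m : ℝ) / n := by
    rw [le_div_iff₀ hn0]
    have : (c - 1 / (n : ℝ)) * n = c * n - 1 := by field_simp
    rw [this]; exact hmge
  have h4 : (a : ℝ) / 2 ^ k + C / Real.sqrt n ≤ (m : ℝ) / n := by linarith
  have h5 : (C : ℝ) / Real.sqrt n = C * Real.sqrt n / n := by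
    rw [div_eq_div_iff hs0.ne' hn0.ne', mul_assoc, Real.mul_self_sqrt hn0.le]
  rw [h5] at h4
  have h6 : (C : ℝ) * Real.sqrt n * 2 ^ k ≤ (m : ℝ) * 2 ^ k - a * n := by
    have h7 : (a : ℝ) / 2 ^ k ≤ ((m : ℝ) - C * Real.sqrt n) / n := by
      rw [sub_div]; linarith
    rw [div_le_div_iff₀ h2k hn0] at h7
    nlinarith [h7]
  have hle : a * n ≤ m * 2 ^ k := by
    have h8 : (0 : ℝ) ≤ (C : ℝ) * Real.sqrt n * 2 ^ k := by positivity
    have h9 : (a : ℝ) * n ≤ (m : ℝ) * 2 ^ k := by linarith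
    exact_mod_cast h9
  have hcast : ((m * 2 ^ k - a * n : ℕ) : ℝ) = m * 2 ^ k - a * n := by
    rw [Nat.cast_sub hle]; push_cast; ring
  have h10 : ((C : ℝ) * Real.sqrt n * 2 ^ k) ^ 2 ≤ ((m : ℝ) * 2 ^ k - a * n) ^ 2 :=
    pow_le_pow_left₀ (by positivity) h6 2
  have h11 : ((C : ℝ) * Real.sqrt n * 2 ^ k) ^ 2 = ((C : ℝ) ^ 2 * n) * (2 ^ k) ^ 2 := by
    rw [mul_pow, mul_pow, Real.sq_sqrt hn0.le]
  rw [h11, ← hcast] at h10
  exact_mod_cast h10

/-- **Left certificate.**  From helper888's left cut statement. -/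
theorem exists_left_certificate {α : ℝ} (hα : IsSharpThreshold (satProb 3) α)
    (hLC : ∃ C : ℝ, 0 ≤ C ∧ ∀ n m : ℕ, 3 ≤ n → (1 : ℝ) / 2 ≤ satProb 3 n m →
      (m : ℝ) / n ≤ α + C / Real.sqrt n) :
    ∃ Lo : ℕ × ℕ × ℕ → Bool, Computable Lo ∧
      (∀ a k w : ℕ, Lo (a, k, w) = true → (a : ℝ) / 2 ^ k ≤ α) ∧
      (∀ a k : ℕ, (a : ℝ) / 2 ^ k < α → ∃ w, Lo (a, k, w) = true) := by
  obtain ⟨C, hC0, hC⟩ := hLC
  refine ⟨Lo (⌈C⌉₊ + 1), Lo_computable _, fun a k w h => ?_, fun a k h => Lo_complete _ hα a k h⟩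
  refine Lo_sound (C := ⌈C⌉₊ + 1) (fun n m hn hP => (hC n m hn hP).trans ?_) (by omega) a k w h
  have h1 : C ≤ ((⌈C⌉₊ + 1 : ℕ) : ℝ) := by
    push_cast
    linarith [Nat.le_ceil C]
  have h2 : C / Real.sqrt n ≤ ((⌈C⌉₊ + 1 : ℕ) : ℝ) / Real.sqrt n :=
    div_le_div_of_nonneg_right h1 (Real.sqrt_nonneg _)
  linarith

end Crest.Agent.R153
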