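import Crest.Agent.R153.LevelDefs

/-! Row 153: the occupation times of the energy levels (helper211), part G4.

`lenJ J F` = number of prefixes of `F` with minimal cost exactly `J`; `lossJ J c F` = number of
prefixes of `F` whose minimal cost is `≤ J`, but `> J` once the clause `c` is added.

`J * (lenJ J F)^2 ≤ Σ_i (lossJ (J-1) F_i (F without F_i))^2`. -/

set_option autoImplicit false

open Crest.ProbabilityR.RandomSAT

namespace Crest.Agent.R153

section er
variable {α : Type*}

/-- `Σ_i g (F_i) (F without its i-th entry)` -/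
def er (g : α → List α → ℝ) : List α → ℝ
  | [] => 0
  | c :: F => g c F + er (fun d G => g d (c :: G)) F

theorem er_nil (g : α → List α → ℝ) : er g [] = 0 := by simp only [er]

theorem er_cons (g : α → List α → ℝ) (c : α) (F : List α) :
    er g (c :: F) = g c F + er (fun d G => g d (c :: G)) F := by simp only [er]

theorem er_nonneg : ∀ (F : List α) {g : α → List α → ℝ}, (∀ c G, 0 ≤ g c G) → 0 ≤ er g F
  | [], g, _ => by rw [er_nil]
  | c :: F, g, h => by
    rw [er_cons]
    exact add_nonneg (h c F) (er_nonneg F fun d G => h d (c :: G))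

theorem er_append_ge : ∀ (A B : List α) {g : α → List α → ℝ}, (∀ c G, 0 ≤ g c G) →
    er (fun c G => g c (G ++ B)) A ≤ er g (A ++ B)
  | [], B, g, h => by
    rw [er_nil, List.nil_append]
    exact er_nonneg B h
  | a :: A, B, g, h => by
    rw [er_cons, List.cons_append, er_cons]
    have := er_append_ge A B (g := fun d G => g d (a :: G)) (fun d G => h d (a :: G))
    simp only [List.cons_append]
    linarith

/-- exchangeability -/
theorem EL_er [Fintype α] : ∀ (M : ℕ) (g : α → List α → ℝ),
    EL (M + 1) (er g) = (M + 1 : ℝ) * avg (fun c => EL M (g c)) := by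
  intro M
  induction M with
  | zero =>
    intro g
    rw [EL_succ]
    simp only [Nat.cast_zero, zero_add, one_mul]
    refine avg_congr fun c => ?_
    show er g [c] = g c []
    rw [er_cons, er_nil, add_zero]
  | succ M ih =>
    intro g
    rw [EL_succ]
    have h1 : ∀ c : α, EL (M + 1) (fun F => er g (c :: F)) =
        EL (M + 1) (g c) + (M + 1 : ℝ) * avg (fun d => EL M (fun G => g d (c :: G))) := by
      intro c
      rw [EL_congr fun F => er_cons g c F, EL_add]
      congr 1
      exact ih (fun d G => g d (c :: G))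
    rw [avg_congr h1, avg_add, avg_const_mul, avg_comm]
    have h2 : avg (fun d => avg (fun c => EL M (fun G => g d (c :: G)))) =
        avg (fun d => EL (M + 1) (g d)) := rfl
    rw [h2]
    push_cast
    ring

end er

variable {k n : ℕ}

/-- number of prefixes (from the empty one to `F` itself) with minimal cost exactly `J` -/
noncomputable def lenJ (J : ℕ) (F : List (Clause k n)) : ℕ :=
  ((Finset.range (F.length + 1)).filter (fun m => mc (F.take m) = J)).card

/-- number of prefixes with minimal cost `≤ J` for which adding `c` gives minimal cost `> J` -/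
noncomputable def lossJ (J : ℕ) (c : Clause k n) (F : List (Clause k n)) : ℕ :=
  ((Finset.range (F.length + 1)).filter
    (fun m => mc (F.take m) ≤ J ∧ J < mc (c :: F.take m))).card

theorem er_ge (σ : Asg n) (v : ℝ) : ∀ (A : List (Clause k n))
    {g : Clause k n → List (Clause k n) → ℝ}, (∀ c G, 0 ≤ g c G) →
    (∀ c G, (c :: G).Perm A → viol σ c = 1 → v ≤ g c G) →
    v * (vc σ A : ℝ) ≤ er g A
  | [], g, _, _ => by simp [er_nil]
  | a :: A, g, h0, h => by
    rw [er_cons, vc_cons]
    push_cast
    have ih := er_ge σ v A (g := fun d G => g d (a :: G)) (fun d G => h0 d (a :: G))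
      (fun c G hp hc => h c (a :: G) ((List.Perm.swap a c G).trans (hp.cons a)) hc)
    have h1 : v * (viol σ a : ℝ) ≤ g a A := by
      rcases Nat.lt_or_ge (viol σ a) 1 with hv | hv
      · have : viol σ a = 0 := by omega
        rw [this]
        simpa using h0 a A
      · have : viol σ a = 1 := le_antisymm (viol_le_one σ a) hv
        rw [this]
        simpa using h a A (List.Perm.refl _) this
    linarith

theorem loss_ge {J : ℕ} (hJ : 1 ≤ J) (F : List (Clause k n)) (T : ℕ) (hTF : T ≤ F.length)
    (hlev : ∀ m, mc (F.take m) = J → T ≤ m) (σ : Asg n)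
    (hσ : ∀ m, m ≤ F.length → mc (F.take m) = J → vc σ (F.take m) = J)
    (c : Clause k n) (G : List (Clause k n)) (hperm : (c :: G).Perm (F.take T))
    (hc : viol σ c = 1) : lenJ J F ≤ lossJ (J - 1) c (G ++ F.drop T) := by
  have hlen : G.length + 1 = T := by
    have := hperm.length_eq
    rw [List.length_cons, List.length_take, min_eq_left hTF] at this
    exact this
  have hlen2 : (G ++ F.drop T).length + 1 = F.length := by
    rw [List.length_append, List.length_drop]; omega
  refine Finset.card_le_card_of_injOn (fun m => m - 1) ?_ ?_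
  · intro m hm
    simp only [Finset.coe_filter, Finset.mem_range, Set.mem_ofPred_eq] at hm ⊢
    obtain ⟨hm1, hm2⟩ := hm
    have hTm : T ≤ m := hlev m hm2
    have e1 : F.take m = F.take T ++ (F.drop T).take (m - T) := by
      conv_lhs => rw [show m = T + (m - T) by omega]
      rw [List.take_add]
    have e2 : (G ++ F.drop T).take (m - 1) = G ++ (F.drop T).take (m - T) := by
      rw [List.take_append, List.take_of_length_le (by omega)]
      congr 2
      omega
    have e3 : (c :: (G ++ (F.drop T).take (m - T))).Perm (F.take m) := by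
      rw [e1, ← List.cons_append]
      exact hperm.append_right _
    have e4 := vc_perm σ e3
    rw [hσ m (by omega) hm2, vc_cons, hc] at e4
    refine ⟨by omega, ?_, ?_⟩
    · rw [e2]
      refine (mc_le σ _).trans ?_
      omega
    · rw [e2, mc_perm e3, hm2]
      omega
  · intro m hm m' hm' h
    simp only [Finset.coe_filter, Finset.mem_range, Set.mem_ofPred_eq] at hm hm' h
    have h1 := hlev m hm.2
    have h2 := hlev m' hm'.2
    omega

theorem core_le {J : ℕ} (hJ : 1 ≤ J) (F : List (Clause k n)) :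
    (J : ℝ) * (lenJ J F : ℝ) ^ 2 ≤ er (fun c G => (lossJ (J - 1) c G : ℝ) ^ 2) F := by
  have hnn : ∀ (c : Clause k n) (G : List (Clause k n)), (0 : ℝ) ≤ (lossJ (J - 1) c G : ℝ) ^ 2 :=
    fun c G => by positivity
  set S := (Finset.range (F.length + 1)).filter (fun m => mc (F.take m) = J) with hS
  rcases S.eq_empty_or_nonempty with hemp | hne
  · have : lenJ J F = 0 := by
      unfold lenJ; rw [← hS, hemp, Finset.card_empty]
    rw [this]
    simpa using er_nonneg F hnn
  · set T := S.min' hne with hT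
    set U := S.max' hne with hU
    have hTS : T ∈ S := S.min'_mem hne
    have hUS : U ∈ S := S.max'_mem hne
    have hTF : T ≤ F.length := by
      have := (Finset.mem_filter.1 hTS).1
      rw [Finset.mem_range] at this; omega
    have hTJ : mc (F.take T) = J := (Finset.mem_filter.1 hTS).2
    have hUJ : mc (F.take U) = J := (Finset.mem_filter.1 hUS).2
    have hlev' : ∀ m, m ≤ F.length → mc (F.take m) = J → T ≤ m := by
      intro m hm1 hm2
      exact S.min'_le m (Finset.mem_filter.2 ⟨Finset.mem_range.2 (by omega), hm2⟩)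
    have hlev : ∀ m, mc (F.take m) = J → T ≤ m := by
      intro m hm
      rcases le_or_gt m F.length with h | h
      · exact hlev' m h hm
      · exact hTF.trans h.le
    obtain ⟨σ, hσ0⟩ := exists_mc (F.take U)
    have hσ : ∀ m, m ≤ F.length → mc (F.take m) = J → vc σ (F.take m) = J := by
      intro m hm1 hm2
      apply le_antisymm
      · have hmU : m ≤ U := S.le_max' m (Finset.mem_filter.2 ⟨Finset.mem_range.2 (by omega), hm2⟩)
        have : vc σ (F.take m) ≤ vc σ (F.take U) :=
          vc_sublist σ (List.take_sublist_take_left hmU)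
        omega
      · have := mc_le σ (F.take m)
        omega
    have h1 := er_append_ge (F.take T) (F.drop T) hnn
    rw [List.take_append_drop] at h1
    refine le_trans ?_ h1
    have h2 := er_ge σ ((lenJ J F : ℝ) ^ 2) (F.take T)
      (g := fun c G => (lossJ (J - 1) c (G ++ F.drop T) : ℝ) ^ 2) (fun c G => hnn c _)
      (fun c G hp hc => by
        have := loss_ge hJ F T hTF hlev σ hσ c G hp hc
        have h3 : (lenJ J F : ℝ) ≤ (lossJ (J - 1) c (G ++ F.drop T) : ℝ) := by exact_mod_cast this
        exact pow_le_pow_left₀ (Nat.cast_nonneg _) h3 2)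
    rw [hσ T hTF hTJ] at h2
    linarith

/-- expectation form -/
theorem EL_core {J : ℕ} (hJ : 1 ≤ J) (M : ℕ) (A : ℝ)
    (hA : avg (fun c : Clause k n => EL M (fun F => (lossJ (J - 1) c F : ℝ) ^ 2)) ≤ A) :
    (J : ℝ) * EL (M + 1) (fun F : List (Clause k n) => (lenJ J F : ℝ) ^ 2) ≤ (M + 1) * A := by
  rw [← EL_const_mul]
  refine (EL_mono fun F => core_le hJ F).trans ?_
  have e := EL_er M (fun (c : Clause k n) F => (lossJ (J - 1) c F : ℝ) ^ 2)
  refine (le_of_eq e).trans ?_
  exact mul_le_mul_of_nonneg_left hA (by positivity)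

theorem EL_lenJ_le {J : ℕ} (hJ : 1 ≤ J) (M : ℕ) (A : ℝ)
    (hA : avg (fun c : Clause k n => EL M (fun F => (lossJ (J - 1) c F : ℝ) ^ 2)) ≤ A) :
    EL (M + 1) (fun F : List (Clause k n) => (lenJ J F : ℝ)) ≤
      Real.sqrt ((M + 1) * A) * (1 / Real.sqrt J) := by
  have h1 := EL_core hJ M A hA
  have hJ0 : (0 : ℝ) < J := by exact_mod_cast hJ
  have h2 := sq_EL_le (M + 1) (fun F : List (Clause k n) => (lenJ J F : ℝ))
  have h3 : EL (M + 1) (fun F : List (Clause k n) => (lenJ J F : ℝ)) ^ 2 ≤
      ((M + 1) * A) / J := by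
    rw [le_div_iff₀ hJ0]
    nlinarith
  refine (Real.le_sqrt_of_sq_le h3).trans (le_of_eq ?_)
  rw [Real.sqrt_div' _ hJ0.le]
  ring

theorem sum_inv_sqrt_le (D : ℕ) :
    ∑ J ∈ Finset.Icc 1 D, (1 / Real.sqrt J) ≤ 2 * Real.sqrt D := by
  induction D with
  | zero => simp
  | succ D ih =>
    rw [Finset.sum_Icc_succ_top (by omega)]
    have h0 : (0 : ℝ) < Real.sqrt ((D : ℝ) + 1) := Real.sqrt_pos.2 (by positivity)
    have h1 : Real.sqrt ((D : ℝ) + 1) ^ 2 = D + 1 := Real.sq_sqrt (by positivity)
    have h2 : Real.sqrt (D : ℝ) ^ 2 = D := Real.sq_sqrt (by positivity)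
    have h3 : 0 ≤ Real.sqrt (D : ℝ) := Real.sqrt_nonneg _
    have h4 : 1 / Real.sqrt ((D : ℝ) + 1) ≤ 2 * Real.sqrt ((D : ℝ) + 1) - 2 * Real.sqrt D := by
      rw [div_le_iff₀ h0]
      nlinarith [sq_nonneg (Real.sqrt ((D : ℝ) + 1) - Real.sqrt (D : ℝ))]
    push_cast
    linarith

/-- total time spent in the levels `1, …, D` -/
theorem EL_sum_lenJ_le (D M : ℕ) (A : ℝ)
    (hA : ∀ J, 1 ≤ J → J ≤ D →
      avg (fun c : Clause k n => EL M (fun F => (lossJ (J - 1) c F : ℝ) ^ 2)) ≤ A) :
    EL (M + 1) (fun F : List (Clause k n) => ∑ J ∈ Finset.Icc 1 D, (lenJ J F : ℝ)) ≤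
      2 * Real.sqrt ((M + 1) * A) * Real.sqrt D := by
  rw [EL_sum]
  calc ∑ J ∈ Finset.Icc 1 D, EL (M + 1) (fun F : List (Clause k n) => (lenJ J F : ℝ))
      ≤ ∑ J ∈ Finset.Icc 1 D, Real.sqrt ((M + 1) * A) * (1 / Real.sqrt J) :=
        Finset.sum_le_sum fun J hJ => by
          rw [Finset.mem_Icc] at hJ
          exact EL_lenJ_le hJ.1 M A (hA J hJ.1 hJ.2)
    _ = Real.sqrt ((M + 1) * A) * ∑ J ∈ Finset.Icc 1 D, (1 / Real.sqrt J) := by
        rw [Finset.mul_sum]
    _ ≤ Real.sqrt ((M + 1) * A) * (2 * Real.sqrt D) :=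
        mul_le_mul_of_nonneg_left (sum_inv_sqrt_le D) (Real.sqrt_nonneg _)
    _ = _ := by ring

/-- counting: the prefixes between `m₀` and `M` all have level in `1..D` unless `F.take m₀` is
satisfiable or the final level exceeds `D` -/
theorem sum_lenJ_ge (D m₀ : ℕ) (F : List (Clause k n)) (hm : m₀ ≤ F.length) :
    ((F.length : ℝ) - m₀) * (1 - (if mc (F.take m₀) = 0 then 1 else 0) - (mc F : ℝ) / (D + 1)) ≤
      ∑ J ∈ Finset.Icc 1 D, (lenJ J F : ℝ) := by
  have hnn : (0 : ℝ) ≤ ∑ J ∈ Finset.Icc 1 D, (lenJ J F : ℝ) :=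
    Finset.sum_nonneg fun J _ => Nat.cast_nonneg _
  have hlm : (0 : ℝ) ≤ (F.length : ℝ) - m₀ := by
    have : (m₀ : ℝ) ≤ F.length := by exact_mod_cast hm
    linarith
  have hD : (0 : ℝ) < (D : ℝ) + 1 := by positivity
  have hq : (0 : ℝ) ≤ (mc F : ℝ) / (D + 1) := by positivity
  by_cases h0 : mc (F.take m₀) = 0
  · rw [if_pos h0]
    refine le_trans ?_ hnn
    exact mul_nonpos_of_nonneg_of_nonpos hlm (by linarith)
  rw [if_neg h0]
  by_cases hF : D < mc F
  · refine le_trans ?_ hnn
    refine mul_nonpos_of_nonneg_of_nonpos hlm ?_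
    have : (1 : ℝ) ≤ (mc F : ℝ) / (D + 1) := by
      rw [le_div_iff₀ hD, one_mul]
      exact_mod_cast hF
    linarith
  push Not at hF
  have h1 : ((Finset.Icc m₀ F.length).card : ℝ) ≤ ∑ J ∈ Finset.Icc 1 D, (lenJ J F : ℝ) := by
    have h2 : (Finset.Icc m₀ F.length) ⊆ (Finset.Icc 1 D).biUnion (fun J =>
        (Finset.range (F.length + 1)).filter (fun m => mc (F.take m) = J)) := by
      intro m hm'
      rw [Finset.mem_Icc] at hm'
      rw [Finset.mem_biUnion]
      refine ⟨mc (F.take m), ?_, ?_⟩
      · rw [Finset.mem_Icc]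
        have h3 : mc (F.take m₀) ≤ mc (F.take m) :=
          mc_sublist (List.take_sublist_take_left hm'.1)
        have h4 : mc (F.take m) ≤ mc F := mc_sublist (List.take_sublist _ _)
        omega
      · rw [Finset.mem_filter, Finset.mem_range]
        exact ⟨by omega, rfl⟩
    have h5 := (Finset.card_le_card h2).trans Finset.card_biUnion_le
    have h6 : (((Finset.Icc m₀ F.length).card : ℕ) : ℝ) ≤
        ((∑ J ∈ Finset.Icc 1 D, lenJ J F : ℕ) : ℝ) := by exact_mod_cast h5
    rw [Nat.cast_sum] at h6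
    exact h6
  rw [Nat.card_Icc] at h1
  have h7 : ((F.length + 1 - m₀ : ℕ) : ℝ) = F.length + 1 - m₀ := by
    rw [Nat.cast_sub (by omega)]; push_cast; ring
  rw [h7] at h1
  have h8 : ((F.length : ℝ) - m₀) * (1 - 0 - (mc F : ℝ) / (D + 1)) ≤ (F.length : ℝ) - m₀ := by
    have : (1 - 0 - (mc F : ℝ) / (D + 1)) ≤ 1 := by linarith
    nlinarith
  linarith

end Crest.Agent.R153
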