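import Crest.Agent.R153.Basic

/-! Row 153 (S0217): abstract second moment identities for losses (helper638).

`S` is a type of states, `C` a type of clauses, `cutS` the action of a clause, `al X` the indicator
that the state is alive. -/

set_option autoImplicit false

namespace Crest.Agent.R153.LossAbs

variable {S C : Type*}

/-- number of prefixes with state alive -/
noncomputable def hitA (cutS : S → C → S) (al : S → ℝ) : S → List C → ℝ
  | X, [] => al X
  | X, c :: F => al X + hitA cutS al (cutS X c) F

/-- weighted sum over prefixes -/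
noncomputable def WA (cutS : S → C → S) (al w : S → ℝ) : S → List C → ℝ
  | X, [] => w X * (2 * hitA cutS al X [] - 1)
  | X, c :: F => w X * (2 * hitA cutS al X (c :: F) - 1) + WA cutS al w (cutS X c) F

variable {cutS : S → C → S} {al : S → ℝ}

theorem hitA_dead (hc : ∀ X c, al X = 0 → al (cutS X c) = 0) (F : List C) :
    ∀ X, al X = 0 → hitA cutS al X F = 0 := by
  induction F with
  | nil => intro X h; exact h
  | cons c F ih =>
    intro X h
    show al X + hitA cutS al (cutS X c) F = 0
    rw [h, ih _ (hc X c h), add_zero]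

theorem hitA_nonneg (h01 : ∀ X, al X = 0 ∨ al X = 1) (F : List C) :
    ∀ X, 0 ≤ hitA cutS al X F := by
  have h0 : ∀ X, 0 ≤ al X := fun X => by
    rcases h01 X with h | h <;> rw [h]
    exact zero_le_one
  induction F with
  | nil => intro X; exact h0 X
  | cons c F ih => intro X; exact add_nonneg (h0 X) (ih _)

theorem al_le_hitA (h01 : ∀ X, al X = 0 ∨ al X = 1) (F : List C) (X : S) :
    al X ≤ hitA cutS al X F := by
  cases F with
  | nil => exact le_rfl
  | cons c F =>
    show al X ≤ al X + hitA cutS al (cutS X c) F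
    linarith [hitA_nonneg (cutS := cutS) h01 F (cutS X c)]

theorem loss_sq (h01 : ∀ X, al X = 0 ∨ al X = 1) (hc : ∀ X c, al X = 0 → al (cutS X c) = 0)
    (K : S → S) (hK : ∀ X, al X = 0 → al (K X) = 0) (hKc : ∀ X c, K (cutS X c) = cutS (K X) c)
    (F : List C) : ∀ X, (hitA cutS al X F - hitA cutS al (K X) F) ^ 2 =
      WA cutS al (fun X => al X - al (K X)) X F := by
  induction F with
  | nil =>
    intro X
    show (al X - al (K X)) ^ 2 = (al X - al (K X)) * (2 * al X - 1)
    rcases h01 X with h | h
    · rw [h, hK X h]; ring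
    · rcases h01 (K X) with h' | h' <;> rw [h, h'] <;> ring
  | cons c F ih =>
    intro X
    show ((al X + hitA cutS al (cutS X c) F) - (al (K X) + hitA cutS al (cutS (K X) c) F)) ^ 2 =
      (al X - al (K X)) * (2 * (al X + hitA cutS al (cutS X c) F) - 1) +
        WA cutS al (fun X => al X - al (K X)) (cutS X c) F
    rw [← ih (cutS X c), hKc X c]
    rcases h01 X with h | h
    · rw [h, hK X h, hitA_dead hc F _ (hc _ c h), hitA_dead hc F _ (hc _ c (hK X h))]; ring
    · rcases h01 (K X) with h' | h'
      · rw [h, h', hitA_dead hc F _ (hc _ c h')]; ring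
      · rw [h, h']; ring

/-- number of prefixes with frozen state -/
noncomputable def TA (cutS : S → C → S) (fr : S → ℝ) : S → List C → ℝ
  | X, [] => fr X
  | X, c :: F => fr X + TA cutS fr (cutS X c) F

theorem TA_eq_hitA {fr : S → ℝ}
    (hfr : ∀ X c, fr X = al X → fr (cutS X c) = al (cutS X c)) (F : List C) :
    ∀ X, fr X = al X → TA cutS fr X F = hitA cutS al X F := by
  induction F with
  | nil => intro X h; exact h
  | cons c F ih =>
    intro X h
    show fr X + TA cutS fr (cutS X c) F = al X + hitA cutS al (cutS X c) F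
    rw [h, ih _ (hfr X c h)]

theorem TA_sq {fr : S → ℝ} (hf01 : ∀ X, fr X = 0 ∨ fr X = 1)
    (hfr : ∀ X c, fr X = al X → fr (cutS X c) = al (cutS X c)) (hfa : ∀ X, fr X = 1 → al X = 1)
    (F : List C) : ∀ X, (TA cutS fr X F) ^ 2 = WA cutS al fr X F := by
  induction F with
  | nil =>
    intro X
    show (fr X) ^ 2 = fr X * (2 * al X - 1)
    rcases hf01 X with h | h
    · rw [h]; ring
    · rw [h, hfa X h]; ring
  | cons c F ih =>
    intro X
    show (fr X + TA cutS fr (cutS X c) F) ^ 2 =
      fr X * (2 * (al X + hitA cutS al (cutS X c) F) - 1) + WA cutS al fr (cutS X c) F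
    rw [← ih (cutS X c)]
    rcases hf01 X with h | h
    · rw [h]; ring
    · have h1 := hfa X h
      have h2 : TA cutS fr (cutS X c) F = hitA cutS al (cutS X c) F :=
        TA_eq_hitA hfr F _ (hfr X c (h.trans h1.symm))
      rw [h, h1, h2]; ring

theorem WA_congr {w w' : S → ℝ} (h : ∀ X, w X = w' X) (X : S) (F : List C) :
    WA cutS al w X F = WA cutS al w' X F := by
  rw [funext h]

theorem WA_mono (h01 : ∀ X, al X = 0 ∨ al X = 1) {w w' : S → ℝ} (h : ∀ X, w X ≤ w' X)
    (h0 : ∀ X, al X = 0 → w X = w' X) (F : List C) :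
    ∀ X, WA cutS al w X F ≤ WA cutS al w' X F := by
  have key : ∀ X (F : List C), w X * (2 * hitA cutS al X F - 1) ≤
      w' X * (2 * hitA cutS al X F - 1) := by
    intro X F
    rcases h01 X with hX | hX
    · rw [h0 X hX]
    · have := al_le_hitA (cutS := cutS) h01 F X
      exact mul_le_mul_of_nonneg_right (h X) (by linarith)
  induction F with
  | nil => intro X; exact key X []
  | cons c F ih => intro X; exact add_le_add (key X (c :: F)) (ih _)

theorem WA_lin (a : ℝ) (w w' : S → ℝ) (F : List C) :
    ∀ X, WA cutS al (fun X => a * w X + w' X) X F = a * WA cutS al w X F + WA cutS al w' X F := by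
  induction F with
  | nil =>
    intro X
    show (a * w X + w' X) * _ = a * (w X * _) + w' X * _
    ring
  | cons c F ih =>
    intro X
    show (a * w X + w' X) * (2 * hitA cutS al X (c :: F) - 1) +
      WA cutS al (fun X => a * w X + w' X) (cutS X c) F =
      a * (w X * (2 * hitA cutS al X (c :: F) - 1) + WA cutS al w (cutS X c) F) +
      (w' X * (2 * hitA cutS al X (c :: F) - 1) + WA cutS al w' (cutS X c) F)
    rw [ih]; ring

theorem WA_avg {ι : Type*} [Fintype ι] (w : ι → S → ℝ) (F : List C) :
    ∀ X, avg (fun i => WA cutS al (w i) X F) = WA cutS al (fun X => avg (fun i => w i X)) X F := by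
  induction F with
  | nil =>
    intro X
    show avg (fun i => w i X * _) = avg (fun i => w i X) * _
    rw [avg_mul_const]
  | cons c F ih =>
    intro X
    show avg (fun i => w i X * (2 * hitA cutS al X (c :: F) - 1) + WA cutS al (w i) (cutS X c) F) =
      avg (fun i => w i X) * (2 * hitA cutS al X (c :: F) - 1) +
        WA cutS al (fun X => avg (fun i => w i X)) (cutS X c) F
    rw [avg_add, avg_mul_const, ih]

/-- abstract form of the second moment bound -/
theorem avg_loss_sq_gen {ι κ : Type*} [Fintype ι] [Fintype κ]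
    (h01 : ∀ X, al X = 0 ∨ al X = 1) (hc : ∀ X c, al X = 0 → al (cutS X c) = 0)
    (K : ι → S → S) (hK : ∀ i X, al X = 0 → al (K i X) = 0)
    (hKc : ∀ i X c, K i (cutS X c) = cutS (K i X) c)
    (L : κ → S → S) (hL : ∀ i X, al X = 0 → al (L i X) = 0)
    (hLc : ∀ i X c, L i (cutS X c) = cutS (L i X) c)
    {fr : S → ℝ} (hf01 : ∀ X, fr X = 0 ∨ fr X = 1)
    (hfr : ∀ X c, fr X = al X → fr (cutS X c) = al (cutS X c)) (hfa : ∀ X, fr X = 1 → al X = 1)
    (a b c : ℝ) (wt : κ → ℝ) (hle : ∀ X, al X = 1 → avg (fun i => al X - al (K i X)) ≤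
      a * avg (fun l => wt l * (al X - al (L l X))) + (b * fr X + c))
    (X : S) (F : List C) :
    avg (fun i => (hitA cutS al X F - hitA cutS al (K i X) F) ^ 2) ≤
      a * avg (fun l => wt l * (hitA cutS al X F - hitA cutS al (L l X) F) ^ 2) +
        (b * (TA cutS fr X F) ^ 2 + c * (hitA cutS al X F) ^ 2) := by
  have e0 : ∀ X, al X = 0 → fr X = 0 := by
    intro X h
    rcases hf01 X with h' | h'
    · exact h'
    · have := hfa X h'; rw [h] at this; norm_num at this
  have hmul : ∀ (r : ℝ) (w : S → ℝ) (F : List C) (X : S),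
      r * WA cutS al w X F = WA cutS al (fun X => r * w X) X F := by
    intro r w F
    induction F with
    | nil => intro X; show r * (w X * _) = r * w X * _; ring
    | cons c F ih =>
      intro X
      show r * (w X * (2 * hitA cutS al X (c :: F) - 1) + WA cutS al w (cutS X c) F) =
        r * w X * (2 * hitA cutS al X (c :: F) - 1) + WA cutS al (fun X => r * w X) (cutS X c) F
      rw [← ih]; ring
  have hit2 : (hitA cutS al X F) ^ 2 = WA cutS al al X F := by
    rw [← TA_sq h01 (fun _ _ _ => rfl) (fun _ h => h) F X, TA_eq_hitA (fun _ _ _ => rfl) F X rfl]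
  rw [avg_congr fun i => loss_sq h01 hc (K i) (hK i) (hKc i) F X,
    avg_congr fun l => (by rw [loss_sq h01 hc (L l) (hL l) (hLc l) F X, hmul] :
      wt l * (hitA cutS al X F - hitA cutS al (L l X) F) ^ 2 =
        WA cutS al (fun X => wt l * (al X - al (L l X))) X F),
    TA_sq hf01 hfr hfa F X, hit2, hmul c, WA_avg, WA_avg, ← WA_lin, ← WA_lin]
  refine WA_mono h01 ?_ ?_ F X
  · intro X
    rcases h01 X with h | h
    · have h1 : avg (fun i => al X - al (K i X)) = 0 := by
        rw [avg_congr fun i => (by rw [h, hK i X h, sub_zero] : al X - al (K i X) = 0), avg_zero]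
      have h2 : avg (fun l => wt l * (al X - al (L l X))) = 0 := by
        rw [avg_congr fun l => (by rw [h, hL l X h, sub_zero, mul_zero] :
          wt l * (al X - al (L l X)) = 0), avg_zero]
      rw [h1, h2, e0 X h, h]; simp
    · refine (hle X h).trans (le_of_eq ?_)
      rw [h, mul_one]
  · intro X h
    have h1 : avg (fun i => al X - al (K i X)) = 0 := by
      rw [avg_congr fun i => (by rw [h, hK i X h, sub_zero] : al X - al (K i X) = 0), avg_zero]
    have h2 : avg (fun l => wt l * (al X - al (L l X))) = 0 := by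
      rw [avg_congr fun l => (by rw [h, hL l X h, sub_zero, mul_zero] :
        wt l * (al X - al (L l X)) = 0), avg_zero]
    rw [h1, h2, e0 X h, h]; simp

end Crest.Agent.R153.LossAbs
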