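import Crest.Agent.R153.Frozen
import Crest.Agent.R153.LossAbs

/-! Row 153 (S0217), task LOSSSQ (helper638). -/

set_option autoImplicit false

open Crest.ProbabilityR.RandomSAT

namespace Crest.Agent.R153

section aux
variable {k n : ℕ}

theorem hit_eq_hitA (F : List (Clause k n)) :
    ∀ X : Finset (Asg n), hit X F = LossAbs.hitA cut ne X F := by
  induction F with
  | nil => intro X; rfl
  | cons c F ih =>
    intro X
    show ne X + hit (cut X c) F = ne X + LossAbs.hitA cut ne (cut X c) F
    rw [ih]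

theorem Teps_eq_TA (ε : ℝ) (F : List (Clause k n)) :
    ∀ X : Finset (Asg n), Teps ε X F = LossAbs.TA cut (frz ε) X F := by
  induction F with
  | nil => intro X; rfl
  | cons c F ih =>
    intro X
    show frz ε X + Teps ε (cut X c) F = frz ε X + LossAbs.TA cut (frz ε) (cut X c) F
    rw [ih]

theorem ne_zero_or_one (X : Finset (Asg n)) : ne X = 0 ∨ ne X = 1 := by
  unfold ne; split_ifs
  · exact Or.inr rfl
  · exact Or.inl rfl

theorem nonempty_of_ne_one {X : Finset (Asg n)} (h : ne X = 1) : X.Nonempty := by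
  by_contra h'
  rw [ne_eq_zero h'] at h
  norm_num at h

theorem ne_zero_of_subset {X Y : Finset (Asg n)} (h : X ⊆ Y) (hY : ne Y = 0) : ne X = 0 :=
  le_antisymm ((ne_mono h).trans hY.le) (ne_nonneg X)

theorem frz_zero_or_one (ε : ℝ) (X : Finset (Asg n)) : frz ε X = 0 ∨ frz ε X = 1 := by
  unfold frz; split_ifs
  · exact Or.inr rfl
  · exact Or.inl rfl

theorem frz_one_iff (ε : ℝ) (X : Finset (Asg n)) : frz ε X = 1 ↔ X.Nonempty ∧ ε < phi1 X := by
  unfold frz; split_ifs with h
  · exact ⟨fun _ => h, fun _ => rfl⟩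
  · exact ⟨fun h' => by norm_num at h', fun h' => absurd h' h⟩

theorem ne_of_frz_one {ε : ℝ} {X : Finset (Asg n)} (h : frz ε X = 1) : ne X = 1 :=
  ne_of_nonempty ((frz_one_iff ε X).1 h).1

theorem frz_step (ε : ℝ) (X : Finset (Asg n)) (c : Clause k n) (h : frz ε X = ne X) :
    frz ε (cut X c) = ne (cut X c) := by
  rcases ne_zero_or_one (cut X c) with h0 | h1
  · rcases frz_zero_or_one ε (cut X c) with h2 | h2
    · rw [h0, h2]
    · rw [ne_of_frz_one h2] at h0; norm_num at h0
  · have hX : ne X = 1 := by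
      rcases ne_zero_or_one X with h2 | h2
      · rw [ne_zero_of_subset (cut_subset X c) h2] at h1; norm_num at h1
      · exact h2
    rw [hX] at h
    have h3 := (frz_one_iff ε X).1 h
    rw [h1, frz_one_iff]
    exact ⟨nonempty_of_ne_one h1, h3.2.trans_le (phi1_anti (cut_subset X c))⟩

/-- the master inequality in the concrete setting -/
theorem avg_loss_sq_wt {j : ℕ} (ε a b c : ℝ) (wt : Fin n × Bool → ℝ)
    (hle : ∀ X : Finset (Asg n), X.Nonempty → phi (j + 2) X ≤
      a * avg (fun l : Fin n × Bool => wt l * (1 - ne (cutLit X l))) + (b * frz ε X + c))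
    (X : Finset (Asg n)) (F : List (Clause k n)) :
    avg (fun q : Clause (j + 2) n => (hit X F - hit (cut X q) F) ^ 2) ≤
      a * avg (fun l : Fin n × Bool => wt l * (hit X F - hit (cutLit X l) F) ^ 2) +
        (b * (Teps ε X F) ^ 2 + c * (hit X F) ^ 2) := by
  simp only [hit_eq_hitA, Teps_eq_TA]
  refine LossAbs.avg_loss_sq_gen (al := ne) (cutS := cut) ne_zero_or_one
    (fun X c h => ne_zero_of_subset (cut_subset X c) h)
    (fun q X => cut X q) (fun q X h => ne_zero_of_subset (cut_subset X q) h)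
    (fun q X c => cut_comm X c q)
    (fun l X => cutLit X l) (fun l X h => ne_zero_of_subset (cutLit_subset X l) h)
    (fun l X c => cutLit_cut_comm X l c)
    (frz_zero_or_one ε) (frz_step ε) (fun X h => ne_of_frz_one h) a b c wt ?_ X F
  intro X hX
  simp only [hX]
  exact hle X (nonempty_of_ne_one hX)

end aux

/-- second moment of the loss caused by a uniform `(j+2)`-clause against the one caused by a
uniform literal -/
theorem avg_loss_sq_le {j n k : ℕ} (ε : ℝ) (hε : 0 < ε) (_hε1 : ε ≤ 1) (X : Finset (Asg n))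
    (F : List (Clause k n)) :
    avg (fun q : Clause (j + 2) n => (hit X F - hit (cut X q) F) ^ 2) ≤
      ε ^ (j + 1) * avg (fun l : Fin n × Bool => (hit X F - hit (cutLit X l) F) ^ 2) +
        (Teps ε X F) ^ 2 := by
  have key := avg_loss_sq_wt (j := j) (k := k) ε (ε ^ (j + 1)) 1 0 (fun _ => 1) ?_ X F
  · simpa only [one_mul, zero_mul, add_zero] using key
  · intro Y hY
    have h1 := phi_le_pow (j + 2) Y hY
    have h2 := phi1_nonneg Y
    have h3 := phi1_le_one Y
    have e1 : avg (fun l : Fin n × Bool => (1 : ℝ) * (1 - ne (cutLit Y l))) = phi1 Y := by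
      unfold phi1; exact avg_congr fun l => one_mul _
    rw [e1, one_mul, add_zero]
    by_cases hf : ε < phi1 Y
    · rw [(frz_one_iff ε Y).2 ⟨hY, hf⟩]
      have h4 : phi1 Y ^ (j + 2) ≤ 1 := pow_le_one₀ h2 h3
      have h5 : 0 ≤ ε ^ (j + 1) * phi1 Y := mul_nonneg (pow_nonneg hε.le _) h2
      linarith
    · push Not at hf
      have h4 : phi1 Y ^ (j + 2) ≤ ε ^ (j + 1) * phi1 Y := by
        rw [pow_succ (phi1 Y) (j + 1)]
        exact mul_le_mul_of_nonneg_right (pow_le_pow_left₀ h2 hf _) h2
      have h5 : 0 ≤ frz ε Y := by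
        rcases frz_zero_or_one ε Y with h | h <;> rw [h]
        exact zero_le_one
      linarith

/-- variant of `avg_loss_sq_le` where only the literals of a set `U` of variables are used; the
complement of `U` has proportion at most `τ` -/
theorem avg_loss_sq_le_on {j n k : ℕ} (ε τ : ℝ) (hε : 0 < ε) (hτ : 0 ≤ τ) (U : Finset (Fin n))
    (hU : ((Finset.univ \ U).card : ℝ) ≤ τ * n) (X : Finset (Asg n)) (F : List (Clause k n)) :
    avg (fun q : Clause (j + 2) n => (hit X F - hit (cut X q) F) ^ 2) ≤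
      2 ^ (j + 1) * (ε ^ (j + 1) * avg (fun l : Fin n × Bool =>
          if l.1 ∈ U then (hit X F - hit (cutLit X l) F) ^ 2 else 0) +
        (Teps ε X F) ^ 2 + τ ^ (j + 2) * (hit X F) ^ 2) := by
  have key := avg_loss_sq_wt (j := j) (k := k) ε (2 ^ (j + 1) * ε ^ (j + 1)) (2 ^ (j + 1))
    (2 ^ (j + 1) * τ ^ (j + 2)) (fun l : Fin n × Bool => if l.1 ∈ U then (1 : ℝ) else 0) ?_ X F
  · have e : ∀ l : Fin n × Bool, (if l.1 ∈ U then (1 : ℝ) else 0) *
        (hit X F - hit (cutLit X l) F) ^ 2 =
        if l.1 ∈ U then (hit X F - hit (cutLit X l) F) ^ 2 else 0 := by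
      intro l; split_ifs <;> simp
    rw [avg_congr e] at key
    refine key.trans (le_of_eq ?_)
    ring
  · intro Y hY
    have h1 := phi_le_pow (j + 2) Y hY
    have h2 := phi1_nonneg Y
    have h3 := phi1_le_one Y
    set u := avg (fun l : Fin n × Bool => (if l.1 ∈ U then (1 : ℝ) else 0) * (1 - ne (cutLit Y l)))
      with hu
    have hl0 : ∀ l : Fin n × Bool, 0 ≤ 1 - ne (cutLit Y l) := fun l => by
      linarith [ne_le_one (cutLit Y l)]
    have hl1 : ∀ l : Fin n × Bool, 1 - ne (cutLit Y l) ≤ 1 := fun l => by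
      linarith [ne_nonneg (cutLit Y l)]
    have hu0 : 0 ≤ u := avg_nonneg fun l => by
      split_ifs
      · rw [one_mul]; exact hl0 l
      · rw [zero_mul]
    have hu1 : u ≤ phi1 Y := avg_mono fun l => by
      split_ifs
      · rw [one_mul]
      · rw [zero_mul]; exact hl0 l
    have ht : phi1 Y ≤ u + τ := by
      have : phi1 Y ≤ avg (fun l : Fin n × Bool =>
          (if l.1 ∈ U then (1 : ℝ) else 0) * (1 - ne (cutLit Y l)) +
            (if l.1 ∈ U then (0 : ℝ) else 1)) := avg_mono fun l => by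
        split_ifs
        · rw [one_mul, add_zero]
        · rw [zero_mul, zero_add]; exact hl1 l
      rw [avg_add] at this
      refine this.trans (add_le_add le_rfl ?_)
      unfold avg
      have hc : (∑ l : Fin n × Bool, if l.1 ∈ U then (0 : ℝ) else 1) =
          2 * ((Finset.univ \ U).card : ℝ) := by
        have hx : ∀ x : Fin n, (if x ∈ U then (0 : ℝ) else 1) =
            if x ∈ Finset.univ \ U then 1 else 0 := fun x => by
          by_cases h : x ∈ U <;> simp [h]
        rw [Fintype.sum_prod_type]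
        simp only [hx, Fintype.sum_bool]
        rw [Finset.sum_add_distrib, Finset.sum_ite_mem, Finset.univ_inter, Finset.sum_const,
          nsmul_eq_mul, mul_one]
        ring
      rw [hc, Fintype.card_prod, Fintype.card_fin, Fintype.card_bool]
      rcases Nat.eq_zero_or_pos n with hn | hn
      · subst hn; simpa using hτ
      · have hn' : (0 : ℝ) < n := by exact_mod_cast hn
        push_cast
        rw [div_le_iff₀ (by positivity)]
        nlinarith
    have hpow : phi1 Y ^ (j + 2) ≤ 2 ^ (j + 1) * (u ^ (j + 2) + τ ^ (j + 2)) :=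
      (pow_le_pow_left₀ h2 ht _).trans (add_pow_le hu0 hτ (j + 2))
    have h2pos : (0 : ℝ) < 2 ^ (j + 1) := by positivity
    have hub : u ^ (j + 2) ≤ ε ^ (j + 1) * u + frz ε Y := by
      by_cases hf : ε < u
      · rw [(frz_one_iff ε Y).2 ⟨hY, hf.trans_le hu1⟩]
        have h4 : u ^ (j + 2) ≤ 1 := pow_le_one₀ hu0 (hu1.trans h3)
        have h5 : 0 ≤ ε ^ (j + 1) * u := mul_nonneg (pow_nonneg hε.le _) hu0
        linarith
      · push Not at hf
        have h4 : u ^ (j + 2) ≤ ε ^ (j + 1) * u := by
          rw [pow_succ u (j + 1)]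
          exact mul_le_mul_of_nonneg_right (pow_le_pow_left₀ hu0 hf _) hu0
        have h5 : 0 ≤ frz ε Y := by
          rcases frz_zero_or_one ε Y with h | h <;> rw [h]
          exact zero_le_one
        linarith
    calc phi (j + 2) Y ≤ phi1 Y ^ (j + 2) := h1
      _ ≤ 2 ^ (j + 1) * (u ^ (j + 2) + τ ^ (j + 2)) := hpow
      _ ≤ 2 ^ (j + 1) * ((ε ^ (j + 1) * u + frz ε Y) + τ ^ (j + 2)) := by
          apply mul_le_mul_of_nonneg_left _ h2pos.le
          linarith
      _ = _ := by ring

/-- the loss of a clause is at most the loss of its first literal -/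
theorem avg_loss_sq_le_lit {m n k : ℕ} (hmn : m + 1 ≤ n) (X : Finset (Asg n))
    (F : List (Clause k n)) :
    avg (fun q : Clause (m + 1) n => (hit X F - hit (cut X q) F) ^ 2) ≤
      avg (fun l : Fin n × Bool => (hit X F - hit (cutLit X l) F) ^ 2) := by
  rw [← avg_fstLit hmn (fun l : Fin n × Bool => (hit X F - hit (cutLit X l) F) ^ 2)]
  refine avg_mono fun q => ?_
  have h1 : hit (cut X q) F ≤ hit X F := hit_mono (cut_subset X q) F
  have h2 : hit (cutLit X (fstLit q)) F ≤ hit (cut X q) F := hit_mono (cutLit_subset_cut X q) F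
  exact pow_le_pow_left₀ (by linarith) (by linarith) 2

end Crest.Agent.R153
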