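import Crest.Agent.R153.GDefs
import Crest.Agent.R153.Frozen
import Crest.Agent.R153.Var
import Crest.Agent.R153.Levels
import Crest.Agent.R153.Dict
import Crest.Agent.R153.LeftCert

/-! Row 153: linear growth of the minimal number of unsatisfied clauses above the threshold
(helper211), from the uniform bound on `G.DD J j n 0 M` (`M ≤ C0 * n`). -/

set_option autoImplicit false

open Crest.ProbabilityR.RandomSAT Filter Topology

namespace Crest.Agent.R153

variable {k n : ℕ}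

namespace G

theorem cutL_eq_vc (h : Cost n) (F : List (Clause k n)) (σ : Asg n) :
    cutL h F σ = h σ + vc σ F := by
  induction F generalizing h with
  | nil => simp
  | cons c F ih =>
    rw [cutL_cons, ih, vc_cons]
    by_cases hs : ClauseSat σ c
    · rw [cut_of_sat hs, viol_eq_zero.2 hs]; omega
    · rw [cut_of_not_sat hs, viol_eq_one.2 hs]; omega

theorem hit_eq_sum_take (J : ℕ) (h : Cost n) (F : List (Clause k n)) :
    hit J h F = ∑ m ∈ Finset.range (F.length + 1), ne J (cutL h (F.take m)) := by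
  induction F generalizing h with
  | nil => simp
  | cons c F ih =>
    rw [List.length_cons, Finset.sum_range_succ', hit_cons, ih]
    simp only [List.take_succ_cons, List.take_zero, cutL_cons, cutL_nil]
    ring

theorem ne_zero_state (J : ℕ) (F : List (Clause k n)) :
    ne J (cutL (fun _ => 0) F) = if mc F ≤ J then 1 else 0 := by
  by_cases h : mc F ≤ J
  · rw [if_pos h]
    obtain ⟨σ, hσ⟩ := mc_le_iff.1 h
    exact ne_of_exists ⟨σ, by rw [cutL_eq_vc]; omega⟩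
  · rw [if_neg h]
    refine ne_eq_zero ?_
    rintro ⟨σ, hσ⟩
    rw [cutL_eq_vc] at hσ
    exact h (mc_le_iff.2 ⟨σ, by omega⟩)

theorem ne_clause_state (J : ℕ) (c : Clause k n) (F : List (Clause k n)) :
    ne J (cutL (cut (fun _ => 0) c) F) = if mc (c :: F) ≤ J then 1 else 0 := by
  rw [← cutL_cons]
  exact ne_zero_state J (c :: F)

theorem lossJ_eq (J : ℕ) (c : Clause k n) (F : List (Clause k n)) :
    (lossJ J c F : ℝ) = hit J (fun _ => 0) F - hit J (cut (fun _ => 0) c) F := by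
  rw [hit_eq_sum_take, hit_eq_sum_take, ← Finset.sum_sub_distrib]
  unfold lossJ
  rw [Finset.card_filter]
  push_cast
  refine Finset.sum_congr rfl fun m _ => ?_
  rw [ne_zero_state, ne_clause_state]
  have h : mc (F.take m) ≤ mc (c :: F.take m) := mc_sublist (List.sublist_cons_self _ _)
  by_cases h1 : mc (F.take m) ≤ J
  · by_cases h2 : J < mc (c :: F.take m)
    · rw [if_pos ⟨h1, h2⟩, if_pos h1, if_neg (by omega)]; simp
    · rw [if_neg (fun h3 => h2 h3.2), if_pos h1, if_pos (by omega)]; simp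
  · rw [if_neg (fun h3 => h1 h3.1), if_neg h1, if_neg (by omega)]; simp

/-- the second moment of the loss of a clause is at most `DD` -/
theorem avg_lossJ_le (j : ℕ) {n : ℕ} (hn : j + 3 ≤ n) (J M : ℕ) :
    avg (fun c : Clause (j + 3) n => EL M (fun F => (lossJ J c F : ℝ) ^ 2)) ≤ DD J j n 0 M := by
  rw [← EL_avg_comm]
  unfold DD
  show _ ≤ EL M (fun F => _)
  refine EL_mono fun F => ?_
  show _ ≤ avg (fun l : Fin n × Bool =>
      (hit J (fun _ => 0) F - hit J (cutLit (fun _ => 0) l) F) ^ 2)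
  rw [← avg_fstLit (m := j + 2) (by omega) (fun l : Fin n × Bool =>
      (hit J (fun _ => 0) F - hit J (cutLit (fun _ => 0) l) F) ^ 2)]
  refine avg_mono fun c => ?_
  rw [lossJ_eq]
  have h1 := hit_anti (J := J) (le_cut (fun _ => 0) c) F
  have h2 := hit_anti (J := J) (cut_le_cutLit (fun _ => 0) c) F
  exact pow_le_pow_left₀ (by linarith) (by linarith) 2

end G

/-- quantitative lower bound for the mean minimal cost -/
theorem EL_mc_ge (j : ℕ) {n : ℕ} (hn : j + 3 ≤ n) {A : ℝ} (D M m₀ : ℕ) (hm : m₀ ≤ M + 1)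
    (hA : ∀ J : ℕ, G.DD J j n 0 M ≤ A) :
    ((M + 1 : ℝ) - m₀) * (1 - satProb (j + 3) n m₀ -
      EL (M + 1) (fun F : List (Clause (j + 3) n) => (mc F : ℝ)) / (D + 1)) ≤
        2 * Real.sqrt ((M + 1) * A) * Real.sqrt D := by
  have hne : Nonempty (Clause (j + 3) n) := nonempty_clause_var hn
  have h1 := EL_sum_lenJ_le (k := j + 3) (n := n) D M A
    (fun J _ _ => (G.avg_lossJ_le j hn (J - 1) M).trans (hA _))
  refine le_trans ?_ h1
  have h2 : EL (M + 1) (fun F : List (Clause (j + 3) n) =>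
      ((M + 1 : ℝ) - m₀) * (1 - (if mc (F.take m₀) = 0 then 1 else 0) - (mc F : ℝ) / (D + 1))) ≤
      EL (M + 1) (fun F : List (Clause (j + 3) n) => ∑ J ∈ Finset.Icc 1 D, (lenJ J F : ℝ)) := by
    refine EL_mono' fun F hF => ?_
    have := sum_lenJ_ge D m₀ F (by omega)
    rw [hF] at this
    push_cast at this
    exact this
  refine le_trans (le_of_eq ?_) h2
  rw [EL_const_mul, EL_sub, EL_sub, EL_const, EL_take hm
    (fun F : List (Clause (j + 3) n) => if mc F = 0 then (1 : ℝ) else 0), ← satProb_eq_EL_mc]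
  congr 2
  have : (fun F : List (Clause (j + 3) n) => (mc F : ℝ) / (D + 1)) =
      fun F => (mc F : ℝ) * (1 / (D + 1)) := by
    funext F; ring
  rw [this, EL_mul_const]
  ring

/-- above the threshold, the mean minimal cost is linear -/
theorem aweak_list (j : ℕ) {α c : ℝ} (hα : IsSharpThreshold (satProb (j + 3)) α) (hc : α < c)
    (hDD : ∀ C0 : ℕ, ∃ A : ℝ, ∀ n : ℕ, j + 3 ≤ n → ∀ J M : ℕ, M ≤ C0 * n → G.DD J j n 0 M ≤ A) :
    ∃ κ : ℝ, 0 < κ ∧ ∀ᶠ n : ℕ in atTop,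
      κ * n ≤ EL ⌊c * n⌋₊ (fun F : List (Clause (j + 3) n) => (mc F : ℝ)) := by
  have hα0 := threshold_nonneg hα
  have hc0 : 0 < c := hα0.trans_lt hc
  obtain ⟨A', hA'⟩ := hDD ⌈c⌉₊
  set A : ℝ := max A' 1 with hAdef
  have hA1 : 1 ≤ A := le_max_right _ _
  set c' : ℝ := (α + c) / 2 with hc'
  have hαc' : α < c' := by rw [hc']; linarith
  have hc'c : c' < c := by rw [hc']; linarith
  have hc'0 : 0 ≤ c' := hα0.trans hαc'.le
  set g : ℝ := c - c' with hg
  have hg0 : 0 < g := by rw [hg]; linarith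
  -- the choice of δ : sqrt (c A δ) = g / 16
  set δ : ℝ := (g / 16) ^ 2 / (c * A) with hδ
  have hcA : 0 < c * A := mul_pos hc0 (by linarith)
  have hδ0 : 0 < δ := by rw [hδ]; positivity
  have hδe : c * A * δ = (g / 16) ^ 2 := by rw [hδ]; field_simp
  refine ⟨δ / 4, by positivity, ?_⟩
  have hsat : ∀ᶠ n : ℕ in atTop, satProb (j + 3) n ⌊c' * n⌋₊ < 1 / 4 :=
    ((hα c' hc'0).2 hαc').eventually (gt_mem_nhds (by norm_num))
  have hlarge : ∀ᶠ n : ℕ in atTop, 2 / g + 1 / c + (j + 3 : ℝ) < (n : ℝ) :=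
    (tendsto_natCast_atTop_atTop (R := ℝ)).eventually (eventually_gt_atTop _)
  filter_upwards [hsat, hlarge] with n hs hl
  have hn0 : (0 : ℝ) < n := lt_trans (by positivity) hl
  have hgn : 2 < g * n := by
    have : 2 / g < n := by
      have h1 : (0 : ℝ) < 1 / c := by positivity
      have h2 : (0 : ℝ) ≤ (j : ℝ) := Nat.cast_nonneg j
      linarith
    rw [div_lt_iff₀ hg0] at this
    linarith
  have hcn : 1 < c * n := by
    have : 1 / c < n := by
      have h1 : (0 : ℝ) < 2 / g := by positivity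
      have h2 : (0 : ℝ) ≤ (j : ℝ) := Nat.cast_nonneg j
      linarith
    rw [div_lt_iff₀ hc0] at this
    linarith
  have hjn : j + 3 ≤ n := by
    have h1 : (0 : ℝ) < 2 / g := by positivity
    have h2 : (0 : ℝ) < 1 / c := by positivity
    have : ((j + 3 : ℕ) : ℝ) < n := by push_cast; linarith
    exact_mod_cast this.le
  obtain ⟨M, hM⟩ : ∃ M, ⌊c * n⌋₊ = M + 1 := by
    have : 1 ≤ ⌊c * n⌋₊ := Nat.floor_pos.2 hcn.le
    exact ⟨⌊c * n⌋₊ - 1, by omega⟩
  have hMle : ((M : ℝ) + 1) ≤ c * n := by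
    have := Nat.floor_le (a := c * n) (by positivity)
    rw [hM] at this
    push_cast at this
    exact this
  have hMgt : c * n < (M : ℝ) + 1 + 1 := by
    have := Nat.lt_floor_add_one (c * n)
    rw [hM] at this
    push_cast at this
    exact this
  have hMC : M ≤ ⌈c⌉₊ * n := by
    have h1 : (M : ℝ) ≤ (⌈c⌉₊ : ℝ) * n := by
      have h2 : c ≤ (⌈c⌉₊ : ℝ) := Nat.le_ceil c
      have h3 : c * n ≤ (⌈c⌉₊ : ℝ) * n := mul_le_mul_of_nonneg_right h2 hn0.le
      linarith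
    exact_mod_cast h1
  have hm0le : (⌊c' * n⌋₊ : ℝ) ≤ c' * n := Nat.floor_le (by positivity)
  have hm : ⌊c' * n⌋₊ ≤ M + 1 := by
    rw [← hM]
    exact Nat.floor_le_floor (mul_le_mul_of_nonneg_right hc'c.le hn0.le)
  have key := EL_mc_ge j hjn ⌊δ * n⌋₊ M ⌊c' * n⌋₊ hm (A := A)
    (fun J => (hA' n hjn J M hMC).trans (le_max_left _ _))
  rw [hM]
  set E := EL (M + 1) (fun F : List (Clause (j + 3) n) => (mc F : ℝ)) with hE
  have hE0 : 0 ≤ E := EL_nonneg fun F => Nat.cast_nonneg _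
  -- right side
  have hR : 2 * Real.sqrt ((M + 1) * A) * Real.sqrt ((⌊δ * n⌋₊ : ℕ) : ℝ) ≤ g / 8 * n := by
    have h1 : Real.sqrt ((M + 1) * A) * Real.sqrt ((⌊δ * n⌋₊ : ℕ) : ℝ) =
        Real.sqrt (((M + 1) * A) * ((⌊δ * n⌋₊ : ℕ) : ℝ)) :=
      (Real.sqrt_mul (by positivity) _).symm
    have h2 : ((M + 1) * A) * ((⌊δ * n⌋₊ : ℕ) : ℝ) ≤ (g / 16 * n) ^ 2 := by
      have h3 : ((⌊δ * n⌋₊ : ℕ) : ℝ) ≤ δ * n := Nat.floor_le (by positivity)
      calc ((M + 1) * A) * ((⌊δ * n⌋₊ : ℕ) : ℝ) ≤ ((c * n) * A) * (δ * n) := by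
            refine mul_le_mul ?_ h3 (Nat.cast_nonneg _) (by positivity)
            exact mul_le_mul_of_nonneg_right hMle (by linarith)
        _ = (c * A * δ) * n ^ 2 := by ring
        _ = (g / 16 * n) ^ 2 := by rw [hδe]; ring
    have h4 : Real.sqrt (((M + 1) * A) * ((⌊δ * n⌋₊ : ℕ) : ℝ)) ≤ g / 16 * n := by
      rw [← Real.sqrt_sq (show 0 ≤ g / 16 * n by positivity)]
      exact Real.sqrt_le_sqrt h2
    rw [mul_assoc, h1]
    linarith
  have hL : g / 2 * n ≤ (M + 1 : ℝ) - (⌊c' * n⌋₊ : ℝ) := by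
    have : g * n = c * n - c' * n := by rw [hg]; ring
    linarith
  have hL0 : (0 : ℝ) < (M + 1 : ℝ) - (⌊c' * n⌋₊ : ℝ) := lt_of_lt_of_le (by positivity) hL
  -- the bracket is at most 1/4
  have hB : 1 - satProb (j + 3) n ⌊c' * n⌋₊ - E / ((⌊δ * n⌋₊ : ℕ) + 1 : ℝ) ≤ 1 / 4 := by
    by_contra hcon
    push Not at hcon
    have h5 : g / 2 * n * (1 / 4) < ((M + 1 : ℝ) - (⌊c' * n⌋₊ : ℝ)) *
        (1 - satProb (j + 3) n ⌊c' * n⌋₊ - E / ((⌊δ * n⌋₊ : ℕ) + 1 : ℝ)) := by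
      calc g / 2 * n * (1 / 4) ≤ ((M + 1 : ℝ) - (⌊c' * n⌋₊ : ℝ)) * (1 / 4) :=
            mul_le_mul_of_nonneg_right hL (by norm_num)
        _ < _ := mul_lt_mul_of_pos_left hcon hL0
    have h6 := lt_of_lt_of_le h5 (key.trans hR)
    linarith
  have hB2 : 1 / 2 ≤ E / ((⌊δ * n⌋₊ : ℕ) + 1 : ℝ) := by linarith
  have hD : δ * n < (⌊δ * n⌋₊ : ℕ) + 1 := Nat.lt_floor_add_one _
  have hDpos : (0 : ℝ) < ((⌊δ * n⌋₊ : ℕ) + 1 : ℝ) := by positivity
  rw [le_div_iff₀ hDpos] at hB2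
  have : 0 < δ * n := by positivity
  linarith

/-- the same for formulas `Fin M → Clause` -/
theorem aweak_minUnsat (j : ℕ) {α c : ℝ} (hα : IsSharpThreshold (satProb (j + 3)) α) (hc : α < c)
    (hDD : ∀ C0 : ℕ, ∃ A : ℝ, ∀ n : ℕ, j + 3 ≤ n → ∀ J M : ℕ, M ≤ C0 * n → G.DD J j n 0 M ≤ A) :
    ∃ κ : ℝ, 0 < κ ∧ ∀ᶠ n : ℕ in atTop,
      κ * n ≤ avg (fun F : Fin ⌊c * n⌋₊ → Clause (j + 3) n => (minUnsat F : ℝ)) := by
  obtain ⟨κ, hκ, h⟩ := aweak_list j hα hc hDD
  refine ⟨κ, hκ, h.mono fun n hn => hn.trans (le_of_eq (EL_mc_eq _ _ _))⟩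

end Crest.Agent.R153
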