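import Crest.Agent.R153.GDefs
import Crest.Agent.R153.Frozen

/-!
Row 153, part A at all energy levels, task GFROZEN: killing probabilities against the frozen
fraction for cost functions.  If some assignment has cost `< J` nothing can be killed by one
clause or one literal; otherwise the assignments of cost `≤ J` all have cost exactly `J` and the
`Finset` statements apply to `low J h`.
-/

set_option autoImplicit false

open Crest.ProbabilityR.RandomSAT

namespace Crest.Agent.R153.G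

variable {J m n : ℕ}

/-- the assignments of cost `≤ J` -/
noncomputable def low (J : ℕ) {n : ℕ} (h : Cost n) : Finset (Asg n) :=
  Finset.univ.filter (fun σ => h σ ≤ J)

theorem mem_low {h : Cost n} {σ : Asg n} : σ ∈ low J h ↔ h σ ≤ J := by
  unfold low; simp

theorem low_nonempty {h : Cost n} : (low J h).Nonempty ↔ ∃ σ, h σ ≤ J := by
  constructor
  · rintro ⟨σ, hσ⟩; exact ⟨σ, mem_low.1 hσ⟩
  · rintro ⟨σ, hσ⟩; exact ⟨σ, mem_low.2 hσ⟩

/-- if some cost is `< J`, no literal kills -/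
theorem ne_cutLit_of_lt {h : Cost n} (hh : ∃ σ, h σ < J) (l : Fin n × Bool) :
    ne J (cutLit h l) = 1 := by
  obtain ⟨σ, hσ⟩ := hh
  exact ne_of_exists ⟨σ, (cutLit_le_succ h l σ).trans hσ⟩

/-- if some cost is `< J`, no clause kills -/
theorem ne_cut_of_lt {h : Cost n} (hh : ∃ σ, h σ < J) (q : Clause m n) :
    ne J (cut h q) = 1 := by
  obtain ⟨σ, hσ⟩ := hh
  exact ne_of_exists ⟨σ, (cut_le_succ h q σ).trans hσ⟩

theorem ne_cutLit_of_ge {h : Cost n} (hh : ∀ σ, J ≤ h σ) (l : Fin n × Bool) :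
    ne J (cutLit h l) = R153.ne (R153.cutLit (low J h) l) := by
  by_cases hc : ∃ σ, cutLit h l σ ≤ J
  · rw [ne_of_exists hc, ne_of_nonempty]
    obtain ⟨σ, hσ⟩ := hc
    have hl : σ l.1 = l.2 := by
      by_contra hne
      rw [cutLit_of_ne hne] at hσ
      have := hh σ
      omega
    refine ⟨σ, mem_cutLit.2 ⟨mem_low.2 ?_, hl⟩⟩
    rwa [cutLit_of_eq hl] at hσ
  · rw [ne_eq_zero hc, R153.ne_eq_zero]
    rintro ⟨σ, hσ⟩
    obtain ⟨h1, h2⟩ := mem_cutLit.1 hσ
    refine hc ⟨σ, ?_⟩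
    rw [cutLit_of_eq h2]
    exact mem_low.1 h1

theorem ne_cut_of_ge {h : Cost n} (hh : ∀ σ, J ≤ h σ) (q : Clause m n) :
    ne J (cut h q) = R153.ne (R153.cut (low J h) q) := by
  by_cases hc : ∃ σ, cut h q σ ≤ J
  · rw [ne_of_exists hc, ne_of_nonempty]
    obtain ⟨σ, hσ⟩ := hc
    have hl : ClauseSat σ q := by
      by_contra hne
      rw [cut_of_not_sat hne] at hσ
      have := hh σ
      omega
    refine ⟨σ, mem_cut.2 ⟨mem_low.2 ?_, hl⟩⟩
    rwa [cut_of_sat hl] at hσ
  · rw [ne_eq_zero hc, R153.ne_eq_zero]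
    rintro ⟨σ, hσ⟩
    obtain ⟨h1, h2⟩ := mem_cut.1 hσ
    refine hc ⟨σ, ?_⟩
    rw [cut_of_sat h2]
    exact mem_low.1 h1

theorem phi1_of_lt {h : Cost n} (hh : ∃ σ, h σ < J) : phi1 J h = 0 := by
  unfold phi1
  rw [← avg_zero (α := Fin n × Bool)]
  exact avg_congr fun l => by rw [ne_cutLit_of_lt hh, sub_self]

theorem phi_of_lt {h : Cost n} (hh : ∃ σ, h σ < J) : phi J m h = 0 := by
  unfold phi
  rw [← avg_zero (α := Clause m n)]
  exact avg_congr fun q => by rw [ne_cut_of_lt hh, sub_self]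

theorem phi1_of_ge {h : Cost n} (hh : ∀ σ, J ≤ h σ) : phi1 J h = R153.phi1 (low J h) := by
  unfold phi1 R153.phi1
  exact avg_congr fun l => by rw [ne_cutLit_of_ge hh]

theorem phi_of_ge {h : Cost n} (hh : ∀ σ, J ≤ h σ) : phi J m h = R153.phi m (low J h) := by
  unfold phi R153.phi
  exact avg_congr fun q => by rw [ne_cut_of_ge hh]

theorem phi1_nonneg (h : Cost n) : 0 ≤ phi1 J h := by
  unfold phi1
  exact avg_nonneg fun l => by linarith [ne_le_one (J := J) (cutLit h l)]

theorem phi_nonneg (h : Cost n) : 0 ≤ phi J m h := by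
  unfold phi
  exact avg_nonneg fun q => by linarith [ne_le_one (J := J) (cut h q)]

theorem phi1_le_one (h : Cost n) : phi1 J h ≤ 1 := by
  unfold phi1
  refine (avg_mono fun l => ?_).trans (avg_const_le (α := Fin n × Bool) zero_le_one)
  linarith [ne_nonneg (J := J) (cutLit h l)]

theorem phi_le_one (h : Cost n) : phi J m h ≤ 1 := by
  unfold phi
  refine (avg_mono fun q => ?_).trans (avg_const_le (α := Clause m n) zero_le_one)
  linarith [ne_nonneg (J := J) (cut h q)]

/-- the frozen fraction increases with the cost -/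
theorem phi1_mono {h g : Cost n} (hg : h ≤ g) : phi1 J h ≤ phi1 J g := by
  unfold phi1
  exact avg_mono fun l => by linarith [ne_anti (J := J) (cutLit_mono hg l)]

theorem phi_mono {h g : Cost n} (hg : h ≤ g) : phi J m h ≤ phi J m g := by
  unfold phi
  exact avg_mono fun q => by linarith [ne_anti (J := J) (cut_mono hg q)]

/-- a clause kills with probability at most `phi1 ^ m` -/
theorem phi_le_pow (J m : ℕ) (h : Cost n) (hh : ∃ σ, h σ ≤ J) : phi J m h ≤ phi1 J h ^ m := by
  by_cases hlt : ∃ σ, h σ < J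
  · rw [phi_of_lt hlt]
    exact pow_nonneg (phi1_nonneg h) m
  · push Not at hlt
    rw [phi_of_ge hlt, phi1_of_ge hlt]
    exact R153.phi_le_pow m _ (low_nonempty.2 hh)

/-- large frozen fraction: killing is likely -/
theorem phi_lower (J m : ℕ) (ε : ℝ) (hε : 0 < ε) (hn : (m : ℝ) ≤ ε * n) (h : Cost n)
    (hh : ∃ σ, h σ ≤ J) (hphi : ε < phi1 J h) : (ε / 2) ^ m ≤ phi J m h := by
  by_cases hlt : ∃ σ, h σ < J
  · rw [phi1_of_lt hlt] at hphi
    exact absurd hphi (not_lt.2 hε.le)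
  · push Not at hlt
    rw [phi1_of_ge hlt] at hphi
    rw [phi_of_ge hlt]
    exact R153.phi_lower m ε hε hn _ (low_nonempty.2 hh) hphi

/-- consequently `frz · (ε/2)^m ≤ phi` -/
theorem frz_mul_le (J m : ℕ) (ε : ℝ) (hε : 0 < ε) (hn : (m : ℝ) ≤ ε * n) (h : Cost n) :
    frz J ε h * (ε / 2) ^ m ≤ phi J m h := by
  unfold frz
  split_ifs with hc
  · rw [one_mul]
    exact phi_lower J m ε hε hn h hc.1 hc.2
  · rw [zero_mul]
    exact phi_nonneg h

/-- and `ne · phi ≤ ε^m + frz` -/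
theorem ne_mul_phi_le (J m : ℕ) (ε : ℝ) (hε : 0 ≤ ε) (h : Cost n) :
    ne J h * phi J m h ≤ ε ^ m + frz J ε h := by
  by_cases hh : ∃ σ, h σ ≤ J
  · rw [ne_of_exists hh, one_mul]
    by_cases hc : ε < phi1 J h
    · have : frz J ε h = 1 := by unfold frz; rw [if_pos ⟨hh, hc⟩]
      rw [this]
      have := pow_nonneg hε m
      linarith [phi_le_one (J := J) (m := m) h]
    · have : frz J ε h = 0 := by unfold frz; rw [if_neg (fun h' => hc h'.2)]
      rw [this, add_zero]
      exact (phi_le_pow J m h hh).trans (pow_le_pow_left₀ (phi1_nonneg h) (not_lt.1 hc) m)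
  · rw [ne_eq_zero hh, zero_mul]
    exact add_nonneg (pow_nonneg hε m) (frz_nonneg ε h)

end Crest.Agent.R153.G
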