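import Crest.Agent.R153.Basic

/-! Row 153: abstract geometric domination (helper857). -/

set_option autoImplicit false

namespace Crest.Agent.R153

section geomAbs

variable {α S : Type*} [Fintype α]

/-- number of visits with `b = 1` along the list of steps -/
noncomputable def visits (step : S → α → S) (b : S → ℝ) : S → List α → ℝ
  | s, [] => b s
  | s, c :: F => b s + visits step b (step s c) F

theorem visits_nonneg (step : S → α → S) (b : S → ℝ) (hb : ∀ s, 0 ≤ b s) :
    ∀ (F : List α) (s : S), 0 ≤ visits step b s F
  | [], s => hb s
  | c :: F, s => add_nonneg (hb s) (visits_nonneg step b hb F (step s c))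

theorem visits_dead (step : S → α → S) (b : S → ℝ) (dead : S → Prop)
    (hb : ∀ s, dead s → b s = 0) (hd : ∀ s c, dead s → dead (step s c)) :
    ∀ (F : List α) (s : S), dead s → visits step b s F = 0
  | [], s, h => hb s h
  | c :: F, s, h => by
    show b s + visits step b (step s c) F = 0
    rw [hb s h, visits_dead step b dead hb hd F _ (hd s c h), add_zero]

/-- first and second moments of the number of visits -/
theorem EL_visits (step : S → α → S) (b : S → ℝ) (alive : S → ℝ) (p : ℝ) (hp : 0 < p) (hp1 : p ≤ 1)
    (hb : ∀ s, b s = 0 ∨ b s = 1) (hal : ∀ s, alive s = 0 ∨ alive s = 1)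
    (hdead : ∀ s, alive s = 0 → b s = 0)
    (hstep : ∀ s c, alive s = 0 → alive (step s c) = 0)
    (hkill : ∀ s, b s = 1 → avg (fun c => alive (step s c)) ≤ 1 - p) (M : ℕ) :
    ∀ s : S, EL M (fun F => visits step b s F) ≤ alive s * (1 / p) ∧
      EL M (fun F => (visits step b s F) ^ 2) ≤ alive s * (2 / p ^ 2) := by
  have hb0 : ∀ s, 0 ≤ b s := fun s => by rcases hb s with h | h <;> rw [h] <;> norm_num
  have hp' : (1 : ℝ) ≤ 1 / p := by rw [le_div_iff₀ hp]; linarith
  have hp2 : (1 : ℝ) ≤ 2 / p ^ 2 := by
    rw [le_div_iff₀ (by positivity)]; nlinarith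
  have hzero : ∀ (M : ℕ) (s : S), alive s = 0 →
      EL M (fun F => visits step b s F) = 0 ∧ EL M (fun F => (visits step b s F) ^ 2) = 0 := by
    intro M s hs
    have hv : ∀ F : List α, visits step b s F = 0 := fun F =>
      visits_dead step b (fun s => alive s = 0) hdead hstep F s hs
    constructor
    · rw [EL_congr hv, EL_zero_fun]
    · rw [EL_congr (g := fun _ => (0 : ℝ)) (fun F => by rw [hv F]; norm_num), EL_zero_fun]
  induction M with
  | zero =>
    intro s
    rcases hal s with hs | hs
    · have h := hzero 0 s hs
      rw [h.1, h.2, hs]; simp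
    · show b s ≤ _ ∧ (b s) ^ 2 ≤ _
      rw [hs, one_mul, one_mul]
      rcases hb s with h | h <;> rw [h]
      · constructor <;> [linarith; (norm_num; linarith)]
      · constructor <;> [linarith; (norm_num; linarith)]
  | succ M ih =>
    intro s
    rcases hal s with hs | hs
    · have h := hzero (M + 1) s hs
      rw [h.1, h.2, hs]; simp
    rw [hs, one_mul, one_mul]
    have hne : avg (fun _ : α => (1 : ℝ)) ≤ 1 := avg_const_le zero_le_one
    have ha1 : ∀ c, alive (step s c) ≤ 1 := fun c => by
      rcases hal (step s c) with h | h <;> rw [h] <;> norm_num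
    have ha0 : ∀ c, 0 ≤ alive (step s c) := fun c => by
      rcases hal (step s c) with h | h <;> rw [h] <;> norm_num
    have hav0 : 0 ≤ avg (fun c => alive (step s c)) := avg_nonneg ha0
    have hav1 : avg (fun c => alive (step s c)) ≤ 1 := (avg_mono ha1).trans hne
    have e1 : EL (M + 1) (fun F => visits step b s F) =
        avg (fun c => EL M (fun F => b s + visits step b (step s c) F)) := rfl
    have e2 : EL (M + 1) (fun F => (visits step b s F) ^ 2) =
        avg (fun c => EL M (fun F => (b s + visits step b (step s c) F) ^ 2)) := rfl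
    have i1 : avg (fun c => EL M (fun F => visits step b (step s c) F)) ≤
        avg (fun c => alive (step s c)) * (1 / p) := by
      rw [← avg_mul_const]; exact avg_mono fun c => (ih (step s c)).1
    have i2 : avg (fun c => EL M (fun F => (visits step b (step s c) F) ^ 2)) ≤
        avg (fun c => alive (step s c)) * (2 / p ^ 2) := by
      rw [← avg_mul_const]; exact avg_mono fun c => (ih (step s c)).2
    rcases hb s with h | h
    · constructor
      · rw [e1, h]
        simp only [zero_add]
        refine i1.trans ?_
        calc avg (fun c => alive (step s c)) * (1 / p) ≤ 1 * (1 / p) :=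
              mul_le_mul_of_nonneg_right hav1 (by positivity)
          _ = 1 / p := one_mul _
      · rw [e2, h]
        simp only [zero_add]
        refine i2.trans ?_
        calc avg (fun c => alive (step s c)) * (2 / p ^ 2) ≤ 1 * (2 / p ^ 2) :=
              mul_le_mul_of_nonneg_right hav1 (by positivity)
          _ = 2 / p ^ 2 := one_mul _
    · have hk := hkill s h
      have j1 : avg (fun c => EL M (fun F => b s + visits step b (step s c) F)) ≤
          1 + avg (fun c => EL M (fun F => visits step b (step s c) F)) := by
        rw [h]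
        have : ∀ c, EL M (fun F => (1 : ℝ) + visits step b (step s c) F) ≤
            1 + EL M (fun F => visits step b (step s c) F) := fun c => by
          rw [EL_add]; have := EL_const_le (α := α) (M := M) (c := 1) zero_le_one; linarith
        refine (avg_mono this).trans ?_
        rw [avg_add]; linarith
      have j2 : avg (fun c => EL M (fun F => (b s + visits step b (step s c) F) ^ 2)) ≤
          1 + 2 * avg (fun c => EL M (fun F => visits step b (step s c) F)) +
            avg (fun c => EL M (fun F => (visits step b (step s c) F) ^ 2)) := by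
        rw [h]
        have : ∀ c, EL M (fun F => ((1 : ℝ) + visits step b (step s c) F) ^ 2) ≤
            1 + 2 * EL M (fun F => visits step b (step s c) F) +
              EL M (fun F => (visits step b (step s c) F) ^ 2) := fun c => by
          have e : ∀ F : List α, ((1 : ℝ) + visits step b (step s c) F) ^ 2 =
              (1 + 2 * visits step b (step s c) F) + (visits step b (step s c) F) ^ 2 := fun F => by
            ring
          rw [EL_congr e, EL_add, EL_add, EL_const_mul]
          have := EL_const_le (α := α) (M := M) (c := 1) zero_le_one; linarith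
        refine (avg_mono this).trans ?_
        rw [avg_add, avg_add, avg_const_mul]; linarith
      set q := avg (fun c => alive (step s c)) with hq
      have hpp : (1 : ℝ) / p * p = 1 := by field_simp
      have hp22 : (2 : ℝ) / p ^ 2 * p = 2 * (1 / p) := by field_simp
      have k1 : q * (1 / p) ≤ (1 - p) * (1 / p) := mul_le_mul_of_nonneg_right hk (by positivity)
      have k2 : q * (2 / p ^ 2) ≤ (1 - p) * (2 / p ^ 2) :=
        mul_le_mul_of_nonneg_right hk (by positivity)
      constructor
      · rw [e1]; refine j1.trans ?_; nlinarith
      · rw [e2]; refine j2.trans ?_; nlinarith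

/-- `E (visits ^ 2) ≤ 2 / p ^ 2` -/
theorem EL_visits_sq_le (step : S → α → S) (b : S → ℝ) (alive : S → ℝ) (p : ℝ) (hp : 0 < p)
    (hp1 : p ≤ 1)
    (hb : ∀ s, b s = 0 ∨ b s = 1) (hal : ∀ s, alive s = 0 ∨ alive s = 1)
    (hdead : ∀ s, alive s = 0 → b s = 0)
    (hstep : ∀ s c, alive s = 0 → alive (step s c) = 0)
    (hkill : ∀ s, b s = 1 → avg (fun c => alive (step s c)) ≤ 1 - p) (M : ℕ) (s : S) :
    EL M (fun F => (visits step b s F) ^ 2) ≤ 2 / p ^ 2 := by
  refine (EL_visits step b alive p hp hp1 hb hal hdead hstep hkill M s).2.trans ?_
  have h2 : (0 : ℝ) ≤ 2 / p ^ 2 := by positivity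
  rcases hal s with h | h <;> rw [h]
  · simpa using h2
  · simp

end geomAbs

end Crest.Agent.R153
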