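import Crest.Agent.R153.GStep
import Crest.Agent.R153.GLossSq
import Crest.Agent.R153.GeomAbs

/-! Row 153, all energy levels: the induction on the number of variables (helper784). -/

set_option autoImplicit false

open Crest.ProbabilityR.RandomSAT

namespace Crest.Agent.R153.G

variable {J j k m n : ℕ}

theorem Teps_eq_visits_aux (ε : ℝ) (F : List (Clause k n)) :
    ∀ h : Cost n, Teps J ε h F = visits cut (frz J ε) h F := by
  induction F with
  | nil => intro h; rfl
  | cons c F ih =>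
    intro h
    show frz J ε h + Teps J ε (cut h c) F = frz J ε h + visits cut (frz J ε) (cut h c) F
    rw [ih]

/-- the number of steps with frozen fraction `> ε` is dominated by a geometric variable -/
theorem EL_Teps_sq_le_aux (k : ℕ) {n : ℕ} (ε : ℝ) (hε : 0 < ε) (hε1 : ε ≤ 1)
    (hn : (k : ℝ) ≤ ε * n) (hkn : k ≤ n) (M : ℕ) (h : Cost n) :
    EL M (fun F : List (Clause k n) => (Teps J ε h F) ^ 2) ≤ 2 / ((ε / 2) ^ k) ^ 2 := by
  have : Nonempty (Clause k n) := nonempty_clause hkn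
  simp only [Teps_eq_visits_aux]
  refine EL_visits_sq_le cut (frz J ε) (ne J) ((ε / 2) ^ k) (by positivity)
    (pow_le_one₀ (by positivity) (by linarith)) (frz_zero_or_one ε) ne_zero_or_one ?_ ?_ ?_ M h
  · intro g hg
    rcases frz_zero_or_one (J := J) ε g with h1 | h1
    · exact h1
    · rw [ne_of_frz_one h1] at hg; norm_num at hg
  · intro g c hg
    exact ne_zero_of_le (le_cut g c) hg
  · intro g hg
    have h1 := (frz_one_iff ε g).1 hg
    have h2 := phi_lower J k ε hε hn g h1.1 h1.2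
    have h3 : phi J k g = 1 - avg (fun q : Clause k n => ne J (cut g q)) := by
      unfold phi; rw [avg_sub, avg_const]
    rw [h3] at h2
    linarith

theorem card_univ_sdiff_free_le (E : List (Clause m n)) :
    (Finset.univ \ free E).card ≤ m * E.length := by
  classical
  have h1 : Finset.univ \ free E ⊆ (E.flatMap (fun c => List.ofFn c.1.1)).toFinset := by
    intro v hv
    rw [Finset.mem_sdiff, mem_free] at hv
    have h2 := hv.2
    push Not at h2
    obtain ⟨c, hc, a, ha⟩ := h2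
    rw [List.mem_toFinset, List.mem_flatMap]
    exact ⟨c, hc, List.mem_ofFn.2 ⟨a, ha⟩⟩
  refine (Finset.card_le_card h1).trans ((List.toFinset_card_le _).trans ?_)
  rw [List.length_flatMap]
  have h3 : (List.map (fun c : Clause m n => (List.ofFn c.1.1).length) E).sum = m * E.length := by
    induction E with
    | nil => simp
    | cons c E ih =>
      rw [List.map_cons, List.sum_cons, List.length_ofFn, List.length_cons, Nat.mul_succ]
      have : Finset.univ \ free E ⊆ (E.flatMap (fun c => List.ofFn c.1.1)).toFinset := by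
        intro v hv
        rw [Finset.mem_sdiff, mem_free] at hv
        have h2 := hv.2
        push Not at h2
        obtain ⟨c, hc, a, ha⟩ := h2
        rw [List.mem_toFinset, List.mem_flatMap]
        exact ⟨c, hc, List.mem_ofFn.2 ⟨a, ha⟩⟩
      rw [ih this, Nat.add_comm]
  exact h3.le

/-- the loss of a clause against the loss of untouched literals, averaged -/
theorem Lq_le (hn : j + 3 ≤ n) (ε : ℝ) (hε : 0 < ε) (hε1 : ε ≤ 1) (hnε : ((j + 3 : ℕ) : ℝ) ≤ ε * n)
    (i a : ℕ) :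
    Lq J j n i a ≤ 2 ^ (j + 1) * (ε ^ (j + 1) * DDu J j n i a + 2 / ((ε / 2) ^ (j + 3)) ^ 2 +
      ((j + 2) * i / n * (a + 1)) ^ 2) := by
  have : Nonempty (Clause (j + 2) n) := nonempty_clause (by omega)
  have : Nonempty (Clause (j + 3) n) := nonempty_clause hn
  have hn0 : (0 : ℝ) < n := by
    have : 0 < n := by omega
    exact_mod_cast this
  have hpt : ∀ (E : List (Clause (j + 2) n)), E.length = i → ∀ (P : List (Clause (j + 3) n)),
      P.length = a →
      avg (fun q : Clause (j + 2) n => loss J (cutL (fun _ => 0) E) q P ^ 2) ≤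
      2 ^ (j + 1) * (ε ^ (j + 1) * avg (fun l : Fin n × Bool => if l.1 ∈ free E then
        (hit J (cutL (fun _ => 0) E) P - hit J (cutLit (cutL (fun _ => 0) E) l) P) ^ 2 else 0) +
        (Teps J ε (cutL (fun _ => 0) E) P) ^ 2 + ((j + 2) * i / n * (a + 1)) ^ 2) := by
    intro E hE P hP
    set τ : ℝ := ((Finset.univ \ free E).card : ℝ) / n with hτ
    have hτ0 : 0 ≤ τ := by positivity
    have hτ1 : τ ≤ 1 := by
      rw [hτ, div_le_one hn0]
      have : (Finset.univ \ free E).card ≤ (Finset.univ : Finset (Fin n)).card :=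
        Finset.card_le_card Finset.sdiff_subset
      rw [Finset.card_univ, Fintype.card_fin] at this
      exact_mod_cast this
    have hτ2 : τ ≤ (j + 2) * i / n := by
      rw [hτ]
      refine div_le_div_of_nonneg_right ?_ hn0.le
      have := card_univ_sdiff_free_le E
      rw [hE] at this
      exact_mod_cast this
    have h1 := avg_loss_sq_le_on (J := J) (j := j) ε τ hε hτ0 (free E)
      (by rw [hτ, div_mul_cancel₀ _ hn0.ne']) (cutL (fun _ => 0) E) P
    refine h1.trans ?_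
    refine mul_le_mul_of_nonneg_left ?_ (by positivity)
    refine add_le_add le_rfl ?_
    have h2 : τ ^ (j + 2) ≤ ((j + 2) * i / n) ^ 2 := by
      calc τ ^ (j + 2) = τ ^ j * τ ^ 2 := by rw [pow_add]
        _ ≤ 1 * ((j + 2) * i / n) ^ 2 :=
          mul_le_mul (pow_le_one₀ hτ0 hτ1) (pow_le_pow_left₀ hτ0 hτ2 2) (by positivity)
            zero_le_one
        _ = _ := one_mul _
    have h3 : hit J (cutL (fun _ => 0) E) P ≤ a + 1 := by
      have := hit_le_length (J := J) (cutL (fun _ => 0) E) P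
      rwa [hP] at this
    have h4 := hit_nonneg (J := J) (cutL (fun _ => 0) E) P
    rw [mul_pow]
    exact mul_le_mul h2 (pow_le_pow_left₀ h4 h3 2) (by positivity) (by positivity)
  unfold Lq
  refine (EL_mono' fun E hE => EL_mono' fun P hP => hpt E hE P hP).trans ?_
  have hT : EL (α := Clause (j + 2) n) i (fun E => EL (α := Clause (j + 3) n) a (fun P =>
      (Teps J ε (cutL (fun _ => 0) E) P) ^ 2)) ≤ 2 / ((ε / 2) ^ (j + 3)) ^ 2 := by
    refine (EL_mono fun E => EL_Teps_sq_le_aux (J := J) (j + 3) ε hε hε1 hnε hn a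
      (cutL (fun _ => 0) E)).trans ?_
    exact EL_const_le (by positivity)
  have heq : EL (α := Clause (j + 2) n) i (fun E => EL (α := Clause (j + 3) n) a (fun P =>
      2 ^ (j + 1) * (ε ^ (j + 1) * avg (fun l : Fin n × Bool => if l.1 ∈ free E then
        (hit J (cutL (fun _ => 0) E) P - hit J (cutLit (cutL (fun _ => 0) E) l) P) ^ 2 else 0) +
        (Teps J ε (cutL (fun _ => 0) E) P) ^ 2 + ((j + 2) * i / n * (a + 1)) ^ 2))) =
      2 ^ (j + 1) * (ε ^ (j + 1) * DDu J j n i a +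
        EL (α := Clause (j + 2) n) i (fun E => EL (α := Clause (j + 3) n) a (fun P =>
          (Teps J ε (cutL (fun _ => 0) E) P) ^ 2)) + ((j + 2) * i / n * (a + 1)) ^ 2) := by
    have e1 : ∀ E : List (Clause (j + 2) n), EL (α := Clause (j + 3) n) a (fun P =>
      2 ^ (j + 1) * (ε ^ (j + 1) * avg (fun l : Fin n × Bool => if l.1 ∈ free E then
        (hit J (cutL (fun _ => 0) E) P - hit J (cutLit (cutL (fun _ => 0) E) l) P) ^ 2 else 0) +
        (Teps J ε (cutL (fun _ => 0) E) P) ^ 2 + ((j + 2) * i / n * (a + 1)) ^ 2)) =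
        2 ^ (j + 1) * (ε ^ (j + 1) * EL (α := Clause (j + 3) n) a (fun P =>
          avg (fun l : Fin n × Bool => if l.1 ∈ free E then
        (hit J (cutL (fun _ => 0) E) P - hit J (cutLit (cutL (fun _ => 0) E) l) P) ^ 2 else 0)) +
        EL (α := Clause (j + 3) n) a (fun P => (Teps J ε (cutL (fun _ => 0) E) P) ^ 2) +
        ((j + 2) * i / n * (a + 1)) ^ 2) := by
      intro E
      rw [EL_const_mul, EL_add, EL_add, EL_const_mul, EL_const]
    rw [EL_congr e1, EL_const_mul, EL_add, EL_add, EL_const_mul, EL_const]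
    rfl
  rw [heq]
  refine mul_le_mul_of_nonneg_left ?_ (by positivity)
  linarith

theorem DDu_nonneg (J j n i M : ℕ) : 0 ≤ DDu J j n i M := by
  unfold DDu
  refine EL_nonneg fun E => EL_nonneg fun F => avg_nonneg fun l => ?_
  split_ifs
  · exact sq_nonneg _
  · exact le_rfl

/-- trivial bound -/
theorem DDu_le_sq (J j n i M : ℕ) : DDu J j n i M ≤ ((M : ℝ) + 1) ^ 2 := by
  unfold DDu
  refine (EL_mono (g := fun _ => ((M : ℝ) + 1) ^ 2) fun E => ?_).trans
    (EL_const_le (by positivity))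
  refine (EL_mono' (g := fun _ => ((M : ℝ) + 1) ^ 2) fun F hF => ?_).trans
    (EL_const_le (by positivity))
  refine (avg_mono (g := fun _ => ((M : ℝ) + 1) ^ 2) fun l => ?_).trans
    (avg_const_le (by positivity))
  split_ifs
  · have h1 := hit_le_length (J := J) (cutL (fun _ => 0) E) F
    have h2 := hit_nonneg (J := J) (cutLit (cutL (fun _ => 0) E) l) F
    have h3 : 0 ≤ hit J (cutL (fun _ => 0) E) F -
        hit J (cutLit (cutL (fun _ => 0) E) l) F := sub_nonneg.2 (hit_anti (le_cutLit _ _) F)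
    rw [hF] at h1
    exact pow_le_pow_left₀ h3 (by linarith) 2
  · positivity

theorem sq_le_two_mul_two_pow (i : ℕ) : ((i : ℝ)) ^ 2 ≤ 2 * 2 ^ i := by
  have h : i ^ 2 ≤ 2 * 2 ^ i := by
    rcases Nat.lt_or_ge i 4 with h | h
    · interval_cases i <;> norm_num
    · induction i, h using Nat.le_induction with
      | base => norm_num
      | succ i hi ih =>
        rw [pow_succ 2 i]
        nlinarith
  exact_mod_cast h

theorem succ_sq_le_four_mul_two_pow (s : ℕ) : ((s : ℝ) + 1) ^ 2 ≤ 4 * 2 ^ s := by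
  have h : (s + 1) ^ 2 ≤ 4 * 2 ^ s := by
    rcases Nat.lt_or_ge s 3 with h | h
    · interval_cases s <;> norm_num
    · induction s, h using Nat.le_induction with
      | base => norm_num
      | succ i hi ih =>
        rw [pow_succ 2 i]
        nlinarith
  exact_mod_cast h

/-- one step of the recursion, with constants -/
theorem DDu_step (C0 : ℕ) (K ε : ℝ) (hK : K = Real.exp (18 * ((j : ℝ) + 3) * C0))
    (hε : 0 < ε) (hε1 : ε ≤ 1) (hεK : K * 2 ^ (j + 1) * ε ≤ 1 / 2)
    (hn : j + 3 ≤ n) (hnε : ((j + 3 : ℕ) : ℝ) ≤ ε * n) (M : ℕ)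
    (hM : (M : ℝ) ≤ C0 * (2 * (n + 1))) (B : ℝ) (hB : 0 ≤ B)
    (h : ∀ i a, a ≤ M → DDu J j n i a ≤ B * 2 ^ i) :
    ∀ i a, a ≤ M → DDu J j (n + 1) i a ≤ (B / 2 + K * 2 ^ (j + 1) *
      (2 / ((ε / 2) ^ (j + 3)) ^ 2 + ((j + 2) * (4 * C0 + 1)) ^ 2 * 2)) * 2 ^ i := by
  intro i a ha
  have hn0 : (0 : ℝ) < n := by
    have : 0 < n := by omega
    exact_mod_cast this
  have hn1 : (1 : ℝ) ≤ n := by
    have : 1 ≤ n := by omega
    exact_mod_cast this
  set D : ℝ := 2 / ((ε / 2) ^ (j + 3)) ^ 2 + ((j + 2) * (4 * C0 + 1)) ^ 2 * 2 with hD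
  have hD0 : 0 ≤ D := by positivity
  set Λ : ℝ := 2 ^ (j + 1) * (ε ^ (j + 1) * B + D) with hΛ
  have hΛ0 : 0 ≤ Λ := by positivity
  have hL : ∀ i' a', a' ≤ a → Lq J j n i' a' ≤ Λ * 2 ^ i' := by
    intro i' a' ha'
    have h1 := Lq_le (J := J) hn ε hε hε1 hnε i' a'
    have h2 := h i' a' (ha'.trans ha)
    have h3 : (1 : ℝ) ≤ 2 ^ i' := one_le_pow₀ (by norm_num)
    have h4 : ((j + 2 : ℝ) * i' / n * (a' + 1)) ^ 2 ≤
        ((j + 2) * (4 * C0 + 1)) ^ 2 * 2 * 2 ^ i' := by
      have e : ((j + 2 : ℝ) * i' / n * (a' + 1)) = ((j + 2) * ((a' + 1) / n)) * i' := by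
        field_simp
      have e2 : ((a' : ℝ) + 1) / n ≤ 4 * C0 + 1 := by
        rw [div_le_iff₀ hn0]
        have : (a' : ℝ) ≤ M := by exact_mod_cast ha'.trans ha
        have h5 : (0 : ℝ) ≤ C0 := Nat.cast_nonneg _
        nlinarith
      rw [e, mul_pow]
      have h6 : (((j : ℝ) + 2) * ((a' + 1) / n)) ^ 2 ≤ ((j + 2) * (4 * C0 + 1)) ^ 2 :=
        pow_le_pow_left₀ (by positivity) (mul_le_mul_of_nonneg_left e2 (by positivity)) 2
      calc _ ≤ (((j : ℝ) + 2) * (4 * C0 + 1)) ^ 2 * (2 * 2 ^ i') :=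
            mul_le_mul h6 (sq_le_two_mul_two_pow i') (by positivity) (by positivity)
        _ = _ := by ring
    refine h1.trans ?_
    rw [hΛ, mul_assoc]
    refine mul_le_mul_of_nonneg_left ?_ (by positivity)
    have h5 : ε ^ (j + 1) * DDu J j n i' a' ≤ ε ^ (j + 1) * (B * 2 ^ i') :=
      mul_le_mul_of_nonneg_left h2 (by positivity)
    have h6 : 2 / ((ε / 2) ^ (j + 3)) ^ 2 ≤ 2 / ((ε / 2) ^ (j + 3)) ^ 2 * 2 ^ i' :=
      le_mul_of_one_le_right (by positivity) h3
    calc _ ≤ ε ^ (j + 1) * (B * 2 ^ i') + 2 / ((ε / 2) ^ (j + 3)) ^ 2 * 2 ^ i' +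
          ((j + 2) * (4 * C0 + 1)) ^ 2 * 2 * 2 ^ i' := by linarith
      _ = (ε ^ (j + 1) * B + D) * 2 ^ i' := by rw [hD]; ring
  have h1 := DDu_succ_le hn a Λ hΛ0 hL i
  have hθ : theta (j + 2) n = ((j : ℝ) + 3) / (2 * (n + 1)) := by
    unfold theta; push_cast; ring
  have hexp : (1 + 18 * theta (j + 2) n) ^ a ≤ K := by
    have h2 : 1 + 18 * theta (j + 2) n ≤ Real.exp (18 * theta (j + 2) n) := by
      have := Real.add_one_le_exp (18 * theta (j + 2) n)
      linarith
    have h3 : (0 : ℝ) ≤ theta (j + 2) n := theta_nonneg _ _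
    calc (1 + 18 * theta (j + 2) n) ^ a ≤ (Real.exp (18 * theta (j + 2) n)) ^ a :=
          pow_le_pow_left₀ (by positivity) h2 a
      _ = Real.exp (18 * theta (j + 2) n * a) := by rw [← Real.exp_nat_mul]; ring_nf
      _ ≤ K := by
        rw [hK]
        refine Real.exp_le_exp.2 ?_
        have h4 : (a : ℝ) ≤ C0 * (2 * (n + 1)) := le_trans (by exact_mod_cast ha) hM
        calc 18 * theta (j + 2) n * a ≤ 18 * theta (j + 2) n * (C0 * (2 * (n + 1))) :=
              mul_le_mul_of_nonneg_left h4 (by positivity)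
          _ = 18 * ((j : ℝ) + 3) * C0 := by rw [hθ]; field_simp
  have hK0 : 0 < K := by rw [hK]; exact Real.exp_pos _
  have hε2 : ε ^ (j + 1) ≤ ε := by
    calc ε ^ (j + 1) = ε ^ j * ε := pow_succ _ _
      _ ≤ 1 * ε := mul_le_mul_of_nonneg_right (pow_le_one₀ hε.le hε1) hε.le
      _ = ε := one_mul _
  refine h1.trans ?_
  calc Λ * 2 ^ i * (1 + 18 * theta (j + 2) n) ^ a ≤ Λ * 2 ^ i * K :=
        mul_le_mul_of_nonneg_left hexp (by positivity)
    _ = (K * 2 ^ (j + 1) * ε ^ (j + 1) * B + K * 2 ^ (j + 1) * D) * 2 ^ i := by rw [hΛ]; ring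
    _ ≤ (B / 2 + K * 2 ^ (j + 1) * D) * 2 ^ i := by
      refine mul_le_mul_of_nonneg_right (add_le_add ?_ le_rfl) (by positivity)
      calc K * 2 ^ (j + 1) * ε ^ (j + 1) * B ≤ K * 2 ^ (j + 1) * ε * B :=
            mul_le_mul_of_nonneg_right (mul_le_mul_of_nonneg_left hε2 (by positivity)) hB
        _ ≤ 1 / 2 * B := mul_le_mul_of_nonneg_right hεK hB
        _ = B / 2 := by ring

theorem exists_DDu_le (j C0 : ℕ) : ∃ A : ℝ, 0 ≤ A ∧ ∀ n : ℕ, j + 3 ≤ n → ∀ J M : ℕ, M ≤ C0 * n →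
    DDu J j n 0 M ≤ A := by
  set K : ℝ := Real.exp (18 * ((j : ℝ) + 3) * C0) with hK
  have hK0 : 0 < K := by rw [hK]; exact Real.exp_pos _
  set ε : ℝ := min 1 (1 / (K * 2 ^ (j + 1) * 2)) with hεd
  have hε : 0 < ε := lt_min one_pos (by positivity)
  have hε1 : ε ≤ 1 := min_le_left _ _
  have hεK : K * 2 ^ (j + 1) * ε ≤ 1 / 2 := by
    have h1 : ε ≤ 1 / (K * 2 ^ (j + 1) * 2) := min_le_right _ _
    calc K * 2 ^ (j + 1) * ε ≤ K * 2 ^ (j + 1) * (1 / (K * 2 ^ (j + 1) * 2)) :=
          mul_le_mul_of_nonneg_left h1 (by positivity)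
      _ = 1 / 2 := by field_simp
  set D : ℝ := K * 2 ^ (j + 1) *
      (2 / ((ε / 2) ^ (j + 3)) ^ 2 + ((j + 2) * (4 * C0 + 1)) ^ 2 * 2) with hD
  have hD0 : 0 ≤ D := by positivity
  obtain ⟨n1, hn1⟩ := exists_nat_ge (((j + 3 : ℕ) : ℝ) / ε)
  set N1 : ℕ := 2 * (n1 + (j + 3)) with hN1
  refine ⟨2 * D + 4 * (2 * C0 + 1) ^ 2 + (C0 * N1 + 1) ^ 2, by positivity, ?_⟩
  intro N hN J M hM
  rcases Nat.lt_or_ge N N1 with hlt | hge
  · refine (DDu_le_sq J j N 0 M).trans ?_
    have h1 : (M : ℝ) ≤ C0 * N1 := by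
      have : M ≤ C0 * N1 := hM.trans (Nat.mul_le_mul_left _ hlt.le)
      exact_mod_cast this
    have h2 : ((M : ℝ) + 1) ^ 2 ≤ (C0 * N1 + 1) ^ 2 :=
      pow_le_pow_left₀ (by positivity) (by linarith) 2
    have h3 : (0 : ℝ) ≤ 4 * (2 * (C0 : ℝ) + 1) ^ 2 := by positivity
    linarith
  · -- iterate from `n0 = N - N / 2` to `N`
    set s : ℕ := N / 2 with hs
    set n0 : ℕ := N - s with hn0
    have hn0a : n1 ≤ n0 := by omega
    have hn0b : j + 3 ≤ n0 := by omega
    have hn0c : N ≤ 2 * n0 := by omega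
    have hiter : ∀ t : ℕ, n0 + t ≤ N → ∀ i a, a ≤ M →
        DDu J j (n0 + t) i a ≤ (2 * D + ((M : ℝ) + 1) ^ 2 / 2 ^ t) * 2 ^ i := by
      intro t
      induction t with
      | zero =>
        intro _ i a ha
        rw [Nat.add_zero, pow_zero, div_one]
        have h1 := DDu_le_sq J j n0 i a
        have h2 : ((a : ℝ) + 1) ^ 2 ≤ ((M : ℝ) + 1) ^ 2 := by
          have : (a : ℝ) ≤ M := by exact_mod_cast ha
          exact pow_le_pow_left₀ (by positivity) (by linarith) 2
        have h3 : (1 : ℝ) ≤ 2 ^ i := one_le_pow₀ (by norm_num)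
        calc DDu J j n0 i a ≤ 2 * D + ((M : ℝ) + 1) ^ 2 := by linarith
          _ ≤ _ := le_mul_of_one_le_right (by positivity) h3
      | succ t ih =>
        intro ht i a ha
        have h1 := DDu_step (J := J) C0 K ε hK hε hε1 hεK (n := n0 + t) (by omega) (by
            have h2 : ((j + 3 : ℕ) : ℝ) ≤ ε * n1 := by
              rwa [div_le_iff₀ hε, mul_comm] at hn1
            refine h2.trans (mul_le_mul_of_nonneg_left ?_ hε.le)
            exact_mod_cast (by omega : n1 ≤ n0 + t)) M (by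
            have h2 : M ≤ C0 * (2 * (n0 + t + 1)) :=
              hM.trans (Nat.mul_le_mul_left _ (by omega))
            exact_mod_cast h2) (2 * D + ((M : ℝ) + 1) ^ 2 / 2 ^ t) (by positivity)
            (ih (by omega)) i a ha
        refine h1.trans (le_of_eq ?_)
        rw [← hD, pow_succ]
        ring
    have h1 := hiter s (by omega) 0 M le_rfl
    rw [show n0 + s = N by omega, pow_zero, mul_one] at h1
    refine h1.trans ?_
    have h2 : ((M : ℝ) + 1) ^ 2 / 2 ^ s ≤ 4 * (2 * (C0 : ℝ) + 1) ^ 2 := by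
      rw [div_le_iff₀ (by positivity)]
      have h3 : (M : ℝ) + 1 ≤ (2 * C0 + 1) * (s + 1) := by
        have h4 : M + 1 ≤ (2 * C0 + 1) * (s + 1) := by
          have h5 : M ≤ C0 * (2 * s + 1) := hM.trans (Nat.mul_le_mul_left _ (by omega))
          nlinarith
        exact_mod_cast h4
      calc ((M : ℝ) + 1) ^ 2 ≤ ((2 * C0 + 1) * (s + 1)) ^ 2 :=
            pow_le_pow_left₀ (by positivity) h3 2
        _ = (2 * (C0 : ℝ) + 1) ^ 2 * ((s : ℝ) + 1) ^ 2 := by ring
        _ ≤ (2 * (C0 : ℝ) + 1) ^ 2 * (4 * 2 ^ s) :=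
            mul_le_mul_of_nonneg_left (succ_sq_le_four_mul_two_pow s) (by positivity)
        _ = _ := by ring
    have h3 : (0 : ℝ) ≤ (C0 * N1 + 1) ^ 2 := by positivity
    linarith

theorem free_nil : free ([] : List (Clause m n)) = Finset.univ := by
  ext v; rw [mem_free]; simp

/-- the second moment of the loss of a uniform literal is bounded, at every level -/
theorem exists_DD_le (j C0 : ℕ) : ∃ A : ℝ, 0 ≤ A ∧ ∀ n : ℕ, j + 3 ≤ n → ∀ J M : ℕ, M ≤ C0 * n →
    DD J j n 0 M ≤ A := by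
  obtain ⟨A, hA, h⟩ := exists_DDu_le j C0
  refine ⟨A, hA, fun n hn J M hM => (le_of_eq ?_).trans (h n hn J M hM)⟩
  unfold DD DDu
  show EL (α := Clause (j + 3) n) M (fun F => avg (fun l : Fin n × Bool =>
      (hit J (cutL (fun _ => 0) ([] : List (Clause (j + 2) n))) F -
        hit J (cutLit (cutL (fun _ => 0) ([] : List (Clause (j + 2) n))) l) F) ^ 2)) =
    EL (α := Clause (j + 3) n) M (fun F => avg (fun l : Fin n × Bool =>
      if l.1 ∈ free ([] : List (Clause (j + 2) n)) then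
      (hit J (cutL (fun _ => 0) ([] : List (Clause (j + 2) n))) F -
        hit J (cutLit (cutL (fun _ => 0) ([] : List (Clause (j + 2) n))) l) F) ^ 2 else 0))
  simp only [free_nil, Finset.mem_univ, if_true]

/-- the second moment of the loss of a uniform `(j+3)`-clause is bounded, at every level -/
theorem exists_loss_le (j C0 : ℕ) : ∃ A : ℝ, 0 ≤ A ∧ ∀ n : ℕ, j + 3 ≤ n → ∀ J M : ℕ,
    M ≤ C0 * n → EL (α := Clause (j + 3) n) M (fun F => avg (fun q : Clause (j + 3) n =>
      (hit J (fun _ => 0) F - hit J (cut (fun _ => 0) q) F) ^ 2)) ≤ A := by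
  obtain ⟨A, hA, h⟩ := exists_DD_le j C0
  refine ⟨A, hA, fun n hn J M hM => le_trans ?_ (h n hn J M hM)⟩
  show _ ≤ EL (α := Clause (j + 3) n) M (fun F => avg (fun l : Fin n × Bool =>
      (hit J (fun _ => 0) F - hit J (cutLit (fun _ => 0) l) F) ^ 2))
  exact EL_mono fun F => avg_loss_sq_le_lit (m := j + 2) hn (fun _ => 0) F

end Crest.Agent.R153.G
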