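import Crest.Agent.R153.AWeak
import Crest.Agent.R153.GInduct

/-! Row 153: linear growth of the minimal number of unsatisfied clauses above the threshold,
unconditional (helper211). -/

set_option autoImplicit false

open Crest.ProbabilityR.RandomSAT Filter Topology

namespace Crest.Agent.R153

/-- above a sharp threshold, the mean minimal number of unsatisfied clauses is linear -/
theorem aweak (j : ℕ) {α c : ℝ} (hα : IsSharpThreshold (satProb (j + 3)) α) (hc : α < c) :
    ∃ κ : ℝ, 0 < κ ∧ ∀ᶠ n : ℕ in atTop,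
      κ * n ≤ avg (fun F : Fin ⌊c * n⌋₊ → Clause (j + 3) n => (minUnsat F : ℝ)) :=
  aweak_minUnsat j hα hc fun C0 => by
    obtain ⟨A, _, hA⟩ := G.exists_DD_le j C0
    exact ⟨A, hA⟩

/-- the case of clause length `3` -/
theorem aweak3 {α c : ℝ} (hα : IsSharpThreshold (satProb 3) α) (hc : α < c) :
    ∃ κ : ℝ, 0 < κ ∧ ∀ᶠ n : ℕ in atTop,
      κ * n ≤ avg (fun F : Fin ⌊c * n⌋₊ → Clause 3 n => (minUnsat F : ℝ)) :=
  aweak 0 hα hc

end Crest.Agent.R153
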