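import Mathlib
import Crest.Prelude.Def_RandomSAT
import Crest.Agent.Lib.RatPrimrec

set_option autoImplicit false

/-! Row 153, part [E2]: the number of satisfiable 3-clause formulas is primitive recursive. -/

namespace Crest.Agent.R153

open Crest.ProbabilityR.RandomSAT

/-- `i`-th base `D` digit -/
def dg (D c i : ℕ) : ℕ := c / D ^ i % D

/-- the code of a 3-clause (base `2n` digits are literals `2v+b`) has three distinct variables -/
def validB (n c : ℕ) : Prop :=
  dg (2 * n) c 0 / 2 ≠ dg (2 * n) c 1 / 2 ∧ dg (2 * n) c 0 / 2 ≠ dg (2 * n) c 2 / 2 ∧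
    dg (2 * n) c 1 / 2 ≠ dg (2 * n) c 2 / 2

/-- assignment code `s` satisfies the `i`-th literal -/
def litB (n s c i : ℕ) : Prop := dg 2 s (dg (2 * n) c i / 2) = dg (2 * n) c i % 2

def satB (n s c : ℕ) : Prop := litB n s c 0 ∨ litB n s c 1 ∨ litB n s c 2

def formB (n m x : ℕ) : Prop :=
  (∀ j < m, validB n (dg ((2 * n) ^ 3) x j)) ∧
    ∃ s < 2 ^ n, ∀ j < m, satB n s (dg ((2 * n) ^ 3) x j)

open Classical in
/-- number of satisfiable formulas with `m` clauses -/
noncomputable def satCount (n m : ℕ) : ℕ :=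
  ((List.range (((2 * n) ^ 3) ^ m)).filter (fun x => formB n m x)).length

section primrec

open Primrec

theorem bex {β : Type*} [Primcodable β] {R : ℕ → β → Prop} (hR : PrimrecRel R) {f : β → ℕ}
    (hf : Primrec f) : PrimrecPred fun b => ∃ x < f b, R x b :=
  (hR.exists_mem_list.comp (list_range.comp hf) Primrec.id).of_eq (by simp)

theorem ball {β : Type*} [Primcodable β] {R : ℕ → β → Prop} (hR : PrimrecRel R) {f : β → ℕ}
    (hf : Primrec f) : PrimrecPred fun b => ∀ x < f b, R x b :=
  (hR.forall_mem_list.comp (list_range.comp hf) Primrec.id).of_eq (by simp)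

theorem dg_primrec {β : Type*} [Primcodable β] {D c i : β → ℕ} (hD : Primrec D) (hc : Primrec c)
    (hi : Primrec i) : Primrec (fun b => dg (D b) (c b) (i b)) :=
  nat_mod.comp (nat_div.comp hc (Crest.Agent.Lib.RatPrimrec.primrec_pow.comp hD hi)) hD

theorem validB_primrec {β : Type*} [Primcodable β] {n c : β → ℕ} (hn : Primrec n)
    (hc : Primrec c) : PrimrecPred (fun b => validB (n b) (c b)) := by
  have h2n : Primrec (fun b => 2 * n b) := nat_mul.comp (const 2) hn
  have hd : ∀ i : ℕ, Primrec (fun b => dg (2 * n b) (c b) i / 2) := fun i =>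
    nat_div.comp (dg_primrec h2n hc (const i)) (const 2)
  unfold validB
  exact ((Primrec.eq.comp (hd 0) (hd 1)).not).and
    (((Primrec.eq.comp (hd 0) (hd 2)).not).and ((Primrec.eq.comp (hd 1) (hd 2)).not))

theorem litB_primrec {β : Type*} [Primcodable β] {n s c : β → ℕ} (hn : Primrec n)
    (hs : Primrec s) (hc : Primrec c) (i : ℕ) :
    PrimrecPred (fun b => litB (n b) (s b) (c b) i) := by
  have h2n : Primrec (fun b => 2 * n b) := nat_mul.comp (const 2) hn
  have hd : Primrec (fun b => dg (2 * n b) (c b) i) := dg_primrec h2n hc (const i)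
  unfold litB
  exact Primrec.eq.comp (dg_primrec (const 2) hs (nat_div.comp hd (const 2)))
    (nat_mod.comp hd (const 2))

theorem satB_primrec {β : Type*} [Primcodable β] {n s c : β → ℕ} (hn : Primrec n)
    (hs : Primrec s) (hc : Primrec c) :
    PrimrecPred (fun b => satB (n b) (s b) (c b)) :=
  (litB_primrec hn hs hc 0).or ((litB_primrec hn hs hc 1).or (litB_primrec hn hs hc 2))

theorem formB_primrec {β : Type*} [Primcodable β] {n m x : β → ℕ} (hn : Primrec n)
    (hm : Primrec m) (hx : Primrec x) :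
    PrimrecPred (fun b => formB (n b) (m b) (x b)) := by
  have hB : Primrec (fun b => (2 * n b) ^ 3) :=
    Crest.Agent.Lib.RatPrimrec.primrec_pow.comp (nat_mul.comp (const 2) hn) (const 3)
  unfold formB
  refine PrimrecPred.and ?_ ?_
  · have hR : PrimrecRel (fun (j : ℕ) (b : β) => validB (n b) (dg ((2 * n b) ^ 3) (x b) j)) :=
      validB_primrec (hn.comp snd) (dg_primrec (hB.comp snd) (hx.comp snd) fst)
    exact ball hR hm
  · have hR : PrimrecRel (fun (j : ℕ) (p : ℕ × β) =>
        satB (n p.2) p.1 (dg ((2 * n p.2) ^ 3) (x p.2) j)) :=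
      satB_primrec (hn.comp (snd.comp snd)) (fst.comp snd)
        (dg_primrec (hB.comp (snd.comp snd)) (hx.comp (snd.comp snd)) fst)
    have h2 : PrimrecRel (fun (s : ℕ) (b : β) =>
        ∀ j < m b, satB (n b) s (dg ((2 * n b) ^ 3) (x b) j)) :=
      ball (β := ℕ × β) hR (hm.comp snd)
    exact bex h2 (Crest.Agent.Lib.RatPrimrec.primrec_pow.comp (const 2) hn)

theorem satCount_primrec : Primrec₂ satCount := by
  classical
  have hR : PrimrecRel (fun (x : ℕ) (p : ℕ × ℕ) => formB p.1 p.2 x) :=
    formB_primrec (fst.comp snd) (snd.comp snd) fst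
  have hN : Primrec (fun p : ℕ × ℕ => ((2 * p.1) ^ 3) ^ p.2) :=
    Crest.Agent.Lib.RatPrimrec.primrec_pow.comp
      (Crest.Agent.Lib.RatPrimrec.primrec_pow.comp (nat_mul.comp (const 2) fst) (const 3)) snd
  have h := (list_length.comp ((PrimrecRel.listFilter hR).comp (list_range.comp hN) Primrec.id))
  refine h.of_eq fun p => ?_
  unfold satCount
  congr 1

end primrec

/-! ### The count equals the number of satisfiable formulas -/

section count

/-- digits of the code of a function -/
theorem dg_code {D k : ℕ} (f : Fin k → Fin D) (i : Fin k) :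
    dg D ((finFunctionFinEquiv f : Fin (D ^ k)) : ℕ) i = f i := by
  have h := congrFun (finFunctionFinEquiv.symm_apply_apply f) i
  have h2 := congrArg Fin.val h
  rw [← h2]
  rfl

theorem code_dg {D k : ℕ} (hD : 0 < D) (x : ℕ) (hx : x < D ^ k) :
    ((finFunctionFinEquiv (fun i : Fin k => (⟨dg D x i, Nat.mod_lt _ hD⟩ : Fin D)) :
      Fin (D ^ k)) : ℕ) = x := by
  have h := finFunctionFinEquiv.apply_symm_apply (⟨x, hx⟩ : Fin (D ^ k))
  have h2 := congrArg Fin.val h
  have h3 : (fun i : Fin k => (⟨dg D x i, Nat.mod_lt _ hD⟩ : Fin D)) =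
      finFunctionFinEquiv.symm (⟨x, hx⟩ : Fin (D ^ k)) := rfl
  rw [h3]
  exact h2

/-- literal code -/
def litCode {n : ℕ} (v : Fin n) (b : Bool) : Fin (2 * n) :=
  ⟨2 * v + (if b then 1 else 0), by have := v.2; split_ifs <;> omega⟩

theorem litCode_div {n : ℕ} (v : Fin n) (b : Bool) : (litCode v b : ℕ) / 2 = v := by
  unfold litCode; dsimp only; split_ifs <;> omega

theorem litCode_mod {n : ℕ} (v : Fin n) (b : Bool) :
    (litCode v b : ℕ) % 2 = if b then 1 else 0 := by
  unfold litCode; dsimp only; split_ifs <;> omega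

/-- clause code -/
def clCode {n : ℕ} (c : Clause 3 n) : Fin ((2 * n) ^ 3) :=
  finFunctionFinEquiv (fun i => litCode (c.1.1 i) (c.2 i))

theorem dg_clCode {n : ℕ} (c : Clause 3 n) (i : Fin 3) :
    dg (2 * n) (clCode c) i = litCode (c.1.1 i) (c.2 i) := dg_code _ _

theorem validB_clCode {n : ℕ} (c : Clause 3 n) : validB n (clCode c) := by
  have h0 := dg_clCode c 0
  have h1 := dg_clCode c 1
  have h2 := dg_clCode c 2
  simp only [Fin.val_zero, Fin.val_one, Fin.val_two] at h0 h1 h2
  unfold validB
  rw [h0, h1, h2, litCode_div, litCode_div, litCode_div]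
  refine ⟨fun h => ?_, fun h => ?_, fun h => ?_⟩
  · exact absurd (c.1.2 (Fin.ext h)) (by decide)
  · exact absurd (c.1.2 (Fin.ext h)) (by decide)
  · exact absurd (c.1.2 (Fin.ext h)) (by decide)

theorem clCode_injective {n : ℕ} : Function.Injective (clCode (n := n)) := by
  intro c c' h
  have key : ∀ i, c.1.1 i = c'.1.1 i ∧ c.2 i = c'.2 i := by
    intro i
    have h1 := dg_clCode c i
    have h2 := dg_clCode c' i
    rw [h, h2] at h1
    constructor
    · apply Fin.ext
      rw [← litCode_div (c.1.1 i) (c.2 i), ← h1, litCode_div]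
    · have h3 := congrArg (· % 2) h1
      simp only [litCode_mod] at h3
      cases hb : c.2 i <;> cases hb' : c'.2 i <;> simp_all
  apply Prod.ext
  · apply Subtype.ext
    funext i
    exact (key i).1
  · funext i
    exact (key i).2

/-- assignment code -/
def asCode {n : ℕ} (σ : Fin n → Bool) : Fin (2 ^ n) :=
  finFunctionFinEquiv (fun i => if σ i then 1 else 0)

theorem dg_asCode {n : ℕ} (σ : Fin n → Bool) (i : Fin n) :
    dg 2 (asCode σ) i = if σ i then 1 else 0 := by
  have := dg_code (fun i => if σ i then (1 : Fin 2) else 0) i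
  unfold asCode
  rw [this]
  split_ifs <;> rfl

theorem satB_iff {n : ℕ} (σ : Fin n → Bool) (c : Clause 3 n) :
    satB n (asCode σ) (clCode c) ↔ ClauseSat σ c := by
  have hlit : ∀ i : Fin 3, litB n (asCode σ) (clCode c) i ↔ σ (c.1.1 i) = c.2 i := by
    intro i
    unfold litB
    rw [dg_clCode, litCode_div, litCode_mod, dg_asCode]
    cases σ (c.1.1 i) <;> cases c.2 i <;> simp
  unfold satB ClauseSat
  rw [Fin.exists_fin_succ, Fin.exists_fin_two, ← hlit, ← hlit, ← hlit]
  rfl

theorem asCode_surj {n s : ℕ} (hs : s < 2 ^ n) : ∃ σ : Fin n → Bool, (asCode σ : ℕ) = s := by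
  refine ⟨fun i => decide (dg 2 s i = 1), ?_⟩
  conv_rhs => rw [← code_dg (D := 2) (k := n) (by norm_num) s hs]
  unfold asCode
  congr 2
  funext i
  have : dg 2 s i < 2 := Nat.mod_lt _ (by norm_num)
  apply Fin.ext
  by_cases h : dg 2 s i = 1
  · simp [h]
  · have h0 : dg 2 s i = 0 := by omega
    simp [h0]

theorem clCode_surj {n c : ℕ} (hc : c < (2 * n) ^ 3) (hv : validB n c) :
    ∃ C : Clause 3 n, (clCode C : ℕ) = c := by
  have hn : 0 < 2 * n := by
    rcases Nat.eq_zero_or_pos n with h | h
    · subst h; simp at hc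
    · omega
  have hd : ∀ i, dg (2 * n) c i < 2 * n := fun i => Nat.mod_lt _ hn
  let v : Fin 3 → Fin n := fun i => ⟨dg (2 * n) c i / 2, by have := hd i; omega⟩
  have hinj : Function.Injective v := by
    obtain ⟨h1, h2, h3⟩ := hv
    intro a b hab
    have hab' : dg (2 * n) c a / 2 = dg (2 * n) c b / 2 := congrArg Fin.val hab
    fin_cases a <;> fin_cases b <;> simp_all
  refine ⟨(⟨v, hinj⟩, fun i => decide (dg (2 * n) c i % 2 = 1)), ?_⟩
  conv_rhs => rw [← code_dg (D := 2 * n) (k := 3) hn c hc]
  unfold clCode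
  congr 2
  funext i
  apply Fin.ext
  unfold litCode
  simp only [v, decide_eq_true_eq]
  split_ifs with h <;> omega

/-- formula code -/
def fCode {n m : ℕ} (F : Fin m → Clause 3 n) : Fin (((2 * n) ^ 3) ^ m) :=
  finFunctionFinEquiv (fun j => clCode (F j))

theorem formB_fCode {n m : ℕ} (F : Fin m → Clause 3 n) :
    formB n m (fCode F) ↔ Satisfiable F := by
  have hdg : ∀ j : Fin m, dg ((2 * n) ^ 3) (fCode F) j = clCode (F j) := fun j => dg_code _ _
  unfold formB Satisfiable
  constructor
  · rintro ⟨-, s, hs, h⟩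
    obtain ⟨σ, rfl⟩ := asCode_surj hs
    refine ⟨σ, fun j => ?_⟩
    have := h j j.2
    rw [hdg] at this
    exact (satB_iff σ _).1 this
  · rintro ⟨σ, h⟩
    refine ⟨fun j hj => ?_, asCode σ, (asCode σ).2, fun j hj => ?_⟩
    · rw [hdg ⟨j, hj⟩]
      exact validB_clCode _
    · rw [hdg ⟨j, hj⟩]
      exact (satB_iff σ _).2 (h ⟨j, hj⟩)

theorem fCode_injective {n m : ℕ} : Function.Injective (fCode (n := n) (m := m)) := by
  intro F F' h
  have h2 := finFunctionFinEquiv.injective h
  funext j
  exact clCode_injective (congrFun h2 j)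

theorem fCode_surj {n m x : ℕ} (hx : x < ((2 * n) ^ 3) ^ m)
    (hv : ∀ j < m, validB n (dg ((2 * n) ^ 3) x j)) :
    ∃ F : Fin m → Clause 3 n, (fCode F : ℕ) = x := by
  rcases Nat.eq_zero_or_pos m with hm | hm
  · subst hm
    refine ⟨fun j => j.elim0, ?_⟩
    have := (fCode (n := n) (m := 0) (fun j => j.elim0)).2
    simp only [pow_zero, Nat.lt_one_iff] at this hx
    rw [this, hx]
  · have hn : 0 < (2 * n) ^ 3 := by
      rcases Nat.eq_zero_or_pos n with h | h
      · subst h
        simp [hm.ne'] at hx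
      · positivity
    have hC : ∀ j : Fin m, ∃ C : Clause 3 n, (clCode C : ℕ) = dg ((2 * n) ^ 3) x j := fun j =>
      clCode_surj (Nat.mod_lt _ hn) (hv j j.2)
    choose F hF using hC
    refine ⟨F, ?_⟩
    conv_rhs => rw [← code_dg (D := (2 * n) ^ 3) (k := m) hn x hx]
    unfold fCode
    congr 2
    funext j
    apply Fin.ext
    rw [hF j]

open Classical in
theorem card_sat (n m : ℕ) :
    (Finset.univ.filter (fun F : Fin m → Clause 3 n => Satisfiable F)).card = satCount n m := by
  unfold satCount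
  rw [← List.toFinset_card_of_nodup (List.nodup_range.filter _)]
  refine Finset.card_nbij (fun F => (fCode F : ℕ)) ?_ ?_ ?_
  · intro F hF
    have hF' : Satisfiable F := (Finset.mem_filter.1 hF).2
    have : (fCode F : ℕ) ∈ ((List.range (((2 * n) ^ 3) ^ m)).filter
        (fun x => formB n m x)).toFinset := by
      rw [List.mem_toFinset, List.mem_filter, List.mem_range, decide_eq_true_eq]
      exact ⟨(fCode F).2, (formB_fCode F).2 hF'⟩
    exact this
  · intro F _ F' _ h
    exact fCode_injective (Fin.ext h)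
  · intro x hx
    have hx' : x ∈ ((List.range (((2 * n) ^ 3) ^ m)).filter
        (fun x => formB n m x)).toFinset := hx
    rw [List.mem_toFinset, List.mem_filter, List.mem_range, decide_eq_true_eq] at hx'
    obtain ⟨hx1, hx2⟩ := hx'
    obtain ⟨F, rfl⟩ := fCode_surj hx1 hx2.1
    refine ⟨F, ?_, rfl⟩
    have : F ∈ Finset.univ.filter (fun F : Fin m → Clause 3 n => Satisfiable F) :=
      Finset.mem_filter.2 ⟨Finset.mem_univ _, (formB_fCode F).1 hx2⟩
    exact this

/-- total number of formulas -/
def totCount (n m : ℕ) : ℕ := (n * (n - 1) * (n - 2) * 8) ^ m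

theorem card_clause3 (n : ℕ) : Fintype.card (Clause 3 n) = n * (n - 1) * (n - 2) * 8 := by
  rw [Fintype.card_prod, Fintype.card_fun, Fintype.card_bool, Fintype.card_fin]
  rw [Fintype.card_congr (Equiv.subtypeInjectiveEquivEmbedding (Fin 3) (Fin n)),
    Fintype.card_embedding_eq, Fintype.card_fin, Fintype.card_fin]
  simp only [Nat.descFactorial]
  norm_num
  ring

theorem satProb_eq (n m : ℕ) : satProb 3 n m = (satCount n m : ℝ) / (totCount n m : ℝ) := by
  classical
  unfold satProb Crest.FinProb.uniformProb totCount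
  congr 1
  · rw [← card_sat]
    congr 2
  · rw [Fintype.card_fun, Fintype.card_fin, card_clause3]

theorem totCount_primrec : Primrec₂ totCount := by
  open Primrec in
  exact Crest.Agent.Lib.RatPrimrec.primrec_pow.comp
    (nat_mul.comp (nat_mul.comp (nat_mul.comp fst (nat_sub.comp fst (const 1)))
      (nat_sub.comp fst (const 2))) (const 8)) snd

end count

end Crest.Agent.R153
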