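import Mathlib
import Crest.Agent.Lib.RatPrimrec

set_option autoImplicit false

/-! Row 153, part [E1]: a nonnegative real number with computably checkable certificates for (weak)
rational lower and upper bounds is computable in the sense of S0218. -/

namespace Crest.Agent.R153

open Crest.Agent.Lib.RatPrimrec

/-- unbounded search for a decidable relation which always has a witness is computable. -/
theorem exists_computable_witness {P : ℕ → ℕ → Prop}
    (hP : ComputablePred (fun p : ℕ × ℕ => P p.1 p.2)) (hex : ∀ r, ∃ n, P r n) :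
    ∃ g : ℕ → ℕ, Computable g ∧ ∀ r, P r (g r) := by
  classical
  obtain ⟨hdec, hcomp⟩ := hP
  let F : ℕ → ℕ →. Bool := fun r n => Part.some (decide (P r n))
  have hpart : Partrec₂ F := hcomp.of_eq (fun p => by simp)
  have hfind := Partrec.rfind hpart
  have hdom : ∀ r, (Nat.rfind (F r)).Dom := by
    intro r
    obtain ⟨n, hn⟩ := hex r
    refine Nat.rfind_dom.2 ⟨n, by simpa [F] using hn, fun _ => trivial⟩
  refine ⟨fun r => (Nat.rfind (F r)).get (hdom r), ?_, ?_⟩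
  · exact hfind.of_eq_tot fun r => Part.get_mem _
  · intro r
    have h := Nat.rfind_spec (Part.get_mem (hdom r))
    simpa [F] using h

/-- **Glue**: decidable certificates for lower and upper rational bounds give computability. -/
theorem computable_of_certs (α : ℝ) (hα : 0 ≤ α) (L U : ℚ → ℕ → Prop)
    (hL : ComputablePred (fun p : ℚ × ℕ => L p.1 p.2))
    (hU : ComputablePred (fun p : ℚ × ℕ => U p.1 p.2))
    (hL1 : ∀ q w, L q w → (q : ℝ) ≤ α) (hL2 : ∀ q : ℚ, (q : ℝ) < α → ∃ w, L q w)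
    (hU1 : ∀ q w, U q w → α ≤ (q : ℝ)) (hU2 : ∀ q : ℚ, α < (q : ℝ) → ∃ w, U q w) :
    ∃ f : ℕ → ℕ, Computable f ∧ ∀ r : ℕ, |(f r : ℝ) / 2 ^ r - α| ≤ 1 / 2 ^ r := by
  classical
  let P : ℕ → ℕ → Prop := fun r n =>
    L (((n.unpair.1 : ℚ) - 1) / 2 ^ r) n.unpair.2.unpair.1 ∧
      U (((n.unpair.1 : ℚ) + 1) / 2 ^ r) n.unpair.2.unpair.2
  have hk : Primrec (fun p : ℕ × ℕ => ((p.2.unpair.1 : ℕ) : ℚ)) :=
    rat_natCast.comp (Primrec.fst.comp (Primrec.unpair.comp Primrec.snd))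
  have hpow : Primrec (fun p : ℕ × ℕ => ((2 : ℚ) ^ p.1)) :=
    rat_pow.comp (Primrec.const 2) Primrec.fst
  have h1 : Primrec (fun p : ℕ × ℕ => (((p.2.unpair.1 : ℕ) : ℚ) - 1) / 2 ^ p.1) :=
    rat_div.comp (rat_sub.comp hk (Primrec.const 1)) hpow
  have h2 : Primrec (fun p : ℕ × ℕ => (((p.2.unpair.1 : ℕ) : ℚ) + 1) / 2 ^ p.1) :=
    rat_div.comp (rat_add.comp hk (Primrec.const 1)) hpow
  have hw : Primrec (fun p : ℕ × ℕ => p.2.unpair.2.unpair) :=
    Primrec.unpair.comp (Primrec.snd.comp (Primrec.unpair.comp Primrec.snd))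
  have hP : ComputablePred (fun p : ℕ × ℕ => P p.1 p.2) := by
    have hA : ComputablePred (fun p : ℕ × ℕ =>
        L ((((p.2.unpair.1 : ℕ) : ℚ) - 1) / 2 ^ p.1) p.2.unpair.2.unpair.1) := by
      obtain ⟨hd, hc⟩ := hL
      exact ⟨fun _ => Classical.dec _, (hc.comp (Primrec.pair h1 (Primrec.fst.comp hw)).to_comp).of_eq
        fun p => by simp⟩
    have hB : ComputablePred (fun p : ℕ × ℕ =>
        U ((((p.2.unpair.1 : ℕ) : ℚ) + 1) / 2 ^ p.1) p.2.unpair.2.unpair.2) := by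
      obtain ⟨hd, hc⟩ := hU
      exact ⟨fun _ => Classical.dec _, (hc.comp (Primrec.pair h2 (Primrec.snd.comp hw)).to_comp).of_eq
        fun p => by simp⟩
    obtain ⟨hd1, hc1⟩ := hA
    obtain ⟨hd2, hc2⟩ := hB
    refine ⟨fun _ => Classical.dec _, (Primrec.and.to_comp.comp hc1 hc2).of_eq fun p => ?_⟩
    simp [P]
  have hex : ∀ r, ∃ n, P r n := by
    intro r
    have h2r : (0 : ℝ) < 2 ^ r := by positivity
    let k : ℕ := ⌊α * 2 ^ r⌋₊
    have hk1 : (k : ℝ) ≤ α * 2 ^ r := Nat.floor_le (by positivity)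
    have hk2 : α * 2 ^ r < k + 1 := Nat.lt_floor_add_one _
    obtain ⟨w1, hw1⟩ := hL2 (((k : ℚ) - 1) / 2 ^ r) (by
      push_cast
      rw [div_lt_iff₀ h2r]
      linarith)
    obtain ⟨w2, hw2⟩ := hU2 (((k : ℚ) + 1) / 2 ^ r) (by
      push_cast
      rw [lt_div_iff₀ h2r]
      linarith)
    refine ⟨Nat.pair k (Nat.pair w1 w2), ?_⟩
    simp only [P, Nat.unpair_pair]
    exact ⟨hw1, hw2⟩
  obtain ⟨g, hg, hgP⟩ := exists_computable_witness hP hex
  refine ⟨fun r => (g r).unpair.1, (Primrec.fst.comp Primrec.unpair).to_comp.comp hg, ?_⟩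
  intro r
  have h2r : (0 : ℝ) < 2 ^ r := by positivity
  obtain ⟨ha, hb⟩ := hgP r
  have ha' := hL1 _ _ ha
  have hb' := hU1 _ _ hb
  push_cast at ha' hb'
  rw [div_le_iff₀ h2r] at ha'
  rw [le_div_iff₀ h2r] at hb'
  rw [abs_le]
  constructor
  · rw [neg_le_sub_iff_le_add, ← sub_le_iff_le_add]
    rw [← sub_nonneg]
    have : (↑(Nat.unpair (g r)).1 / 2 ^ r - (α - 1 / 2 ^ r) : ℝ)
        = (↑(Nat.unpair (g r)).1 + 1 - α * 2 ^ r) / 2 ^ r := by
      field_simp
      ring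
    rw [this]
    exact div_nonneg (by linarith) h2r.le
  · rw [sub_le_iff_le_add, ← sub_nonneg]
    have : (1 / 2 ^ r + α - ↑(Nat.unpair (g r)).1 / 2 ^ r : ℝ)
        = (α * 2 ^ r - (↑(Nat.unpair (g r)).1 - 1)) / 2 ^ r := by
      field_simp
      ring
    rw [this]
    exact div_nonneg (by linarith) h2r.le

end Crest.Agent.R153
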