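import Mathlib
import Crest.Prelude.Def_RandomSAT

/-!
Operators "add one random constraint" on functionals of the solution set.
-/

set_option autoImplicit false
set_option linter.unusedVariables false

namespace Crest.Agent.R153.Wr

open Finset

/-- expected value of `φ (S ∩ sat c)` for a random constraint `c` with weights `w`. -/
noncomputable def TT {X C : Type*} [Fintype C] (sat : C → Set X) (w : C → ℝ) :
    Module.End ℝ (Set X → ℝ) where
  toFun φ S := ∑ c, w c * φ (S ∩ sat c)
  map_add' φ ψ := by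
    funext S
    simp [mul_add, Finset.sum_add_distrib]
  map_smul' a φ := by
    funext S
    simp only [Pi.smul_apply, smul_eq_mul, RingHom.id_apply, Finset.mul_sum]
    exact Finset.sum_congr rfl fun c _ => by ring

theorem TT_apply {X C : Type*} [Fintype C] (sat : C → Set X) (w : C → ℝ) (φ : Set X → ℝ)
    (S : Set X) : TT sat w φ S = ∑ c, w c * φ (S ∩ sat c) := rfl

theorem TT_comm {X C C' : Type*} [Fintype C] [Fintype C'] (sat : C → Set X) (w : C → ℝ)
    (sat' : C' → Set X) (w' : C' → ℝ) : Commute (TT sat w) (TT sat' w') := by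
  refine LinearMap.ext fun φ => ?_
  funext S
  simp only [Module.End.mul_apply, TT_apply, Finset.mul_sum]
  rw [Finset.sum_comm]
  refine Finset.sum_congr rfl fun c' _ => Finset.sum_congr rfl fun c _ => ?_
  rw [Set.inter_right_comm]
  ring

/-- indicator of a nonempty solution set -/
noncomputable def φ0 {X : Type*} (S : Set X) : ℝ := by
  classical exact if S.Nonempty then 1 else 0

theorem φ0_of_nonempty {X : Type*} {S : Set X} (h : S.Nonempty) : φ0 S = 1 := by
  simp [φ0, h]

theorem φ0_of_empty {X : Type*} {S : Set X} (h : ¬ S.Nonempty) : φ0 S = 0 := by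
  simp [φ0, h]

theorem φ0_nonneg {X : Type*} (S : Set X) : 0 ≤ φ0 S := by
  by_cases h : S.Nonempty
  · rw [φ0_of_nonempty h]; norm_num
  · rw [φ0_of_empty h]

theorem φ0_le_one {X : Type*} (S : Set X) : φ0 S ≤ 1 := by
  by_cases h : S.Nonempty
  · rw [φ0_of_nonempty h]
  · rw [φ0_of_empty h]; norm_num

theorem φ0_mono {X : Type*} {S S' : Set X} (h : S ⊆ S') : φ0 S ≤ φ0 S' := by
  by_cases hS : S.Nonempty
  · rw [φ0_of_nonempty hS, φ0_of_nonempty (hS.mono h)]
  · rw [φ0_of_empty hS]; exact φ0_nonneg _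

/-- a monotone operator -/
def MonoOp {X : Type*} (A : Module.End ℝ (Set X → ℝ)) : Prop :=
  ∀ φ ψ : Set X → ℝ, φ ≤ ψ → A φ ≤ A ψ

theorem TT_mono {X C : Type*} [Fintype C] (sat : C → Set X) (w : C → ℝ) (hw : ∀ c, 0 ≤ w c) :
    MonoOp (TT sat w) := by
  intro φ ψ h S
  simp only [TT_apply]
  exact Finset.sum_le_sum fun c _ => mul_le_mul_of_nonneg_left (h _) (hw c)

theorem MonoOp.mul {X : Type*} {A B : Module.End ℝ (Set X → ℝ)} (hA : MonoOp A) (hB : MonoOp B) :
    MonoOp (A * B) := fun φ ψ h => hA _ _ (hB _ _ h)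

theorem MonoOp.one {X : Type*} : MonoOp (1 : Module.End ℝ (Set X → ℝ)) := fun _ _ h => h

theorem MonoOp.pow {X : Type*} {A : Module.End ℝ (Set X → ℝ)} (hA : MonoOp A) (m : ℕ) :
    MonoOp (A ^ m) := by
  induction m with
  | zero => simpa using MonoOp.one
  | succ m ih => rw [pow_succ]; exact ih.mul hA

theorem MonoOp.add {X : Type*} {A B : Module.End ℝ (Set X → ℝ)} (hA : MonoOp A) (hB : MonoOp B) :
    MonoOp (A + B) := fun φ ψ h S => add_le_add (hA _ _ h S) (hB _ _ h S)

theorem MonoOp.smul {X : Type*} {A : Module.End ℝ (Set X → ℝ)} (hA : MonoOp A) {a : ℝ}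
    (ha : 0 ≤ a) : MonoOp (a • A) := fun φ ψ h S => mul_le_mul_of_nonneg_left (hA _ _ h S) ha

theorem MonoOp.nonneg {X : Type*} {A : Module.End ℝ (Set X → ℝ)} (hA : MonoOp A)
    {φ : Set X → ℝ} (h : 0 ≤ φ) : 0 ≤ A φ := by
  have := hA 0 φ h
  simpa using this

/-- replacing the operators one by one -/
theorem pow_le_pow_of_comm {X : Type*} {A B : Module.End ℝ (Set X → ℝ)} (hA : MonoOp A)
    (hB : MonoOp B) (hAB : Commute A B) {φ : Set X → ℝ} (h : B φ ≤ A φ) (m : ℕ) :
    (B ^ m) φ ≤ (A ^ m) φ := by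
  induction m with
  | zero => simp
  | succ m ih =>
    have h1 : (B ^ (m + 1)) φ ≤ B ((A ^ m) φ) := by
      rw [pow_succ']
      exact hB _ _ ih
    have h2 : B ((A ^ m) φ) = (A ^ m) (B φ) := by
      have := (hAB.pow_left m).eq
      have h3 := congrArg (fun f : Module.End ℝ (Set X → ℝ) => f φ) this
      simpa [Module.End.mul_apply] using h3.symm
    have h3 : (A ^ m) (B φ) ≤ (A ^ m) (A φ) := (hA.pow m) _ _ h
    calc (B ^ (m + 1)) φ ≤ B ((A ^ m) φ) := h1
      _ = (A ^ m) (B φ) := h2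
      _ ≤ (A ^ m) (A φ) := h3
      _ = (A ^ (m + 1)) φ := by rw [pow_succ]; rfl

theorem TT_pow_apply {X C : Type*} [Fintype C] (sat : C → Set X) (w : C → ℝ) (φ : Set X → ℝ)
    (m : ℕ) (S : Set X) :
    ((TT sat w) ^ m) φ S = ∑ F : Fin m → C, (∏ j, w (F j)) * φ (S ∩ ⋂ j, sat (F j)) := by
  induction m generalizing S with
  | zero => simp
  | succ m ih =>
    rw [pow_succ']
    rw [Module.End.mul_apply, TT_apply]
    simp only [ih]
    rw [← (Fin.consEquiv (fun _ : Fin (m + 1) => C)).sum_comp]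
    rw [Fintype.sum_prod_type]
    refine Finset.sum_congr rfl fun c _ => ?_
    rw [Finset.mul_sum]
    refine Finset.sum_congr rfl fun F _ => ?_
    simp only [Fin.consEquiv_apply, Fin.prod_univ_succ, Fin.cons_zero, Fin.cons_succ]
    have : (S ∩ ⋂ j, sat ((Fin.cons c F : Fin (m + 1) → C) j)) = (S ∩ sat c) ∩ ⋂ j, sat (F j) := by
      ext x
      simp only [Set.mem_inter_iff, Set.mem_iInter, Fin.forall_fin_succ, Fin.cons_zero,
        Fin.cons_succ]
      tauto
    rw [this]
    ring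

end Crest.Agent.R153.Wr
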