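import Mathlib
import Crest.Prelude.Def_RandomSAT
import Crest.Agent.R153.InterpOp

/-!
Interpolation (B1): literals with repetition.
-/

set_option autoImplicit false
set_option linter.unusedVariables false

namespace Crest.Agent.R153.Wr

open Finset

section Gen

variable {X L : Type*}

/-- the set of points satisfying the clause `c` -/
def satL (tr : L → Set X) (k : ℕ) (c : Fin k → L) : Set X := ⋃ i, tr (c i)

/-- add one clause of `k` i.i.d. uniform literals -/
noncomputable def UU [Fintype L] (tr : L → Set X) (k : ℕ) : Module.End ℝ (Set X → ℝ) :=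
  TT (satL tr k) (fun _ => 1 / (Fintype.card L : ℝ) ^ k)

theorem UU_mono [Fintype L] (tr : L → Set X) (k : ℕ) : MonoOp (UU tr k) :=
  TT_mono _ _ fun _ => by positivity

/-- fraction of frozen literals -/
noncomputable def frz [Fintype L] (tr : L → Set X) (S : Set X) : ℕ := by
  classical exact (Finset.univ.filter fun l : L => ¬ (S ∩ tr l).Nonempty).card

theorem UU_φ0 [Fintype L] (tr : L → Set X) (k : ℕ) (hL : 0 < Fintype.card L) (S : Set X)
    (hS : S.Nonempty) :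
    UU tr k φ0 S = 1 - ((frz tr S : ℝ) / (Fintype.card L : ℝ)) ^ k := by
  classical
  unfold UU
  rw [TT_apply, ← Finset.mul_sum]
  have h1 : ∀ c : Fin k → L, φ0 (S ∩ satL tr k c) =
      1 - if (∀ i, c i ∈ Finset.univ.filter fun l : L => ¬ (S ∩ tr l).Nonempty) then (1:ℝ) else 0 := by
    intro c
    by_cases h : (S ∩ satL tr k c).Nonempty
    · rw [φ0_of_nonempty h, if_neg]
      · norm_num
      · intro hall
        obtain ⟨x, hxS, hx⟩ := h
        obtain ⟨i, hi⟩ := Set.mem_iUnion.1 hx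
        have := hall i
        rw [Finset.mem_filter] at this
        exact this.2 ⟨x, hxS, hi⟩
    · rw [φ0_of_empty h, if_pos]
      · norm_num
      · intro i
        rw [Finset.mem_filter]
        refine ⟨Finset.mem_univ _, fun ⟨x, hxS, hx⟩ => h ⟨x, hxS, Set.mem_iUnion.2 ⟨i, hx⟩⟩⟩
  rw [Finset.sum_congr rfl fun c _ => h1 c]
  rw [Finset.sum_sub_distrib]
  have h2 : (∑ c : Fin k → L, if (∀ i, c i ∈ Finset.univ.filter fun l : L => ¬ (S ∩ tr l).Nonempty)
      then (1:ℝ) else 0) = (frz tr S : ℝ) ^ k := by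
    rw [Finset.sum_boole]
    have : (Finset.univ.filter fun c : Fin k → L =>
        ∀ i, c i ∈ Finset.univ.filter fun l : L => ¬ (S ∩ tr l).Nonempty) =
        Fintype.piFinset fun _ : Fin k => Finset.univ.filter fun l : L => ¬ (S ∩ tr l).Nonempty := by
      ext c
      simp [Fintype.mem_piFinset]
    rw [this, Fintype.card_piFinset]
    simp [frz]
  rw [h2]
  have hL' : (Fintype.card L : ℝ) ≠ 0 := by positivity
  simp only [Finset.sum_const, Finset.card_univ, nsmul_eq_mul, mul_one]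
  rw [Fintype.card_fun, Fintype.card_fin]
  push_cast
  rw [div_pow]
  field_simp

theorem UU_φ0_empty [Fintype L] (tr : L → Set X) (k : ℕ) (S : Set X)
    (hS : ¬ S.Nonempty) : UU tr k φ0 S = 0 := by
  unfold UU
  rw [TT_apply]
  refine Finset.sum_eq_zero fun c _ => ?_
  rw [φ0_of_empty (fun h => hS (h.mono Set.inter_subset_left)), mul_zero]

theorem frz_le [Fintype L] (tr : L → Set X) (S : Set X) : frz tr S ≤ Fintype.card L := by
  classical
  unfold frz
  exact Finset.card_le_univ _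

end Gen

section Two

variable {X L₁ L₂ : Type*} [Fintype L₁] [Fintype L₂]

theorem frz_sum (tr₁ : L₁ → Set X) (tr₂ : L₂ → Set X) (S : Set X) :
    frz (Sum.elim tr₁ tr₂) S = frz tr₁ S + frz tr₂ S := by
  classical
  unfold frz
  rw [Finset.card_filter, Finset.card_filter, Finset.card_filter, Fintype.sum_sum_type]
  simp only [Sum.elim_inl, Sum.elim_inr]
  congr

/-- the key convexity inequality -/
theorem UU_local_le (tr₁ : L₁ → Set X) (tr₂ : L₂ → Set X) (k : ℕ) (h1 : 0 < Fintype.card L₁)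
    (h2 : 0 < Fintype.card L₂) (a b : ℝ)
    (ha : a = (Fintype.card L₁ : ℝ) / ((Fintype.card L₁ : ℝ) + Fintype.card L₂))
    (hb : b = (Fintype.card L₂ : ℝ) / ((Fintype.card L₁ : ℝ) + Fintype.card L₂)) :
    (a • UU tr₁ k + b • UU tr₂ k) φ0 ≤ UU (Sum.elim tr₁ tr₂) k φ0 := by
  intro S
  have h1' : (0:ℝ) < Fintype.card L₁ := by exact_mod_cast h1
  have h2' : (0:ℝ) < Fintype.card L₂ := by exact_mod_cast h2
  have hab : a + b = 1 := by rw [ha, hb]; field_simp
  have ha0 : 0 ≤ a := by rw [ha]; positivity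
  have hb0 : 0 ≤ b := by rw [hb]; positivity
  simp only [LinearMap.add_apply, LinearMap.smul_apply, Pi.add_apply, Pi.smul_apply, smul_eq_mul]
  by_cases hS : S.Nonempty
  · rw [UU_φ0 _ _ h1 _ hS, UU_φ0 _ _ h2 _ hS, UU_φ0 _ _ (by rw [Fintype.card_sum]; omega) _ hS,
      frz_sum, Fintype.card_sum]
    push_cast
    set x := (frz tr₁ S : ℝ) / Fintype.card L₁ with hx
    set y := (frz tr₂ S : ℝ) / Fintype.card L₂ with hy
    have hx0 : 0 ≤ x := by positivity
    have hy0 : 0 ≤ y := by positivity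
    have hmid : ((frz tr₁ S : ℝ) + frz tr₂ S) / ((Fintype.card L₁ : ℝ) + Fintype.card L₂)
        = a * x + b * y := by
      rw [ha, hb, hx, hy]; field_simp
    rw [hmid]
    have hconv : (a * x + b * y) ^ k ≤ a * x ^ k + b * y ^ k := by
      have := (convexOn_pow k).2 (Set.mem_Ici.2 hx0) (Set.mem_Ici.2 hy0) ha0 hb0 hab
      simpa [smul_eq_mul] using this
    nlinarith [hconv, hab]
  · rw [UU_φ0_empty _ _ _ hS, UU_φ0_empty _ _ _ hS, UU_φ0_empty _ _ _ hS]
    simp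

end Two

section Prod

variable {X₁ X₂ L₁ L₂ : Type*} [Fintype L₁] [Fintype L₂]

theorem φ0_prod (S₁ : Set X₁) (S₂ : Set X₂) : φ0 (S₁ ×ˢ S₂) = φ0 S₁ * φ0 S₂ := by
  by_cases h1 : S₁.Nonempty
  · by_cases h2 : S₂.Nonempty
    · rw [φ0_of_nonempty h1, φ0_of_nonempty h2, φ0_of_nonempty (h1.prod h2)]; norm_num
    · rw [φ0_of_empty h2, φ0_of_empty (fun h => h2 (Set.prod_nonempty_iff.1 h).2)]; ring
  · rw [φ0_of_empty h1, φ0_of_empty (fun h => h1 (Set.prod_nonempty_iff.1 h).1)]; ring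

/-- lift of the truth sets to a product -/
def trL (tr₁ : L₁ → Set X₁) : L₁ → Set (X₁ × X₂) := fun l => Prod.fst ⁻¹' tr₁ l
def trR (tr₂ : L₂ → Set X₂) : L₂ → Set (X₁ × X₂) := fun l => Prod.snd ⁻¹' tr₂ l

theorem UU_prod (tr₁ : L₁ → Set X₁) (tr₂ : L₂ → Set X₂) (k : ℕ) (i j : ℕ) (S₁ : Set X₁)
    (S₂ : Set X₂) :
    ((UU (trL (X₂ := X₂) tr₁) k) ^ i * (UU (trR (X₁ := X₁) tr₂) k) ^ j) φ0 (S₁ ×ˢ S₂) =
      ((UU tr₁ k) ^ i) φ0 S₁ * ((UU tr₂ k) ^ j) φ0 S₂ := by
  classical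
  rw [Module.End.mul_apply]
  unfold UU
  rw [TT_pow_apply]
  simp only [TT_pow_apply]
  rw [Finset.sum_mul_sum]
  refine Finset.sum_congr rfl fun F _ => ?_
  rw [Finset.mul_sum]
  refine Finset.sum_congr rfl fun G _ => ?_
  have : (S₁ ×ˢ S₂ ∩ ⋂ j, satL (trL (X₂ := X₂) tr₁) k (F j)) ∩ ⋂ j, satL (trR (X₁ := X₁) tr₂) k (G j)
      = (S₁ ∩ ⋂ j, satL tr₁ k (F j)) ×ˢ (S₂ ∩ ⋂ j, satL tr₂ k (G j)) := by
    ext ⟨x, y⟩
    simp only [satL, trL, trR, Set.mem_inter_iff, Set.mem_prod, Set.mem_iInter, Set.mem_iUnion,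
      Set.mem_preimage]
    tauto
  rw [this, φ0_prod]
  ring

/-- the value of the satisfiability functional -/
noncomputable def val {X L : Type*} [Fintype L] (tr : L → Set X) (k m : ℕ) : ℝ :=
  ((UU tr k) ^ m) φ0 Set.univ

theorem val_superadd (tr₁ : L₁ → Set X₁) (tr₂ : L₂ → Set X₂) (k m : ℕ)
    (h1 : 0 < Fintype.card L₁) (h2 : 0 < Fintype.card L₂) (a b : ℝ)
    (ha : a = (Fintype.card L₁ : ℝ) / ((Fintype.card L₁ : ℝ) + Fintype.card L₂))
    (hb : b = (Fintype.card L₂ : ℝ) / ((Fintype.card L₁ : ℝ) + Fintype.card L₂)) :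
    ∑ p ∈ Finset.HasAntidiagonal.antidiagonal m, (m.choose p.1 : ℝ) * a ^ p.1 * b ^ p.2 *
        (val tr₁ k p.1 * val tr₂ k p.2) ≤
      val (Sum.elim (trL (X₂ := X₂) tr₁) (trR (X₁ := X₁) tr₂)) k m := by
  have ha0 : 0 ≤ a := by rw [ha]; positivity
  have hb0 : 0 ≤ b := by rw [hb]; positivity
  set A := UU (Sum.elim (trL (X₂ := X₂) tr₁) (trR (X₁ := X₁) tr₂)) k with hA
  set B₁ := UU (trL (X₂ := X₂) tr₁) k with hB₁
  set B₂ := UU (trR (X₁ := X₁) tr₂) k with hB₂
  have hc12 : Commute B₁ B₂ := TT_comm _ _ _ _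
  have hcA1 : Commute A B₁ := TT_comm _ _ _ _
  have hcA2 : Commute A B₂ := TT_comm _ _ _ _
  have hle : (a • B₁ + b • B₂) φ0 ≤ A φ0 := UU_local_le _ _ k h1 h2 a b ha hb
  have hmonoB : MonoOp (a • B₁ + b • B₂) :=
    ((UU_mono _ _).smul ha0).add ((UU_mono _ _).smul hb0)
  have hcomm : Commute A (a • B₁ + b • B₂) := (hcA1.smul_right a).add_right (hcA2.smul_right b)
  have hpow := pow_le_pow_of_comm (UU_mono _ _) hmonoB hcomm hle m Set.univ
  unfold val
  refine le_trans (le_of_eq ?_) hpow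
  have hcomm' : Commute (a • B₁) (b • B₂) := (hc12.smul_left a).smul_right b
  rw [hcomm'.add_pow']
  rw [LinearMap.sum_apply, Finset.sum_apply]
  refine Finset.sum_congr rfl fun p _ => ?_
  rw [LinearMap.smul_apply]
  rw [smul_pow, smul_pow, smul_mul_smul_comm]
  rw [LinearMap.smul_apply, Pi.smul_apply, Pi.smul_apply, ← Set.univ_prod_univ, UU_prod]
  simp only [nsmul_eq_mul, smul_eq_mul]
  ring

end Prod

end Crest.Agent.R153.Wr
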