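import Mathlib
import Crest.Prelude.Def_RandomSAT
import Crest.Agent.R153.InterpWr

/-!
Interpolation (B1) on `Fin n`, Poisson form, and transfer (B2) to distinct variables.
-/

set_option autoImplicit false
set_option linter.unusedVariables false

namespace Crest.Agent.R153.Wr

open Finset Crest.ProbabilityR.RandomSAT

/-- clause with `k` literals, repetitions allowed -/
abbrev WClause (k : ℕ) (V : Type*) : Type _ := Fin k → V × Bool

/-- the formula `F` of with-repetition clauses is satisfiable -/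
def WSatisfiable {k : ℕ} {V : Type*} {m : ℕ} (F : Fin m → WClause k V) : Prop :=
  ∃ σ : V → Bool, ∀ j, ∃ i, σ (F j i).1 = (F j i).2

noncomputable def satWr (k n m : ℕ) : ℝ :=
  Crest.FinProb.uniformProb {F : Fin m → WClause k (Fin n) | WSatisfiable F}

/-- truth set of a literal -/
def litTr {V : Type*} (l : V × Bool) : Set (V → Bool) := {σ | σ l.1 = l.2}

theorem val_eq {X L : Type*} [Fintype L] (tr : L → Set X) (k m : ℕ) :
    val tr k m = ∑ F : Fin m → (Fin k → L), (1 / (Fintype.card L : ℝ) ^ k) ^ m *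
      φ0 (⋂ j, satL tr k (F j)) := by
  classical
  unfold val UU
  rw [TT_pow_apply]
  refine Finset.sum_congr rfl fun F _ => ?_
  rw [Finset.prod_const, Finset.card_univ, Fintype.card_fin, Set.univ_inter]

theorem val_congr {X X' L L' : Type*} [Fintype L] [Fintype L'] (tr : L → Set X)
    (tr' : L' → Set X') (eX : X ≃ X') (eL : L ≃ L')
    (h : ∀ l x, x ∈ tr l ↔ eX x ∈ tr' (eL l)) (k m : ℕ) : val tr k m = val tr' k m := by
  classical
  rw [val_eq, val_eq]
  rw [← (Equiv.arrowCongr (Equiv.refl (Fin m)) (Equiv.arrowCongr (Equiv.refl (Fin k)) eL)).sum_comp]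
  refine Finset.sum_congr rfl fun F _ => ?_
  rw [Fintype.card_congr eL]
  congr 1
  have hiff : (⋂ j, satL tr k (F j)).Nonempty ↔
      (⋂ j, satL tr' k ((Equiv.arrowCongr (Equiv.refl (Fin m))
        (Equiv.arrowCongr (Equiv.refl (Fin k)) eL)) F j)).Nonempty := by
    constructor
    · rintro ⟨x, hx⟩
      refine ⟨eX x, ?_⟩
      simp only [Set.mem_iInter, satL, Set.mem_iUnion] at hx ⊢
      intro j
      obtain ⟨i, hi⟩ := hx j
      exact ⟨i, (h _ _).1 hi⟩
    · rintro ⟨x, hx⟩
      refine ⟨eX.symm x, ?_⟩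
      simp only [Set.mem_iInter, satL, Set.mem_iUnion] at hx ⊢
      intro j
      obtain ⟨i, hi⟩ := hx j
      refine ⟨i, (h _ _).2 ?_⟩
      rw [Equiv.apply_symm_apply]
      exact hi
  by_cases h1 : (⋂ j, satL tr k (F j)).Nonempty
  · rw [φ0_of_nonempty h1, φ0_of_nonempty (hiff.1 h1)]
  · rw [φ0_of_empty h1, φ0_of_empty (fun h2 => h1 (hiff.2 h2))]

theorem satWr_eq_val (k n m : ℕ) : satWr k n m = val (litTr (V := Fin n)) k m := by
  classical
  rw [val_eq, ← Finset.mul_sum]
  unfold satWr Crest.FinProb.uniformProb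
  have h1 : ∀ F : Fin m → WClause k (Fin n), φ0 (⋂ j, satL (litTr (V := Fin n)) k (F j)) =
      if WSatisfiable F then 1 else 0 := by
    intro F
    have : (⋂ j, satL (litTr (V := Fin n)) k (F j)).Nonempty ↔ WSatisfiable F := by
      unfold WSatisfiable
      constructor
      · rintro ⟨σ, hσ⟩
        refine ⟨σ, fun j => ?_⟩
        have := Set.mem_iInter.1 hσ j
        obtain ⟨i, hi⟩ := Set.mem_iUnion.1 this
        exact ⟨i, hi⟩
      · rintro ⟨σ, hσ⟩
        refine ⟨σ, Set.mem_iInter.2 fun j => Set.mem_iUnion.2 ?_⟩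
        obtain ⟨i, hi⟩ := hσ j
        exact ⟨i, hi⟩
    by_cases h : WSatisfiable F
    · rw [φ0_of_nonempty (this.2 h), if_pos h]
    · rw [φ0_of_empty (fun h' => h (this.1 h')), if_neg h]
  rw [Finset.sum_congr rfl fun F _ => h1 F]
  rw [Finset.sum_boole]
  simp only [Set.mem_ofPred_eq, Fintype.card_fun, Fintype.card_fin, Fintype.card_prod,
    Fintype.card_bool]
  push_cast
  rw [one_div, inv_pow, div_eq_inv_mul]

theorem satWr_superadd (k n₁ n₂ m : ℕ) (h1 : 0 < n₁) (h2 : 0 < n₂) :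
    ∑ p ∈ Finset.HasAntidiagonal.antidiagonal m, (m.choose p.1 : ℝ) *
        ((n₁ : ℝ) / ((n₁ : ℝ) + n₂)) ^ p.1 * ((n₂ : ℝ) / ((n₁ : ℝ) + n₂)) ^ p.2 *
        (satWr k n₁ p.1 * satWr k n₂ p.2) ≤ satWr k (n₁ + n₂) m := by
  have key := val_superadd (litTr (V := Fin n₁)) (litTr (V := Fin n₂)) k m
    (by simp; omega) (by simp; omega) ((n₁ : ℝ) / ((n₁ : ℝ) + n₂)) ((n₂ : ℝ) / ((n₁ : ℝ) + n₂))
    (by
      simp only [Fintype.card_prod, Fintype.card_fin, Fintype.card_bool]
      push_cast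
      have : (0:ℝ) < n₁ := by exact_mod_cast h1
      have : (0:ℝ) < n₂ := by exact_mod_cast h2
      field_simp)
    (by
      simp only [Fintype.card_prod, Fintype.card_fin, Fintype.card_bool]
      push_cast
      have : (0:ℝ) < n₁ := by exact_mod_cast h1
      have : (0:ℝ) < n₂ := by exact_mod_cast h2
      field_simp)
  have hval : val (Sum.elim (trL (X₂ := Fin n₂ → Bool) (litTr (V := Fin n₁)))
      (trR (X₁ := Fin n₁ → Bool) (litTr (V := Fin n₂)))) k m = val (litTr (V := Fin (n₁ + n₂))) k m := by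
    symm
    refine val_congr _ _ (((Equiv.arrowCongr finSumFinEquiv.symm (Equiv.refl Bool)).trans
      (Equiv.sumArrowEquivProdArrow _ _ _)))
      ((finSumFinEquiv.symm.prodCongr (Equiv.refl Bool)).trans (Equiv.sumProdDistrib _ _ _)) ?_ k m
    rintro ⟨v, b⟩ σ
    induction v using Fin.addCases with
    | left v =>
      simp [litTr, trL, Equiv.sumArrowEquivProdArrow, Equiv.sumProdDistrib]
    | right v =>
      simp [litTr, trR, Equiv.sumArrowEquivProdArrow, Equiv.sumProdDistrib]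
  rw [hval] at key
  simpa only [satWr_eq_val] using key

/-! ### basic facts -/

theorem satWr_nonneg (k n m : ℕ) : 0 ≤ satWr k n m := by
  unfold satWr Crest.FinProb.uniformProb
  positivity

theorem satWr_le_one (k n m : ℕ) : satWr k n m ≤ 1 := by
  classical
  unfold satWr Crest.FinProb.uniformProb
  refine div_le_one_of_le₀ ?_ (by positivity)
  exact_mod_cast Finset.card_le_univ _

theorem TT_φ0_le {X C : Type*} [Fintype C] (sat : C → Set X) (w : C → ℝ) (hw : ∀ c, 0 ≤ w c)
    {q : ℝ} (hq : ∑ c, w c ≤ q) : TT sat w φ0 ≤ q • (φ0 : Set X → ℝ) := by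
  intro S
  rw [TT_apply, Pi.smul_apply, smul_eq_mul]
  calc ∑ c, w c * φ0 (S ∩ sat c) ≤ ∑ c, w c * φ0 S :=
        Finset.sum_le_sum fun c _ => mul_le_mul_of_nonneg_left (φ0_mono Set.inter_subset_left) (hw c)
    _ = (∑ c, w c) * φ0 S := by rw [Finset.sum_mul]
    _ ≤ q * φ0 S := mul_le_mul_of_nonneg_right hq (φ0_nonneg _)

theorem sum_unif_le_one (C : Type*) [Fintype C] : ∑ _c : C, (1 / (Fintype.card C : ℝ)) ≤ 1 := by
  simp only [Finset.sum_const, Finset.card_univ, nsmul_eq_mul]
  rcases Nat.eq_zero_or_pos (Fintype.card C) with h | h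
  · simp [h]
  · have : (0:ℝ) < Fintype.card C := by exact_mod_cast h
    rw [mul_one_div_cancel this.ne']

theorem UU_φ0_le {X L : Type*} [Fintype L] (tr : L → Set X) (k : ℕ) :
    UU tr k φ0 ≤ (φ0 : Set X → ℝ) := by
  classical
  have h := TT_φ0_le (satL tr k) (fun _ => 1 / (Fintype.card L : ℝ) ^ k) (fun _ => by positivity)
    (q := 1) (by
      have := sum_unif_le_one (Fin k → L)
      rw [Fintype.card_fun, Fintype.card_fin] at this
      push_cast at this
      exact this)
  rw [one_smul] at h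
  exact h

theorem pow_φ0_antitone {X : Type*} {A : Module.End ℝ (Set X → ℝ)} (hA : MonoOp A)
    (h : A φ0 ≤ (φ0 : Set X → ℝ)) (m : ℕ) : (A ^ (m + 1)) φ0 ≤ (A ^ m) φ0 := by
  rw [pow_succ, Module.End.mul_apply]
  exact (hA.pow m) _ _ h

theorem satWr_antitone (k n : ℕ) : Antitone (satWr k n) := by
  refine antitone_nat_of_succ_le fun m => ?_
  rw [satWr_eq_val, satWr_eq_val]
  exact pow_φ0_antitone (UU_mono _ _) (UU_φ0_le _ _) m Set.univ

theorem satWr_zero (k n : ℕ) : satWr k n 0 = 1 := by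
  rw [satWr_eq_val]
  unfold val
  rw [pow_zero]
  exact φ0_of_nonempty ⟨fun _ => true, trivial⟩

end Crest.Agent.R153.Wr
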