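import Mathlib
import Crest.Agent.R153.InterpFin

/-!
Poissonised sequences.
-/

set_option autoImplicit false
set_option linter.unusedVariables false

namespace Crest.Agent.R153.Wr

open Finset

/-- Poisson weight -/
noncomputable def pw (lam : ℝ) (m : ℕ) : ℝ := Real.exp (-lam) * lam ^ m / (m.factorial : ℝ)

theorem pw_nonneg {lam : ℝ} (h : 0 ≤ lam) (m : ℕ) : 0 ≤ pw lam m := by unfold pw; positivity

theorem pw_hasSum (lam : ℝ) : HasSum (pw lam) 1 := by
  have h := NormedSpace.expSeries_div_hasSum_exp (𝔸 := ℝ) lam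
  have h2 := h.mul_left (Real.exp (-lam))
  rw [← Real.exp_eq_exp_ℝ, ← Real.exp_add, neg_add_cancel, Real.exp_zero] at h2
  have h3 : pw lam = fun n => Real.exp (-lam) * (lam ^ n / (n.factorial : ℝ)) := by
    funext n
    unfold pw
    ring
  rw [h3]
  exact h2

theorem pw_summable (lam : ℝ) : Summable (pw lam) := (pw_hasSum lam).summable

theorem pw_tsum (lam : ℝ) : ∑' m, pw lam m = 1 := (pw_hasSum lam).tsum_eq

/-- Poisson average of the sequence `a`. -/
noncomputable def poi (a : ℕ → ℝ) (lam : ℝ) : ℝ := ∑' m, pw lam m * a m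

theorem pw_mul_summable {lam : ℝ} (h : 0 ≤ lam) {a : ℕ → ℝ} (ha0 : ∀ m, 0 ≤ a m)
    (ha1 : ∀ m, a m ≤ 1) : Summable fun m => pw lam m * a m := by
  refine Summable.of_nonneg_of_le (fun m => mul_nonneg (pw_nonneg h m) (ha0 m)) (fun m => ?_)
    (pw_summable lam)
  exact mul_le_of_le_one_right (pw_nonneg h m) (ha1 m)

theorem poi_nonneg {lam : ℝ} (h : 0 ≤ lam) {a : ℕ → ℝ} (ha0 : ∀ m, 0 ≤ a m) : 0 ≤ poi a lam :=
  tsum_nonneg fun m => mul_nonneg (pw_nonneg h m) (ha0 m)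

theorem poi_le_one {lam : ℝ} (h : 0 ≤ lam) {a : ℕ → ℝ} (ha0 : ∀ m, 0 ≤ a m)
    (ha1 : ∀ m, a m ≤ 1) : poi a lam ≤ 1 := by
  rw [← pw_tsum lam]
  exact (pw_mul_summable h ha0 ha1).tsum_le_tsum
    (fun m => mul_le_of_le_one_right (pw_nonneg h m) (ha1 m)) (pw_summable lam)

theorem pw_mul_pw {l₁ l₂ : ℝ} (h : l₁ + l₂ ≠ 0) (i j : ℕ) :
    pw l₁ i * pw l₂ j = pw (l₁ + l₂) (i + j) *
      (((i + j).choose i : ℝ) * (l₁ / (l₁ + l₂)) ^ i * (l₂ / (l₁ + l₂)) ^ j) := by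
  unfold pw
  have hf : ((i + j).choose i : ℝ) = ((i + j).factorial : ℝ) / ((i.factorial : ℝ) * j.factorial) := by
    rw [Nat.cast_add_choose]
  rw [hf]
  have h1 : (i.factorial : ℝ) ≠ 0 := by positivity
  have h2 : (j.factorial : ℝ) ≠ 0 := by positivity
  have h3 : ((i + j).factorial : ℝ) ≠ 0 := by positivity
  rw [neg_add, Real.exp_add, pow_add, div_pow, div_pow]
  field_simp

/-- product of Poisson averages as a double series along antidiagonals. -/
theorem poi_mul {l₁ l₂ : ℝ} (h1 : 0 ≤ l₁) (h2 : 0 ≤ l₂) {a b : ℕ → ℝ}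
    (ha0 : ∀ m, 0 ≤ a m) (ha1 : ∀ m, a m ≤ 1) (hb0 : ∀ m, 0 ≤ b m) (hb1 : ∀ m, b m ≤ 1) :
    HasSum (fun m => ∑ p ∈ Finset.HasAntidiagonal.antidiagonal m,
      (pw l₁ p.1 * a p.1) * (pw l₂ p.2 * b p.2)) (poi a l₁ * poi b l₂) := by
  have hsa := pw_mul_summable h1 ha0 ha1
  have hsb := pw_mul_summable h2 hb0 hb1
  have hna : Summable fun m => ‖pw l₁ m * a m‖ := hsa.norm
  have hnb : Summable fun m => ‖pw l₂ m * b m‖ := hsb.norm
  have hs := summable_norm_sum_mul_antidiagonal_of_summable_norm hna hnb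
  have ht := tsum_mul_tsum_eq_tsum_sum_antidiagonal_of_summable_norm hna hnb
  unfold poi
  rw [ht]
  exact hs.of_norm.hasSum

theorem poi_mul_le {l₁ l₂ : ℝ} (h1 : 0 < l₁) (h2 : 0 < l₂) {a b s : ℕ → ℝ}
    (ha0 : ∀ m, 0 ≤ a m) (ha1 : ∀ m, a m ≤ 1) (hb0 : ∀ m, 0 ≤ b m) (hb1 : ∀ m, b m ≤ 1)
    (hs0 : ∀ m, 0 ≤ s m) (hs1 : ∀ m, s m ≤ 1)
    (h : ∀ m, ∑ p ∈ Finset.HasAntidiagonal.antidiagonal m, (m.choose p.1 : ℝ) *
        (l₁ / (l₁ + l₂)) ^ p.1 * (l₂ / (l₁ + l₂)) ^ p.2 * (a p.1 * b p.2) ≤ s m) :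
    poi a l₁ * poi b l₂ ≤ poi s (l₁ + l₂) := by
  refine hasSum_le ?_ (poi_mul h1.le h2.le ha0 ha1 hb0 hb1)
    (pw_mul_summable (by positivity) hs0 hs1).hasSum
  intro m
  have : ∑ p ∈ Finset.HasAntidiagonal.antidiagonal m, (pw l₁ p.1 * a p.1) * (pw l₂ p.2 * b p.2) =
      pw (l₁ + l₂) m * ∑ p ∈ Finset.HasAntidiagonal.antidiagonal m, (m.choose p.1 : ℝ) *
        (l₁ / (l₁ + l₂)) ^ p.1 * (l₂ / (l₁ + l₂)) ^ p.2 * (a p.1 * b p.2) := by
    rw [Finset.mul_sum]
    refine Finset.sum_congr rfl fun p hp => ?_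
    have hpm : p.1 + p.2 = m := Finset.HasAntidiagonal.mem_antidiagonal.1 hp
    have := pw_mul_pw (show l₁ + l₂ ≠ 0 by positivity) p.1 p.2
    rw [hpm] at this
    calc (pw l₁ p.1 * a p.1) * (pw l₂ p.2 * b p.2) = (pw l₁ p.1 * pw l₂ p.2) * (a p.1 * b p.2) := by
          ring
      _ = _ := by rw [this]; ring
  rw [this]
  exact mul_le_mul_of_nonneg_left (h m) (pw_nonneg (by positivity) m)

theorem poi_zero (a : ℕ → ℝ) : poi a 0 = a 0 := by
  unfold poi
  rw [tsum_eq_single 0]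
  · simp [pw]
  · intro m hm
    simp [pw, hm]

/-- Poisson averages of antitone sequences are antitone in the intensity. -/
theorem poi_antitone {a : ℕ → ℝ} (ha0 : ∀ m, 0 ≤ a m) (ha1 : ∀ m, a m ≤ 1) (ha : Antitone a)
    {l l' : ℝ} (hl : 0 ≤ l) (hll : l ≤ l') : poi a l' ≤ poi a l := by
  rcases eq_or_lt_of_le hll with h | h
  · rw [h]
  rcases eq_or_lt_of_le hl with h0 | h0
  · rw [← h0, poi_zero]
    have : poi a l' ≤ poi (fun _ => a 0) l' := by
      refine (pw_mul_summable (hl.trans hll) ha0 ha1).tsum_le_tsum (fun m => ?_)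
        (pw_mul_summable (hl.trans hll) (fun _ => ha0 0) (fun _ => ha1 0))
      exact mul_le_mul_of_nonneg_left (ha (Nat.zero_le m)) (pw_nonneg (hl.trans hll) m)
    refine this.trans (le_of_eq ?_)
    unfold poi
    rw [tsum_mul_right, pw_tsum, one_mul]
  have hd : 0 < l' - l := by linarith
  have key := poi_mul (l₁ := l) (l₂ := l' - l) h0.le hd.le ha0 ha1 (b := fun _ => 1)
    (fun _ => zero_le_one) (fun _ => le_refl _)
  have h1 : poi (fun _ => (1:ℝ)) (l' - l) = 1 := by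
    unfold poi; simp only [mul_one]; exact pw_tsum _
  rw [h1, mul_one] at key
  refine hasSum_le ?_ (pw_mul_summable (hl.trans hll) ha0 ha1).hasSum key
  intro m
  have e : ∀ p ∈ Finset.HasAntidiagonal.antidiagonal m,
      pw l p.1 * pw (l' - l) p.2 = pw l' m * ((m.choose p.1 : ℝ) *
        (l / l') ^ p.1 * ((l' - l) / l') ^ p.2) := by
    intro p hp
    have hpm : p.1 + p.2 = m := Finset.HasAntidiagonal.mem_antidiagonal.1 hp
    have := pw_mul_pw (l₁ := l) (l₂ := l' - l) (by linarith) p.1 p.2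
    rw [hpm] at this
    rw [this]
    congr 1
    · congr 1; ring
    · rw [show l + (l' - l) = l' by ring]
  have hsum : ∑ p ∈ Finset.HasAntidiagonal.antidiagonal m, pw l p.1 * pw (l' - l) p.2 = pw l' m := by
    rw [Finset.sum_congr rfl e, ← Finset.mul_sum]
    have hl' : l' ≠ 0 := by linarith
    have : ∑ p ∈ Finset.HasAntidiagonal.antidiagonal m, ((m.choose p.1 : ℝ) *
        (l / l') ^ p.1 * ((l' - l) / l') ^ p.2) = (l / l' + (l' - l) / l') ^ m := by
      have hc : Commute (l / l') ((l' - l) / l') := Commute.all _ _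
      rw [hc.add_pow']
      refine Finset.sum_congr rfl fun p _ => ?_
      rw [nsmul_eq_mul]; ring
    rw [this, ← add_div, show l + (l' - l) = l' by ring, div_self hl', one_pow, mul_one]
  calc pw l' m * a m = ∑ p ∈ Finset.HasAntidiagonal.antidiagonal m,
        (pw l p.1 * pw (l' - l) p.2) * a m := by rw [← Finset.sum_mul, hsum]
    _ ≤ ∑ p ∈ Finset.HasAntidiagonal.antidiagonal m, (pw l p.1 * a p.1) * (pw (l' - l) p.2 * 1) := by
        refine Finset.sum_le_sum fun p hp => ?_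
        have hpm : p.1 + p.2 = m := Finset.HasAntidiagonal.mem_antidiagonal.1 hp
        have h2 : a m ≤ a p.1 := ha (by omega)
        have h3 : 0 ≤ pw l p.1 * pw (l' - l) p.2 := mul_nonneg (pw_nonneg h0.le _) (pw_nonneg hd.le _)
        nlinarith [mul_le_mul_of_nonneg_left h2 h3]

/-! ### the with-repetition model -/

noncomputable def poiWr (k n : ℕ) (lam : ℝ) : ℝ := poi (satWr k n) lam

theorem poiWr_nonneg (k n : ℕ) {lam : ℝ} (h : 0 ≤ lam) : 0 ≤ poiWr k n lam :=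
  poi_nonneg h (satWr_nonneg k n)

theorem poiWr_le_one (k n : ℕ) {lam : ℝ} (h : 0 ≤ lam) : poiWr k n lam ≤ 1 :=
  poi_le_one h (satWr_nonneg k n) (satWr_le_one k n)

theorem poiWr_antitone (k n : ℕ) {l l' : ℝ} (hl : 0 ≤ l) (hll : l ≤ l') :
    poiWr k n l' ≤ poiWr k n l :=
  poi_antitone (satWr_nonneg k n) (satWr_le_one k n) (satWr_antitone k n) hl hll

theorem poiWr_mul (k n₁ n₂ : ℕ) (h1 : 0 < n₁) (h2 : 0 < n₂) {c : ℝ} (hc : 0 ≤ c) :
    poiWr k n₁ (c * n₁) * poiWr k n₂ (c * n₂) ≤ poiWr k (n₁ + n₂) (c * (n₁ + n₂)) := by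
  have h1' : (0:ℝ) < n₁ := by exact_mod_cast h1
  have h2' : (0:ℝ) < n₂ := by exact_mod_cast h2
  rcases eq_or_lt_of_le hc with h0 | h0
  · unfold poiWr
    rw [← h0]
    simp only [zero_mul, poi_zero, satWr_zero]
    norm_num
  unfold poiWr
  rw [mul_add]
  refine poi_mul_le (by positivity) (by positivity) (satWr_nonneg k n₁) (satWr_le_one k n₁)
    (satWr_nonneg k n₂) (satWr_le_one k n₂) (satWr_nonneg k _) (satWr_le_one k _) fun m => ?_
  have e1 : c * (n₁:ℝ) / (c * n₁ + c * n₂) = (n₁ : ℝ) / ((n₁ : ℝ) + n₂) := by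
    rw [← mul_add, mul_div_mul_left _ _ h0.ne']
  have e2 : c * (n₂:ℝ) / (c * n₁ + c * n₂) = (n₂ : ℝ) / ((n₁ : ℝ) + n₂) := by
    rw [← mul_add, mul_div_mul_left _ _ h0.ne']
  rw [e1, e2]
  exact satWr_superadd k n₁ n₂ m h1 h2

theorem poiWr_pow (k n M : ℕ) (hn : 0 < n) (hM : 0 < M) {c : ℝ} (hc : 0 ≤ c) :
    poiWr k n (c * n) ^ M ≤ poiWr k (n * M) (c * (n * M)) := by
  induction M with
  | zero => omega
  | succ M ih =>
    rcases Nat.eq_zero_or_pos M with h | h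
    · subst h; simp
    · have h1 := ih h
      have h2 := poiWr_mul k (n * M) n (Nat.mul_pos hn h) hn hc
      rw [pow_succ]
      have h3 : poiWr k n (c * n) ^ M * poiWr k n (c * n) ≤
          poiWr k (n * M) (c * (n * M)) * poiWr k n (c * n) :=
        mul_le_mul_of_nonneg_right h1 (poiWr_nonneg k n (by positivity))
      push_cast at h2 ⊢
      have e : n * (M + 1) = n * M + n := by ring
      rw [e]
      refine h3.trans (h2.trans (le_of_eq ?_))
      ring_nf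

end Crest.Agent.R153.Wr
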