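import Mathlib
import Crest.Prelude.Def_RandomSAT
import Crest.Agent.R153.InterpPoi

/-!
Transfer (B2) between the with-repetition model and the model with distinct variables.
-/

set_option autoImplicit false
set_option linter.unusedVariables false

namespace Crest.Agent.R153.Wr

open Finset Crest.ProbabilityR.RandomSAT

/-- the set of assignments satisfying a clause with distinct variables -/
def satD (k n : ℕ) (c : Clause k n) : Set (Fin n → Bool) := {σ | ClauseSat σ c}

/-- add one uniform clause with distinct variables -/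
noncomputable def DD (k n : ℕ) : Module.End ℝ (Set (Fin n → Bool) → ℝ) :=
  TT (satD k n) (fun _ => 1 / (Fintype.card (Clause k n) : ℝ))

theorem DD_mono (k n : ℕ) : MonoOp (DD k n) := TT_mono _ _ fun _ => by positivity

theorem DD_φ0_le (k n : ℕ) : DD k n φ0 ≤ φ0 := by
  have := TT_φ0_le (satD k n) (fun _ => 1 / (Fintype.card (Clause k n) : ℝ))
    (fun _ => by positivity) (q := 1) (sum_unif_le_one _)
  rw [one_smul] at this
  exact this

theorem satProb_eq (k n m : ℕ) : satProb k n m = ((DD k n) ^ m) φ0 Set.univ := by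
  classical
  unfold DD
  rw [TT_pow_apply]
  simp only [Finset.prod_const, Finset.card_univ, Fintype.card_fin, Set.univ_inter]
  rw [← Finset.mul_sum]
  unfold satProb Crest.FinProb.uniformProb
  have h1 : ∀ F : Fin m → Clause k n, φ0 (⋂ j, satD k n (F j)) =
      if Satisfiable F then 1 else 0 := by
    intro F
    have : (⋂ j, satD k n (F j)).Nonempty ↔ Satisfiable F := by
      unfold Satisfiable
      constructor
      · rintro ⟨σ, hσ⟩
        exact ⟨σ, fun j => Set.mem_iInter.1 hσ j⟩
      · rintro ⟨σ, hσ⟩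
        exact ⟨σ, Set.mem_iInter.2 fun j => hσ j⟩
    by_cases h : Satisfiable F
    · rw [φ0_of_nonempty (this.2 h), if_pos h]
    · rw [φ0_of_empty (fun h' => h (this.1 h')), if_neg h]
  rw [Finset.sum_congr rfl fun F _ => h1 F]
  rw [Finset.sum_boole]
  simp only [Set.mem_ofPred_eq]
  rw [Fintype.card_fun, Fintype.card_fin]
  push_cast
  rw [one_div, inv_pow, div_eq_inv_mul]

theorem satProb_nonneg (k n m : ℕ) : 0 ≤ satProb k n m := by
  unfold satProb Crest.FinProb.uniformProb
  positivity

theorem satProb_le_one (k n m : ℕ) : satProb k n m ≤ 1 := by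
  classical
  unfold satProb Crest.FinProb.uniformProb
  refine div_le_one_of_le₀ ?_ (by positivity)
  exact_mod_cast Finset.card_le_univ _

theorem satProb_antitone (k n : ℕ) : Antitone (satProb k n) := by
  refine antitone_nat_of_succ_le fun m => ?_
  rw [satProb_eq, satProb_eq]
  exact pow_φ0_antitone (DD_mono _ _) (DD_φ0_le _ _) m Set.univ

theorem satProb_zero (k n : ℕ) : satProb k n 0 = 1 := by
  rw [satProb_eq, pow_zero]
  exact φ0_of_nonempty ⟨fun _ => true, trivial⟩

/-- probability that `k` uniform variables among `n` are distinct -/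
noncomputable def qd (k n : ℕ) : ℝ := (n.descFactorial k : ℝ) / (n : ℝ) ^ k

/-- improper clauses -/
abbrev Impr (k n : ℕ) : Type := {c : WClause k (Fin n) // ¬ Function.Injective fun i => (c i).1}

noncomputable def RR (k n : ℕ) : Module.End ℝ (Set (Fin n → Bool) → ℝ) :=
  TT (fun c : Impr k n => satL litTr k c.1) (fun _ => 1 / (Fintype.card (Fin n × Bool) : ℝ) ^ k)

theorem RR_mono (k n : ℕ) : MonoOp (RR k n) := TT_mono _ _ fun _ => by positivity

theorem card_clause (k n : ℕ) : Fintype.card (Clause k n) = n.descFactorial k * 2 ^ k := by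
  classical
  rw [Fintype.card_prod, Fintype.card_fun, Fintype.card_bool, Fintype.card_fin]
  congr 1
  have : Fintype.card (Fin k ↪ Fin n) = n.descFactorial k := by
    rw [Fintype.card_embedding_eq, Fintype.card_fin, Fintype.card_fin]
  rw [← this]
  exact Fintype.card_congr (Equiv.subtypeInjectiveEquivEmbedding _ _)

/-- splitting a with-repetition clause into the variable part and the sign part -/
def properEquiv (k n : ℕ) :
    {c : WClause k (Fin n) // Function.Injective fun i => (c i).1} ≃ Clause k n where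
  toFun c := (⟨fun i => (c.1 i).1, c.2⟩, fun i => (c.1 i).2)
  invFun c := ⟨fun i => (c.1.1 i, c.2 i), c.1.2⟩
  left_inv c := by ext <;> rfl
  right_inv c := rfl

theorem satL_proper (k n : ℕ) (c : {c : WClause k (Fin n) // Function.Injective fun i => (c i).1}) :
    satL litTr k c.1 = satD k n (properEquiv k n c) := by
  ext σ
  simp [satL, litTr, satD, ClauseSat, properEquiv]

theorem UU_split (k n : ℕ) (hn : k ≤ n) (hn0 : 0 < n) :
    UU (litTr (V := Fin n)) k = qd k n • DD k n + RR k n := by
  classical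
  refine LinearMap.ext fun φ => ?_
  funext S
  simp only [LinearMap.add_apply, LinearMap.smul_apply, Pi.add_apply, Pi.smul_apply, smul_eq_mul]
  unfold UU RR DD
  rw [TT_apply, TT_apply, TT_apply]
  rw [← Fintype.sum_subtype_add_sum_subtype (fun c : WClause k (Fin n) =>
    Function.Injective fun i => (c i).1)]
  congr 1
  rw [← (properEquiv k n).sum_comp, Finset.mul_sum]
  refine Finset.sum_congr rfl fun c _ => ?_
  rw [satL_proper, ← mul_assoc]
  congr 1
  rw [card_clause]
  unfold qd
  have h1 : (0:ℝ) < n.descFactorial k := by exact_mod_cast Nat.descFactorial_pos.2 hn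
  have h2 : (0:ℝ) < n := by exact_mod_cast hn0
  simp only [Fintype.card_prod, Fintype.card_fin, Fintype.card_bool]
  push_cast
  rw [mul_pow]
  field_simp

theorem qd_nonneg (k n : ℕ) : 0 ≤ qd k n := by unfold qd; positivity

theorem qd_le_one (k n : ℕ) : qd k n ≤ 1 := by
  unfold qd
  refine div_le_one_of_le₀ ?_ (by positivity)
  exact_mod_cast Nat.descFactorial_le_pow n k

theorem RR_φ0_le (k n : ℕ) (hn : k ≤ n) (hn0 : 0 < n) : RR k n φ0 ≤ (1 - qd k n) • φ0 := by
  classical
  refine TT_φ0_le _ _ (fun _ => by positivity) ?_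
  -- total mass
  have hU := congrArg (fun f : Module.End ℝ (Set (Fin n → Bool) → ℝ) => f (fun _ => 1) Set.univ)
    (UU_split k n hn hn0)
  simp only [LinearMap.add_apply, LinearMap.smul_apply, Pi.add_apply, Pi.smul_apply,
    smul_eq_mul] at hU
  unfold UU DD RR at hU
  rw [TT_apply, TT_apply, TT_apply] at hU
  simp only [mul_one] at hU
  have hL : (0:ℝ) < Fintype.card (Fin n × Bool) := by
    have : 0 < Fintype.card (Fin n × Bool) := by simp; omega
    exact_mod_cast this
  have e1 : ∑ _c : Fin k → Fin n × Bool, 1 / (Fintype.card (Fin n × Bool) : ℝ) ^ k = 1 := by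
    rw [Finset.sum_const, Finset.card_univ, Fintype.card_fun, Fintype.card_fin, nsmul_eq_mul]
    push_cast
    rw [mul_one_div_cancel (by positivity)]
  have hC : (0:ℝ) < Fintype.card (Clause k n) := by
    rw [card_clause]
    have : 0 < n.descFactorial k := Nat.descFactorial_pos.2 hn
    positivity
  have e2 : ∑ _c : Clause k n, 1 / (Fintype.card (Clause k n) : ℝ) = 1 := by
    rw [Finset.sum_const, Finset.card_univ, nsmul_eq_mul, mul_one_div_cancel hC.ne']
  rw [e1, e2] at hU
  linarith

/-- powers of `RR` on `φ0` -/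
theorem RR_pow_le (k n : ℕ) (hn : k ≤ n) (hn0 : 0 < n) (m : ℕ) :
    ((RR k n) ^ m) φ0 ≤ (1 - qd k n) ^ m • φ0 := by
  induction m with
  | zero => simp
  | succ m ih =>
    rw [pow_succ, Module.End.mul_apply]
    refine ((RR_mono k n).pow m _ _ (RR_φ0_le k n hn hn0)).trans ?_
    rw [map_smul, pow_succ', mul_smul]
    intro S
    rw [Pi.smul_apply, Pi.smul_apply, smul_eq_mul, smul_eq_mul]
    exact mul_le_mul_of_nonneg_left (ih S) (by linarith [qd_le_one k n])

/-- upper transfer, fixed number of clauses. -/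
theorem satWr_le_sum (k n m : ℕ) (hn : k ≤ n) (hn0 : 0 < n) :
    satWr k n m ≤ ∑ p ∈ Finset.HasAntidiagonal.antidiagonal m, (m.choose p.1 : ℝ) *
      (qd k n) ^ p.1 * (1 - qd k n) ^ p.2 * satProb k n p.1 := by
  rw [satWr_eq_val]
  unfold val
  rw [UU_split k n hn hn0]
  have hc : Commute (DD k n) (RR k n) := TT_comm _ _ _ _
  have hc' : Commute (qd k n • DD k n) (RR k n) := hc.smul_left _
  rw [hc'.add_pow', LinearMap.sum_apply, Finset.sum_apply]
  refine Finset.sum_le_sum fun p hp => ?_
  rw [LinearMap.smul_apply, Pi.smul_apply, nsmul_eq_mul, smul_pow, smul_mul_assoc,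
    LinearMap.smul_apply, Pi.smul_apply, smul_eq_mul, Module.End.mul_apply]
  have h1 := (DD_mono k n).pow p.1 _ _ (RR_pow_le k n hn hn0 p.2) Set.univ
  rw [map_smul, Pi.smul_apply, smul_eq_mul, ← satProb_eq] at h1
  calc (m.choose p.1 : ℝ) * (qd k n ^ p.1 * ((DD k n) ^ p.1) (((RR k n) ^ p.2) φ0) Set.univ)
      ≤ (m.choose p.1 : ℝ) * (qd k n ^ p.1 * ((1 - qd k n) ^ p.2 * satProb k n p.1)) := by
        have := qd_nonneg k n
        gcongr
    _ = _ := by ring

/-- lower transfer -/
theorem satWr_ge (k n m : ℕ) (hn : k ≤ n) (hn0 : 0 < n) :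
    (qd k n) ^ m * satProb k n m ≤ satWr k n m := by
  rw [satWr_eq_val]
  unfold val
  rw [UU_split k n hn hn0]
  have hc : Commute (DD k n) (RR k n) := TT_comm _ _ _ _
  have hle : (qd k n • DD k n) φ0 ≤ (qd k n • DD k n + RR k n) φ0 := by
    intro S
    rw [LinearMap.add_apply, Pi.add_apply]
    have := (RR_mono k n).nonneg (φ := φ0) (fun S => φ0_nonneg S) S
    simp only [Pi.zero_apply] at this
    linarith
  have hcomm : Commute (qd k n • DD k n + RR k n) (qd k n • DD k n) :=
    (Commute.refl _).add_left ((hc.smul_left _).symm)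
  have hm1 : MonoOp (qd k n • DD k n) := (DD_mono k n).smul (qd_nonneg k n)
  have hm2 : MonoOp (qd k n • DD k n + RR k n) := hm1.add (RR_mono k n)
  have := pow_le_pow_of_comm hm2 hm1 hcomm hle m Set.univ
  rw [smul_pow, LinearMap.smul_apply, Pi.smul_apply, smul_eq_mul, ← satProb_eq] at this
  exact this

/-- Poissonised satisfiability probability, distinct variables. -/
noncomputable def poiD (k n : ℕ) (lam : ℝ) : ℝ := poi (satProb k n) lam

theorem poiD_nonneg (k n : ℕ) {lam : ℝ} (h : 0 ≤ lam) : 0 ≤ poiD k n lam :=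
  poi_nonneg h (satProb_nonneg k n)

theorem poiD_le_one (k n : ℕ) {lam : ℝ} (h : 0 ≤ lam) : poiD k n lam ≤ 1 :=
  poi_le_one h (satProb_nonneg k n) (satProb_le_one k n)

theorem poiD_antitone (k n : ℕ) {l l' : ℝ} (hl : 0 ≤ l) (hll : l ≤ l') :
    poiD k n l' ≤ poiD k n l :=
  poi_antitone (satProb_nonneg k n) (satProb_le_one k n) (satProb_antitone k n) hl hll

/-- upper transfer, Poisson form: thinning. -/
theorem poiWr_le_poiD (k n : ℕ) (hn : k ≤ n) (hn0 : 0 < n) {lam : ℝ} (h : 0 ≤ lam) :
    poiWr k n lam ≤ poiD k n (qd k n * lam) := by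
  have hq0 := qd_nonneg k n
  have hq1 := qd_le_one k n
  rcases eq_or_lt_of_le h with h0 | h0
  · rw [← h0, mul_zero]
    unfold poiWr poiD
    rw [poi_zero, poi_zero, satWr_zero, satProb_zero]
  have key := poi_mul (l₁ := qd k n * lam) (l₂ := (1 - qd k n) * lam) (by positivity)
    (mul_nonneg (by linarith) h) (satProb_nonneg k n) (satProb_le_one k n) (b := fun _ => 1)
    (fun _ => zero_le_one) (fun _ => le_refl _)
  have h1 : poi (fun _ => (1:ℝ)) ((1 - qd k n) * lam) = 1 := by
    unfold poi; simp only [mul_one]; exact pw_tsum _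
  rw [h1, mul_one] at key
  refine hasSum_le ?_ (pw_mul_summable h (satWr_nonneg k n) (satWr_le_one k n)).hasSum key
  intro m
  have hsum : qd k n * lam + (1 - qd k n) * lam = lam := by ring
  calc pw lam m * satWr k n m ≤ pw lam m * ∑ p ∈ Finset.HasAntidiagonal.antidiagonal m,
        (m.choose p.1 : ℝ) * (qd k n) ^ p.1 * (1 - qd k n) ^ p.2 * satProb k n p.1 :=
        mul_le_mul_of_nonneg_left (satWr_le_sum k n m hn hn0) (pw_nonneg h m)
    _ = ∑ p ∈ Finset.HasAntidiagonal.antidiagonal m,
        (pw (qd k n * lam) p.1 * satProb k n p.1) * (pw ((1 - qd k n) * lam) p.2 * 1) := by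
        rw [Finset.mul_sum]
        refine Finset.sum_congr rfl fun p hp => ?_
        have hpm : p.1 + p.2 = m := Finset.HasAntidiagonal.mem_antidiagonal.1 hp
        have := pw_mul_pw (l₁ := qd k n * lam) (l₂ := (1 - qd k n) * lam)
          (by rw [hsum]; exact h0.ne') p.1 p.2
        rw [hsum, hpm, mul_div_cancel_right₀ _ h0.ne', mul_div_cancel_right₀ _ h0.ne'] at this
        calc _ = (pw lam m * ((m.choose p.1 : ℝ) * qd k n ^ p.1 * (1 - qd k n) ^ p.2)) *
              satProb k n p.1 := by ring
          _ = _ := by rw [← this]; ring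

end Crest.Agent.R153.Wr
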