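import Mathlib
import Crest.Agent.R153.InterpDist

/-!
Tools for the left cut: Chebyshev inequalities for tail sequences and for Poisson weights,
first moment bound.
-/

set_option autoImplicit false
set_option linter.unusedVariables false

namespace Crest.Agent.R153.Wr

open Finset Crest.ProbabilityR.RandomSAT

theorem hasSum_of_eq {f g : ℕ → ℝ} {s : ℝ} (h : HasSum g s) (e : ∀ j, f j = g j) :
    HasSum f s := by rwa [show f = g from funext e]

/-! ### summation by parts for antitone tail sequences -/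

theorem parts_ge {P : ℕ → ℝ} (hP : Antitone P) (hP1 : P 0 ≤ 1) (u : ℕ → ℝ)
    (hu : ∀ j, 0 ≤ u j) (J : ℕ) :
    u J * P J ≤ u 0 + ∑ j ∈ Finset.range J, (u (j + 1) - u j) * P j := by
  induction J with
  | zero => simpa using mul_le_of_le_one_right (hu 0) hP1
  | succ J ih =>
    rw [Finset.sum_range_succ]
    have h1 : u (J + 1) * P (J + 1) ≤ u (J + 1) * P J :=
      mul_le_mul_of_nonneg_left (hP (Nat.le_succ J)) (hu _)
    nlinarith

/-- Chebyshev, generic form -/
theorem parts_lim {P : ℕ → ℝ} (hP : Antitone P) (hP0 : ∀ m, 0 ≤ P m) (hP1 : P 0 ≤ 1) (u : ℕ → ℝ)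
    (hu : ∀ j, 0 ≤ u j) {s : ℝ} (hs : HasSum (fun j => (u (j + 1) - u j) * P j) s) :
    0 ≤ u 0 + s := by
  have ht := hs.tendsto_sum_nat.const_add (u 0)
  refine ge_of_tendsto' ht fun J => ?_
  exact le_trans (mul_nonneg (hu J) (hP0 J)) (parts_ge hP hP1 u hu J)

section Cheb

variable {P : ℕ → ℝ} (hP : Antitone P) (hP0 : ∀ m, 0 ≤ P m) (hP1 : P 0 ≤ 1)
  (hs1 : Summable P) (hs2 : Summable fun m : ℕ => (2 * (m : ℝ) + 1) * P m)

include hP hP0 hP1 hs1 hs2

theorem cheb_upper (m : ℕ) (hm : (∑' j, P j) ≤ m + 1) :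
    P m * (m + 1 - ∑' j, P j) ^ 2 ≤ (∑' j : ℕ, (2 * (j : ℝ) + 1) * P j) - (∑' j, P j) ^ 2 := by
  set h := ∑' j, P j with hh
  set u : ℕ → ℝ := fun j => ((j : ℝ) - h) ^ 2 - (if m + 1 ≤ j then ((m : ℝ) + 1 - h) ^ 2 else 0)
    with hu
  have hu0 : ∀ j, 0 ≤ u j := by
    intro j
    simp only [hu]
    split_ifs with hj
    · have : ((m : ℝ) + 1) ≤ j := by exact_mod_cast hj
      nlinarith
    · nlinarith [sq_nonneg ((j : ℝ) - h)]
  have hsum : HasSum (fun j => (u (j + 1) - u j) * P j)
      ((∑' j : ℕ, (2 * (j : ℝ) + 1) * P j) - 2 * h * h - ((m : ℝ) + 1 - h) ^ 2 * P m) := by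
    have e1 := (hs2.hasSum.sub (hs1.hasSum.mul_left (2 * h))).sub
      (hasSum_ite_eq m (((m : ℝ) + 1 - h) ^ 2 * P m))
    refine hasSum_of_eq e1 fun j => ?_
    simp only [hu]
    by_cases hjm : j = m
    · subst hjm
      simp only [le_refl, if_true]
      rw [if_neg (by omega)]
      push_cast
      ring
    · rw [if_neg hjm]
      by_cases h2 : m + 1 ≤ j
      · rw [if_pos (by omega), if_pos h2]; push_cast; ring
      · rw [if_neg (by omega), if_neg h2]; push_cast; ring
  have key := parts_lim hP hP0 hP1 u hu0 hsum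
  have hu00 : u 0 = h ^ 2 := by
    simp [hu]
  rw [hu00] at key
  nlinarith

theorem cheb_lower (m : ℕ) (hm : (m : ℝ) ≤ ∑' j, P j) :
    (1 - P m) * ((∑' j, P j) - m) ^ 2 ≤ (∑' j : ℕ, (2 * (j : ℝ) + 1) * P j) - (∑' j, P j) ^ 2 := by
  set h := ∑' j, P j with hh
  set u : ℕ → ℝ := fun j => ((j : ℝ) - h) ^ 2 - (if j ≤ m then (h - (m : ℝ)) ^ 2 else 0)
    with hu
  have hu0 : ∀ j, 0 ≤ u j := by
    intro j
    simp only [hu]
    split_ifs with hj
    · have : (j : ℝ) ≤ m := by exact_mod_cast hj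
      nlinarith
    · nlinarith [sq_nonneg ((j : ℝ) - h)]
  have hsum : HasSum (fun j => (u (j + 1) - u j) * P j)
      ((∑' j : ℕ, (2 * (j : ℝ) + 1) * P j) - 2 * h * h + (h - (m : ℝ)) ^ 2 * P m) := by
    have e1 := (hs2.hasSum.sub (hs1.hasSum.mul_left (2 * h))).add
      (hasSum_ite_eq m ((h - (m : ℝ)) ^ 2 * P m))
    refine hasSum_of_eq e1 fun j => ?_
    simp only [hu]
    by_cases hjm : j = m
    · subst hjm
      simp only [le_refl, if_true]
      rw [if_neg (by omega)]
      push_cast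
      ring
    · rw [if_neg hjm]
      by_cases h2 : j ≤ m
      · rw [if_pos (by omega), if_pos h2]; push_cast; ring
      · rw [if_neg (by omega), if_neg h2]; push_cast; ring
  have key := parts_lim hP hP0 hP1 u hu0 hsum
  have hu00 : u 0 = h ^ 2 - (h - m) ^ 2 := by
    simp [hu]
  rw [hu00] at key
  nlinarith

end Cheb

/-! ### Poisson moments -/

theorem pw_succ (lam : ℝ) (i : ℕ) : pw lam (i + 1) * ((i : ℝ) + 1) = lam * pw lam i := by
  unfold pw
  rw [Nat.factorial_succ, pow_succ]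
  push_cast
  have h1 : (i.factorial : ℝ) ≠ 0 := by positivity
  have h2 : (i : ℝ) + 1 ≠ 0 := by positivity
  field_simp

theorem pw_moment_one (lam : ℝ) : HasSum (fun i : ℕ => pw lam i * (i : ℝ)) lam := by
  rw [← hasSum_nat_add_iff' 1]
  simp only [Finset.sum_range_one, Nat.cast_zero, mul_zero, sub_zero]
  have := (pw_hasSum lam).mul_left lam
  rw [mul_one] at this
  refine hasSum_of_eq this fun i => ?_
  push_cast
  exact pw_succ lam i

theorem pw_moment_two (lam : ℝ) :
    HasSum (fun i : ℕ => pw lam i * ((i : ℝ) * (i - 1))) (lam ^ 2) := by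
  rw [← hasSum_nat_add_iff' 1]
  simp only [Finset.sum_range_one, Nat.cast_zero, zero_mul, mul_zero, sub_zero]
  have := (pw_moment_one lam).mul_left lam
  rw [← pow_two] at this
  refine hasSum_of_eq this fun i => ?_
  push_cast
  have := pw_succ lam i
  calc pw lam (i + 1) * (((i : ℝ) + 1) * ((i : ℝ) + 1 - 1)) =
        (pw lam (i + 1) * ((i : ℝ) + 1)) * i := by ring
    _ = _ := by rw [this]; ring

theorem pw_var (lam : ℝ) : HasSum (fun i : ℕ => pw lam i * ((i : ℝ) - lam) ^ 2) lam := by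
  have h := ((pw_moment_two lam).add ((pw_moment_one lam).mul_left (1 - 2 * lam))).add
    ((pw_hasSum lam).mul_left (lam ^ 2))
  have e : lam ^ 2 + (1 - 2 * lam) * lam + lam ^ 2 * 1 = lam := by ring
  rw [e] at h
  refine hasSum_of_eq h fun i => ?_
  ring

/-- Poisson mass above `m`. -/
theorem pw_range_ge {lam : ℝ} (h : 0 ≤ lam) (m : ℕ) {t : ℝ} (ht : 0 < t)
    (hm : lam + t ≤ m + 1) : 1 - lam / t ^ 2 ≤ ∑ i ∈ Finset.range (m + 1), pw lam i := by
  have h1 := (pw_hasSum lam)
  have h2 := (pw_var lam).div_const (t ^ 2)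
  have h3 : HasSum (fun i : ℕ => if i ∈ Finset.range (m + 1) then pw lam i else 0)
      (∑ i ∈ Finset.range (m + 1), pw lam i) := by
    have h5 : HasSum (fun i : ℕ => if i ∈ Finset.range (m + 1) then pw lam i else 0)
        (∑ i ∈ Finset.range (m + 1), if i ∈ Finset.range (m + 1) then pw lam i else 0) :=
      hasSum_sum_of_ne_finset_zero (fun b hb => if_neg hb)
    rwa [Finset.sum_congr rfl fun i hi => if_pos hi] at h5
  have h4 := h3.add h2
  have : (1:ℝ) ≤ (∑ i ∈ Finset.range (m + 1), pw lam i) + lam / t ^ 2 := by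
    refine hasSum_le (fun i => ?_) h1 h4
    by_cases hi : i ∈ Finset.range (m + 1)
    · rw [if_pos hi]
      have := pw_nonneg h i
      have : 0 ≤ pw lam i * ((i : ℝ) - lam) ^ 2 / t ^ 2 := by positivity
      linarith
    · rw [if_neg hi, zero_add]
      have hi' : m + 1 ≤ i := by simpa using hi
      have hi'' : (m : ℝ) + 1 ≤ i := by exact_mod_cast hi'
      rw [le_div_iff₀ (by positivity)]
      refine mul_le_mul_of_nonneg_left ?_ (pw_nonneg h i)
      nlinarith
  linarith

/-- Poisson mass below `m`. -/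
theorem pw_range_le {lam : ℝ} (h : 0 ≤ lam) (m : ℕ) {t : ℝ} (ht : 0 < t)
    (hm : (m : ℝ) + t ≤ lam + 1) : ∑ i ∈ Finset.range m, pw lam i ≤ lam / t ^ 2 := by
  have h2 := (pw_var lam).div_const (t ^ 2)
  have h5 : HasSum (fun i : ℕ => if i ∈ Finset.range m then pw lam i else 0)
      (∑ i ∈ Finset.range m, if i ∈ Finset.range m then pw lam i else 0) :=
    hasSum_sum_of_ne_finset_zero (fun b hb => if_neg hb)
  rw [Finset.sum_congr rfl fun i hi => if_pos hi] at h5
  refine hasSum_le (fun i => ?_) h5 h2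
  by_cases hi : i ∈ Finset.range m
  · rw [if_pos hi]
    have hi' : i + 1 ≤ m := by simpa using hi
    have hi'' : (i : ℝ) + 1 ≤ m := by exact_mod_cast hi'
    rw [le_div_iff₀ (by positivity)]
    refine mul_le_mul_of_nonneg_left ?_ (pw_nonneg h i)
    nlinarith
  · rw [if_neg hi]
    have := pw_nonneg h i
    positivity

/-- lower bound for Poisson averages of antitone sequences -/
theorem poi_ge {lam : ℝ} (h : 0 ≤ lam) {a : ℕ → ℝ} (ha0 : ∀ m, 0 ≤ a m) (ha1 : ∀ m, a m ≤ 1)
    (ha : Antitone a) (m : ℕ) {t : ℝ} (ht : 0 < t) (hm : lam + t ≤ m + 1) :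
    (1 - lam / t ^ 2) * a m ≤ poi a lam := by
  have h1 : (∑ i ∈ Finset.range (m + 1), pw lam i) * a m ≤ poi a lam := by
    rw [Finset.sum_mul]
    refine le_trans (Finset.sum_le_sum fun i hi => ?_)
      ((pw_mul_summable h ha0 ha1).sum_le_tsum (Finset.range (m + 1))
        (fun i _ => mul_nonneg (pw_nonneg h i) (ha0 i)))
    exact mul_le_mul_of_nonneg_left (ha (by simpa [Nat.lt_succ_iff] using hi)) (pw_nonneg h i)
  exact (mul_le_mul_of_nonneg_right (pw_range_ge h m ht hm) (ha0 m)).trans h1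

/-- upper bound for Poisson averages of antitone sequences -/
theorem poi_le {lam : ℝ} (h : 0 ≤ lam) {a : ℕ → ℝ} (ha0 : ∀ m, 0 ≤ a m) (ha1 : ∀ m, a m ≤ 1)
    (ha : Antitone a) (m : ℕ) {t : ℝ} (ht : 0 < t) (hm : (m : ℝ) + t ≤ lam + 1) :
    poi a lam ≤ lam / t ^ 2 + a m := by
  have h5 : HasSum (fun i : ℕ => if i ∈ Finset.range m then pw lam i else 0)
      (∑ i ∈ Finset.range m, if i ∈ Finset.range m then pw lam i else 0) :=
    hasSum_sum_of_ne_finset_zero (fun b hb => if_neg hb)
  rw [Finset.sum_congr rfl fun i hi => if_pos hi] at h5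
  have h6 := h5.add ((pw_hasSum lam).mul_right (a m))
  have h7 : poi a lam ≤ (∑ i ∈ Finset.range m, pw lam i) + 1 * a m := by
    refine hasSum_le (fun i => ?_) (pw_mul_summable h ha0 ha1).hasSum h6
    by_cases hi : i ∈ Finset.range m
    · rw [if_pos hi]
      have h8 := pw_nonneg h i
      have := mul_le_of_le_one_right h8 (ha1 i)
      have := mul_nonneg h8 (ha0 m)
      linarith
    · rw [if_neg hi, zero_add]
      exact mul_le_mul_of_nonneg_left (ha (by simpa using hi)) (pw_nonneg h i)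
  have := pw_range_le h m ht hm
  linarith

/-! ### first moment bound -/

open Classical in
/-- number of points -/
noncomputable def cnt {X : Type*} [Fintype X] (S : Set X) : ℝ :=
  ∑ σ : X, if σ ∈ S then (1:ℝ) else 0

theorem φ0_le_cnt {X : Type*} [Fintype X] (S : Set X) : φ0 S ≤ cnt S := by
  classical
  by_cases h : S.Nonempty
  · rw [φ0_of_nonempty h]
    obtain ⟨x, hx⟩ := h
    unfold cnt
    have : (if x ∈ S then (1:ℝ) else 0) ≤ ∑ σ : X, if σ ∈ S then (1:ℝ) else 0 :=
      Finset.single_le_sum (f := fun σ => if σ ∈ S then (1:ℝ) else 0)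
        (fun σ _ => by positivity) (Finset.mem_univ x)
    rw [if_pos hx] at this
    exact this
  · rw [φ0_of_empty h]
    unfold cnt; positivity

open Classical in
theorem clause_unsat_sum (k n : ℕ) (σ : Fin n → Bool) :
    ∑ c : Clause k n, (if ClauseSat σ c then (0:ℝ) else 1) =
      (Fintype.card {v : Fin k → Fin n // Function.Injective v} : ℝ) := by
  rw [Fintype.sum_prod_type]
  have h1 : ∀ v : {v : Fin k → Fin n // Function.Injective v},
      ∑ s : Fin k → Bool, (if ClauseSat σ ((v, s) : Clause k n) then (0:ℝ) else 1) = 1 := by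
    intro v
    rw [Finset.sum_eq_single (fun i => !σ (v.1 i))]
    · rw [if_neg]
      rintro ⟨i, hi⟩
      simp at hi
    · intro s _ hs
      rw [if_pos]
      by_contra hcon
      apply hs
      funext i
      have : ¬ σ (v.1 i) = s i := fun h => hcon ⟨i, h⟩
      cases h1 : σ (v.1 i) <;> cases h2 : s i <;> simp_all
    · intro h; exact absurd (Finset.mem_univ _) h
  rw [Finset.sum_congr rfl fun v _ => h1 v]
  simp

theorem DD_cnt (k n : ℕ) (hn : k ≤ n) :
    DD k n cnt = (1 - 1 / 2 ^ k : ℝ) • (cnt : Set (Fin n → Bool) → ℝ) := by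
  classical
  funext S
  rw [Pi.smul_apply, smul_eq_mul]
  unfold DD
  rw [TT_apply]
  unfold cnt
  simp only [Finset.mul_sum]
  rw [Finset.sum_comm]
  refine Finset.sum_congr rfl fun σ _ => ?_
  by_cases hσ : σ ∈ S
  · simp only [hσ, if_true, Set.mem_inter_iff, true_and, satD, Set.mem_ofPred_eq]
    have h1 : ∀ c : Clause k n, 1 / (Fintype.card (Clause k n) : ℝ) *
        (if ClauseSat σ c then (1:ℝ) else 0) = 1 / (Fintype.card (Clause k n) : ℝ) -
        1 / (Fintype.card (Clause k n) : ℝ) * (if ClauseSat σ c then (0:ℝ) else 1) := by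
      intro c; split_ifs <;> ring
    rw [Finset.sum_congr rfl fun c _ => h1 c, Finset.sum_sub_distrib, ← Finset.mul_sum,
      clause_unsat_sum]
    have hv : (0:ℝ) < Fintype.card {v : Fin k → Fin n // Function.Injective v} := by
      have h2 := card_clause k n
      rw [Fintype.card_prod, Fintype.card_fun, Fintype.card_bool, Fintype.card_fin] at h2
      have h3 : 0 < n.descFactorial k := Nat.descFactorial_pos.2 hn
      have : Fintype.card {v : Fin k → Fin n // Function.Injective v} = n.descFactorial k :=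
        Nat.eq_of_mul_eq_mul_right (by positivity) h2
      rw [this]; exact_mod_cast h3
    have hc : (Fintype.card (Clause k n) : ℝ) =
        Fintype.card {v : Fin k → Fin n // Function.Injective v} * 2 ^ k := by
      rw [Fintype.card_prod, Fintype.card_fun, Fintype.card_bool, Fintype.card_fin]
      push_cast; ring
    rw [Finset.sum_const, Finset.card_univ, nsmul_eq_mul, hc]
    field_simp
  · simp [hσ]

theorem satProb_le_first (k n m : ℕ) (hn : k ≤ n) :
    satProb k n m ≤ 2 ^ n * (1 - 1 / 2 ^ k : ℝ) ^ m := by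
  classical
  rw [satProb_eq]
  have h1 : ((DD k n) ^ m) φ0 ≤ ((DD k n) ^ m) cnt :=
    (DD_mono k n).pow m _ _ (fun S => φ0_le_cnt S)
  have h2 : ((DD k n) ^ m) cnt = (1 - 1 / 2 ^ k : ℝ) ^ m • (cnt : Set (Fin n → Bool) → ℝ) := by
    clear h1
    induction m with
    | zero => simp
    | succ m ih =>
      rw [pow_succ, Module.End.mul_apply, DD_cnt k n hn, map_smul, ih, smul_smul, pow_succ, mul_comm]
  have h3 := h1 Set.univ
  rw [h2, Pi.smul_apply, smul_eq_mul] at h3
  refine h3.trans (le_of_eq ?_)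
  unfold cnt
  simp [mul_comm]

/-- the mean hitting time is at most `9 n` for `k = 3`. -/
theorem tsum_satProb_le (n : ℕ) (hn : 3 ≤ n) : ∑' m, satProb 3 n m ≤ 9 * n := by
  have hb : ∀ m, satProb 3 n (m + 6 * n) ≤ (7 / 8 : ℝ) ^ m := by
    intro m
    refine (satProb_le_first 3 n _ hn).trans ?_
    have e : (1 - 1 / 2 ^ 3 : ℝ) = 7 / 8 := by norm_num
    rw [e, pow_add, pow_mul]
    have : (2:ℝ) ^ n * ((7 / 8) ^ m * ((7 / 8) ^ 6) ^ n) = (7 / 8) ^ m * (2 * (7 / 8) ^ 6) ^ n := by
      rw [mul_pow 2]; ring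
    rw [this]
    refine mul_le_of_le_one_right (by positivity) (pow_le_one₀ (by positivity) (by norm_num))
  have hsg : Summable fun m : ℕ => (7 / 8 : ℝ) ^ m :=
    summable_geometric_of_lt_one (by norm_num) (by norm_num)
  have hs' : Summable fun m => satProb 3 n (m + 6 * n) :=
    Summable.of_nonneg_of_le (fun m => satProb_nonneg _ _ _) hb hsg
  have hs : Summable fun m => satProb 3 n m := (summable_nat_add_iff (6 * n)).1 hs'
  rw [← hs.sum_add_tsum_nat_add (6 * n)]
  have h1 : ∑ i ∈ Finset.range (6 * n), satProb 3 n i ≤ 6 * n := by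
    calc ∑ i ∈ Finset.range (6 * n), satProb 3 n i ≤ ∑ i ∈ Finset.range (6 * n), (1:ℝ) :=
          Finset.sum_le_sum fun i _ => satProb_le_one _ _ _
      _ = 6 * n := by simp
  have h2 : ∑' m, satProb 3 n (m + 6 * n) ≤ 8 := by
    calc ∑' m, satProb 3 n (m + 6 * n) ≤ ∑' m : ℕ, (7 / 8 : ℝ) ^ m := hs'.tsum_le_tsum hb hsg
      _ = 8 := by rw [tsum_geometric_of_lt_one (by norm_num) (by norm_num)]; norm_num
  have h3 : (3:ℝ) ≤ n := by exact_mod_cast hn
  linarith

end Crest.Agent.R153.Wr
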