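import Mathlib
import Crest.Prelude.Def_RandomSAT

/-!
Row 153 (S0217), shared definitions (helper852).

`k = j + 3` is the clause length.  Expectations over lists of independent uniform clauses are
iterated averages (`EL`).  `hit X F` is the number of prefixes (including the empty one and the
whole list) of `F` which are satisfied by some assignment of `X`.
-/

set_option autoImplicit false

open Crest.ProbabilityR.RandomSAT

namespace Crest.Agent.R153

/-- uniform average (0 for an empty type) -/
noncomputable def avg {α : Type*} [Fintype α] (f : α → ℝ) : ℝ :=
  (∑ a, f a) / (Fintype.card α : ℝ)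

/-- expectation over a list of `M` independent uniform elements of `α` -/
noncomputable def EL {α : Type*} [Fintype α] : ℕ → (List α → ℝ) → ℝ
  | 0, f => f []
  | M + 1, f => avg (fun c => EL M (fun F => f (c :: F)))

/-- assignments -/
abbrev Asg (n : ℕ) := Fin n → Bool

/-- the assignments of `X` satisfying the clause `c` -/
noncomputable def cut {k n : ℕ} (X : Finset (Asg n)) (c : Clause k n) : Finset (Asg n) :=
  haveI := Classical.decPred (fun σ : Asg n => ClauseSat σ c)
  X.filter (fun σ => ClauseSat σ c)

/-- the assignments of `X` satisfying all clauses of the list `E` -/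
noncomputable def cutL {k n : ℕ} (X : Finset (Asg n)) (E : List (Clause k n)) : Finset (Asg n) :=
  E.foldl cut X

/-- the assignments of `X` with `σ l.1 = l.2` (the literal `l` is true) -/
def cutLit {n : ℕ} (X : Finset (Asg n)) (l : Fin n × Bool) : Finset (Asg n) :=
  X.filter (fun σ => σ l.1 = l.2)

/-- `1` if `X` is nonempty, else `0` -/
noncomputable def ne {n : ℕ} (X : Finset (Asg n)) : ℝ := by
  classical exact if X.Nonempty then 1 else 0

/-- number of prefixes of `F` (from the empty one to `F` itself) satisfiable within `X` -/
noncomputable def hit {k n : ℕ} : Finset (Asg n) → List (Clause k n) → ℝ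
  | X, [] => ne X
  | X, c :: F => ne X + hit (cut X c) F

/-- frozen fraction: the proportion of literals `l` which are false on all of `X` -/
noncomputable def phi1 {n : ℕ} (X : Finset (Asg n)) : ℝ :=
  avg (fun l : Fin n × Bool => 1 - ne (cutLit X l))

/-- probability that a uniform `m`-clause kills `X` -/
noncomputable def phi (m : ℕ) {n : ℕ} (X : Finset (Asg n)) : ℝ :=
  avg (fun q : Clause m n => 1 - ne (cut X q))

/-- indicator that `X` is nonempty and its frozen fraction exceeds `ε` -/
noncomputable def frz (ε : ℝ) {n : ℕ} (X : Finset (Asg n)) : ℝ := by
  classical exact if X.Nonempty ∧ ε < phi1 X then 1 else 0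

/-- number of prefixes `F'` of `F` such that `X ∩ F'` is nonempty with frozen fraction `> ε` -/
noncomputable def Teps (ε : ℝ) {k n : ℕ} : Finset (Asg n) → List (Clause k n) → ℝ
  | X, [] => frz ε X
  | X, c :: F => frz ε X + Teps ε (cut X c) F

/-- first literal of a clause of positive length -/
def fstLit {m n : ℕ} (q : Clause (m + 1) n) : Fin n × Bool := (q.1.1 0, q.2 0)

/-- the quantity controlled by induction on `n`: second moment of the loss caused by a random
literal, in the process with `i` random `(j+2)`-clauses present at time `0` and `M` random
`(j+3)`-clauses. -/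
noncomputable def DD (j n i M : ℕ) : ℝ :=
  EL (α := Clause (j + 2) n) i (fun E => EL (α := Clause (j + 3) n) M (fun F =>
    avg (fun l : Fin n × Bool =>
      (hit (cutL Finset.univ E) F - hit (cutLit (cutL Finset.univ E) l) F) ^ 2)))

end Crest.Agent.R153
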