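import Crest.Agent.R153.Split

/-! Row 153 (S0217), task ELIM: deterministic elimination of a variable. -/

set_option autoImplicit false

open Crest.ProbabilityR.RandomSAT

namespace Crest.Agent.R153

variable {m n : ℕ}

/-- assignments `τ` of the other variables whose extension by `v = b` lies in `X` -/
def slice (v : Fin (n + 1)) (b : Bool) (X : Finset (Asg (n + 1))) : Finset (Asg n) :=
  Finset.univ.filter (fun τ : Asg n => v.insertNth b τ ∈ X)

/-- projection forgetting `v` -/
def proj (v : Fin (n + 1)) (X : Finset (Asg (n + 1))) : Finset (Asg n) :=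
  X.image (fun σ i => σ (v.succAbove i))

theorem mem_slice {v : Fin (n + 1)} {b : Bool} {X : Finset (Asg (n + 1))} {τ : Asg n} :
    τ ∈ slice v b X ↔ (v.insertNth b τ : Asg (n + 1)) ∈ X := by
  unfold slice
  simp

theorem mem_proj {v : Fin (n + 1)} {X : Finset (Asg (n + 1))} {τ : Asg n} :
    τ ∈ proj v X ↔ ∃ σ ∈ X, (fun i => σ (v.succAbove i)) = τ := by
  unfold proj
  simp

theorem mem_pureL {v : Fin (n + 1)} {E : List (Clause (m + 1) (n + 1))} {c : Clause (m + 1) n} :
    c ∈ pureL v E ↔ joinL v c ∈ E := by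
  unfold pureL
  rw [List.mem_filterMap]
  constructor
  · rintro ⟨d, hd, h⟩
    revert hd h
    refine cases_clause v (p := fun d => d ∈ E → (splitE v d).elim some (fun _ => none) = some c →
      joinL v c ∈ E) ?_ ?_ d
    · intro c' hc' h
      rw [splitE_joinL] at h
      simp only [Sum.elim_inl, Option.some.injEq] at h
      rwa [← h]
    · intro i s q _ h
      rw [splitE_joinR] at h
      simp at h
  · intro h
    exact ⟨joinL v c, h, by rw [splitE_joinL]; rfl⟩

theorem mem_redL {v : Fin (n + 1)} {b : Bool} {E : List (Clause (m + 1) (n + 1))}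
    {i : Fin (m + 1)} {s : Bool} {q : Clause m n} (hs : s ≠ b) (h : joinR v i s q ∈ E) :
    q ∈ redL v b E := by
  unfold redL
  rw [List.mem_filterMap]
  refine ⟨joinR v i s q, h, ?_⟩
  rw [splitE_joinR]
  simp [hs]

theorem slice_subset_proj (v : Fin (n + 1)) (b : Bool) (X : Finset (Asg (n + 1))) :
    slice v b X ⊆ proj v X := by
  intro τ hτ
  rw [mem_slice] at hτ
  rw [mem_proj]
  exact ⟨_, hτ, by funext i; simp⟩

theorem ne_le_proj (v : Fin (n + 1)) (X : Finset (Asg (n + 1))) (Y : Finset (Asg n))
    (hY : proj v X ⊆ Y) : ne X ≤ ne Y := by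
  by_cases hX : X.Nonempty
  · obtain ⟨σ, hσ⟩ := hX
    have : Y.Nonempty := ⟨_, hY (mem_proj.2 ⟨σ, hσ, rfl⟩)⟩
    rw [ne_of_nonempty this]
    exact ne_le_one X
  · rw [ne_eq_zero hX]
    exact ne_nonneg Y

theorem ne_slice_le (v : Fin (n + 1)) (b : Bool) (X : Finset (Asg (n + 1))) (Z : Finset (Asg n))
    (hZ : Z ⊆ slice v b X) : ne Z ≤ ne (cutLit X (v, b)) := by
  by_cases h : Z.Nonempty
  · obtain ⟨τ, hτ⟩ := h
    have h1 := mem_slice.1 (hZ hτ)
    have : (cutLit X (v, b)).Nonempty := ⟨_, mem_cutLit.2 ⟨h1, by simp⟩⟩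
    rw [ne_of_nonempty this]
    exact ne_le_one Z
  · rw [ne_eq_zero h]
    exact ne_nonneg _

theorem ne_sub_le_hit_sub {k : ℕ} {A Y : Finset (Asg n)} (h : A ⊆ Y) (P : List (Clause k n)) :
    ne Y - ne A ≤ hit Y P - hit A P := by
  by_cases hA : A.Nonempty
  · rw [ne_of_nonempty hA, ne_of_nonempty (hA.mono h)]
    have := hit_mono h P
    linarith
  · have hA' : A = ∅ := Finset.not_nonempty_iff_eq_empty.1 hA
    subst hA'
    rw [hit_empty, ne_empty]
    have := ne_le_hit Y P
    linarith

theorem cut_cutLit_joinR_eq (v : Fin (n + 1)) (b : Bool) (X : Finset (Asg (n + 1)))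
    (i : Fin (m + 1)) (q : Clause m n) :
    cutLit (cut X (joinR v i b q)) (v, b) = cutLit X (v, b) := by
  ext σ
  simp only [mem_cutLit, mem_cut, clauseSat_joinR]
  tauto

theorem loss_elim (v : Fin (n + 1)) (b : Bool) (X : Finset (Asg (n + 1)))
    (Y Z : Finset (Asg n)) (hY : proj v X ⊆ Y) (hZ : Z ⊆ slice v b X)
    (F : List (Clause (m + 1) (n + 1))) :
    hit X F - hit (cutLit X (v, b)) F ≤
      (1 + cnt v F) * (hit Y (pureL v F) - hit (cutL Z (redL v b F)) (pureL v F)) := by
  induction F generalizing X Y Z with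
  | nil =>
    have h1 := ne_le_proj v X Y hY
    have h2 := ne_slice_le v b X Z hZ
    show ne X - ne (cutLit X (v, b)) ≤ (1 + ((0 : ℕ) : ℝ)) * (ne Y - ne Z)
    push_cast
    linarith
  | cons c F ih =>
    have h1 := ne_le_proj v X Y hY
    have h2 := ne_slice_le v b X Z hZ
    have hZY : Z ⊆ Y := hZ.trans ((slice_subset_proj v b X).trans hY)
    have hcnt : (0 : ℝ) ≤ cnt v F := Nat.cast_nonneg _
    revert c
    refine cases_clause v ?_ ?_
    · intro c
      have ih' := ih (cut X (joinL v c)) (cut Y c) (cut Z c) (by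
          intro τ hτ
          obtain ⟨σ, hσ, rfl⟩ := mem_proj.1 hτ
          rw [mem_cut, clauseSat_joinL] at hσ
          exact mem_cut.2 ⟨hY (mem_proj.2 ⟨σ, hσ.1, rfl⟩), hσ.2⟩) (by
          intro τ hτ
          rw [mem_cut] at hτ
          have := mem_slice.1 (hZ hτ.1)
          refine mem_slice.2 (mem_cut.2 ⟨this, ?_⟩)
          rw [clauseSat_joinL]
          convert hτ.2 using 1
          funext i
          simp)
      rw [cnt_consL, pureL_consL, redL_consL]
      have e1 : hit X (joinL v c :: F) = ne X + hit (cut X (joinL v c)) F := rfl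
      have e2 : hit (cutLit X (v, b)) (joinL v c :: F) =
          ne (cutLit X (v, b)) + hit (cutLit (cut X (joinL v c)) (v, b)) F := by
        rw [cutLit_cut_comm]; rfl
      have e3 : hit Y (c :: pureL v F) = ne Y + hit (cut Y c) (pureL v F) := rfl
      have e4 : hit (cutL Z (redL v b F)) (c :: pureL v F) =
          ne (cutL Z (redL v b F)) + hit (cutL (cut Z c) (redL v b F)) (pureL v F) := by
        rw [cutL_cut_comm]; rfl
      rw [e1, e2, e3, e4]
      have h3 : ne (cutL Z (redL v b F)) ≤ ne Z := ne_mono (cutL_subset _ _)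
      have h4 : 0 ≤ (cnt v F : ℝ) * (ne Y - ne (cutL Z (redL v b F))) := by
        apply mul_nonneg hcnt
        have := ne_mono hZY
        linarith
      nlinarith
    · intro i s q
      by_cases hs : s = b
      · subst hs
        have ih' := ih (cut X (joinR v i s q)) Y Z (by
            intro τ hτ
            obtain ⟨σ, hσ, rfl⟩ := mem_proj.1 hτ
            rw [mem_cut] at hσ
            exact hY (mem_proj.2 ⟨σ, hσ.1, rfl⟩)) (by
            intro τ hτ
            have := mem_slice.1 (hZ hτ)
            refine mem_slice.2 (mem_cut.2 ⟨this, ?_⟩)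
            rw [clauseSat_joinR]
            left
            simp)
        rw [cnt_consR, pureL_consR, redL_consR_eq]
        have e1 : hit X (joinR v i s q :: F) = ne X + hit (cut X (joinR v i s q)) F := rfl
        have e2 : hit (cutLit X (v, s)) (joinR v i s q :: F) =
            ne (cutLit X (v, s)) + hit (cutLit (cut X (joinR v i s q)) (v, s)) F := by
          rw [cutLit_cut_comm]; rfl
        rw [e1, e2]
        have h3 : ne (cutL Z (redL v s F)) ≤ ne Z := ne_mono (cutL_subset _ _)
        have h5 := ne_sub_le_hit_sub ((cutL_subset Z (redL v s F)).trans hZY) (pureL v F)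
        push_cast
        linarith
      · have ih' := ih (cut X (joinR v i s q)) Y (cut Z q) (by
            intro τ hτ
            obtain ⟨σ, hσ, rfl⟩ := mem_proj.1 hτ
            rw [mem_cut] at hσ
            exact hY (mem_proj.2 ⟨σ, hσ.1, rfl⟩)) (by
            intro τ hτ
            rw [mem_cut] at hτ
            have := mem_slice.1 (hZ hτ.1)
            refine mem_slice.2 (mem_cut.2 ⟨this, ?_⟩)
            rw [clauseSat_joinR]
            right
            convert hτ.2 using 1
            funext i
            simp)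
        rw [cnt_consR, pureL_consR, redL_consR_ne v hs]
        have e1 : hit X (joinR v i s q :: F) = ne X + hit (cut X (joinR v i s q)) F := rfl
        have e2 : hit (cutLit X (v, b)) (joinR v i s q :: F) =
            ne (cutLit X (v, b)) + hit (cutLit (cut X (joinR v i s q)) (v, b)) F := by
          rw [cutLit_cut_comm]; rfl
        rw [e1, e2, cutL_cons]
        have hsub : cutL (cut Z q) (redL v b F) ⊆ Z :=
          (cutL_subset _ _).trans (cut_subset _ _)
        have h3 : ne (cutL (cut Z q) (redL v b F)) ≤ ne Z := ne_mono hsub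
        have h5 := ne_sub_le_hit_sub (hsub.trans hZY) (pureL v F)
        push_cast
        linarith

theorem proj_cutL (v : Fin (n + 1)) (E : List (Clause (m + 1) (n + 1))) :
    proj v (cutL Finset.univ E) ⊆ cutL Finset.univ (pureL v E) := by
  intro τ hτ
  obtain ⟨σ, hσ, rfl⟩ := mem_proj.1 hτ
  rw [mem_cutL] at hσ ⊢
  refine ⟨Finset.mem_univ _, fun c hc => ?_⟩
  have := hσ.2 _ (mem_pureL.1 hc)
  rwa [clauseSat_joinL] at this

theorem subset_slice_cutL (v : Fin (n + 1)) (b : Bool) (E : List (Clause (m + 1) (n + 1))) :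
    cutL (cutL Finset.univ (pureL v E)) (redL v b E) ⊆ slice v b (cutL Finset.univ E) := by
  intro τ hτ
  rw [mem_cutL, mem_cutL] at hτ
  obtain ⟨⟨_, hp⟩, hr⟩ := hτ
  rw [mem_slice, mem_cutL]
  refine ⟨Finset.mem_univ _, fun c hc => ?_⟩
  revert hc
  refine cases_clause v (p := fun c => c ∈ E → ClauseSat (v.insertNth b τ : Asg (n + 1)) c)
    ?_ ?_ c
  · intro c hc
    rw [clauseSat_joinL]
    convert hp c (mem_pureL.2 hc) using 1
    funext i
    simp
  · intro i s q hc
    rw [clauseSat_joinR]
    by_cases hs : s = b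
    · left; simp [hs]
    · right
      convert hr q (mem_redL hs hc) using 1
      funext i
      simp

end Crest.Agent.R153
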