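import Mathlib
import Crest.Prelude.Def_DilutedSpinGlass

/-!
Row 153, part C4: finite grid trials.

* `cell K x : Fin (K+1)` the grid cell of `x ∈ [0,1]` (cells of length `1/(K+1)`).
* `FinTrial`: depth `r`, rational exponents `m`, grid parameter `K` (`K+1` cells per level) and rational
  one-spin probabilities `q` (probability of `true`) attached to the `(K+1)^(r+1)` cells.
* `fPM`: nested power means with uniform averages over `L → Fin (K+1)`.
* `powerMeans_cells`: the nested power means of a function of the cells is `fPM`.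
* `integral_cells`: the integral of a function of the cells is the average over the cells.
-/

set_option autoImplicit false

open MeasureTheory Filter Topology Crest.ProbabilityR.Diluted

namespace Crest.Agent.R153

/-- The grid cell of a point of the unit interval (`K + 1` cells). -/
noncomputable def cell (K : ℕ) (x : unitInterval) : Fin (K + 1) :=
  ⟨min ⌊((K : ℝ) + 1) * (x : ℝ)⌋₊ K, Nat.lt_succ_of_le (min_le_right _ _)⟩

/-- Data of a rational finite trial. -/
structure FinTrial where
  /-- depth -/
  r : ℕ
  /-- exponents -/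
  m : Fin r → ℚ
  /-- grid parameter (`K + 1` cells per level) -/
  K : ℕ
  /-- probability of `true` under the message attached to the cell -/
  q : (Fin (r + 1) → Fin (K + 1)) → ℚ

/-- Admissible exponents and probabilities strictly between `0` and `1`. -/
def FinTrial.Valid (T : FinTrial) : Prop :=
  StrictMono T.m ∧ (∀ d, 0 < T.m d ∧ T.m d < 1) ∧ ∀ c, 0 < T.q c ∧ T.q c < 1

/-- The message with probability `q` of `true`. -/
noncomputable def msg (q : ℝ) : ℝ := (1 / 2) * Real.log (q / (1 - q))

/-- The trial law of a rational finite trial: the message is a function of the cells. -/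
noncomputable def FinTrial.X (T : FinTrial) (u : Fin (T.r + 1) → unitInterval) : ℝ :=
  msg (T.q (fun j => cell T.K (u j)))

/-- One power-mean step on the grid. -/
noncomputable def fpmStep {L : Type*} [Fintype L] [DecidableEq L] {r K : ℕ} (m : ℝ) (lvl : Fin (r + 1))
    (g : (L → Fin (r + 1) → Fin (K + 1)) → ℝ) (c : L → Fin (r + 1) → Fin (K + 1)) : ℝ :=
  ((((K : ℝ) + 1) ^ (Fintype.card L))⁻¹ *
    ∑ v : L → Fin (K + 1), (g (fun ω j => if j = lvl then v ω else c ω j)) ^ m) ^ (1 / m)

/-- Nested power means on the grid. -/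
noncomputable def fPM {L : Type*} [Fintype L] [DecidableEq L] {r K : ℕ} (m : Fin r → ℝ)
    (g : (L → Fin (r + 1) → Fin (K + 1)) → ℝ) : (L → Fin (r + 1) → Fin (K + 1)) → ℝ :=
  (List.finRange r).foldr (fun d acc => fpmStep (m d) d.succ acc) g

/-- The uniform average over all cell arrays. -/
noncomputable def cellAvg {L : Type*} [Fintype L] [DecidableEq L] {r K : ℕ}
    (F : (L → Fin (r + 1) → Fin (K + 1)) → ℝ) : ℝ :=
  ((((K : ℝ) + 1) ^ (r + 1)) ^ (Fintype.card L))⁻¹ * ∑ c : L → Fin (r + 1) → Fin (K + 1), F c

lemma tilt_msg_true {q : ℝ} (h0 : 0 < q) (h1 : q < 1) : tilt (msg q) true = q := by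
  have h1q : 0 < 1 - q := by linarith
  have hq : 0 < q / (1 - q) := by positivity
  unfold tilt msg spinVal
  rw [Real.cosh_eq]
  simp only [if_true, mul_one]
  have e1 : Real.exp (1 / 2 * Real.log (q / (1 - q))) =
      Real.sqrt (q / (1 - q)) := by
    rw [Real.sqrt_eq_rpow, Real.rpow_def_of_pos hq]; ring_nf
  have e2 : Real.exp (-(1 / 2 * Real.log (q / (1 - q)))) =
      (Real.sqrt (q / (1 - q)))⁻¹ := by
    rw [Real.exp_neg, e1]
  rw [e1, e2]
  have hs : 0 < Real.sqrt (q / (1 - q)) := Real.sqrt_pos.mpr hq
  have hs2 : Real.sqrt (q / (1 - q)) * Real.sqrt (q / (1 - q)) = q / (1 - q) :=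
    Real.mul_self_sqrt hq.le
  have h3 : Real.sqrt (q / (1 - q)) * Real.sqrt (q / (1 - q)) * (1 - q) = q := by
    rw [hs2]; field_simp
  set s := Real.sqrt (q / (1 - q)) with hsdef
  have : s / (2 * ((s + s⁻¹) / 2)) = s * s / (s * s + 1) := by
    field_simp
  rw [this, div_eq_iff (by positivity)]
  nlinarith [h3]

lemma tilt_add (x : ℝ) : tilt x true + tilt x false = 1 := by
  unfold tilt spinVal
  rw [Real.cosh_eq]
  have h1 := Real.exp_pos x
  have h2 := Real.exp_pos (-x)
  simp only [if_true, mul_one, Bool.false_eq_true, if_false, mul_neg]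
  rw [← add_div, div_eq_one_iff_eq (by positivity)]
  ring

lemma tilt_pos (x : ℝ) (s : Bool) : 0 < tilt x s := by
  unfold tilt
  have := Real.cosh_pos x
  positivity

lemma tilt_msg_false {q : ℝ} (h0 : 0 < q) (h1 : q < 1) : tilt (msg q) false = 1 - q := by
  have := tilt_add (msg q)
  rw [tilt_msg_true h0 h1] at this
  linarith

lemma msg_tilt (x : ℝ) : msg (tilt x true) = x := by
  have h1 : 1 - tilt x true = tilt x false := by linarith [tilt_add x]
  unfold msg
  rw [h1]
  unfold tilt spinVal
  have hc := (Real.cosh_pos x).ne'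
  simp only [if_true, mul_one, Bool.false_eq_true, if_false, mul_neg]
  rw [div_div_div_cancel_right₀ (by positivity), ← Real.exp_sub, Real.log_exp]
  ring

lemma measurable_cell (K : ℕ) : Measurable (cell K) := by
  have h1 : Measurable (fun x : unitInterval => ⌊((K : ℝ) + 1) * (x : ℝ)⌋₊) :=
    Nat.measurable_floor.comp (measurable_const.mul measurable_subtype_coe)
  have h2 : Measurable (fun n : ℕ => (⟨min n K, Nat.lt_succ_of_le (min_le_right _ _)⟩ :
    Fin (K + 1))) := measurable_from_top
  exact h2.comp h1

lemma volume_cell (K : ℕ) (i : Fin (K + 1)) :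
    (volume : Measure unitInterval) (cell K ⁻¹' {i}) = ENNReal.ofReal (((K : ℝ) + 1)⁻¹) := by
  have hK : (0 : ℝ) < (K : ℝ) + 1 := by positivity
  have hi : (i : ℝ) ≤ K := by exact_mod_cast Nat.lt_succ_iff.mp i.2
  have ha : (i : ℝ) / (K + 1) ∈ unitInterval :=
    ⟨by positivity, (div_le_one hK).mpr (by linarith)⟩
  rcases lt_or_eq_of_le (Nat.lt_succ_iff.mp i.2) with h | h
  · have hi' : (i : ℝ) + 1 ≤ K := by exact_mod_cast h
    have hb : ((i : ℝ) + 1) / (K + 1) ∈ unitInterval :=
      ⟨by positivity, (div_le_one hK).mpr (by linarith)⟩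
    have hset : cell K ⁻¹' {i} = Set.Ico (⟨(i : ℝ) / (K + 1), ha⟩ : unitInterval)
        ⟨((i : ℝ) + 1) / (K + 1), hb⟩ := by
      ext x
      have hx0 : (0 : ℝ) ≤ ((K : ℝ) + 1) * (x : ℝ) := mul_nonneg hK.le x.2.1
      simp only [Set.mem_preimage, Set.mem_singleton_iff, cell, Fin.ext_iff, Set.mem_Ico,
        ← Subtype.coe_le_coe, ← Subtype.coe_lt_coe]
      rw [div_le_iff₀ hK, lt_div_iff₀ hK]
      have : min ⌊((K : ℝ) + 1) * (x : ℝ)⌋₊ K = (i : ℕ) ↔ ⌊((K : ℝ) + 1) * (x : ℝ)⌋₊ = (i : ℕ) := by
        constructor
        · intro h'; rcases min_choice ⌊((K : ℝ) + 1) * (x : ℝ)⌋₊ K with h2 | h2 <;> omega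
        · intro h'; rw [h']; exact min_eq_left h.le
      rw [this, Nat.floor_eq_iff hx0]
      constructor <;> rintro ⟨h1, h2⟩ <;> constructor <;> linarith
    rw [hset, unitInterval.volume_Ico]
    congr 1
    field_simp
    ring
  · have hiK : (i : ℝ) = K := by exact_mod_cast h
    have hset : cell K ⁻¹' {i} = Set.Ici (⟨(i : ℝ) / (K + 1), ha⟩ : unitInterval) := by
      ext x
      have hx0 : (0 : ℝ) ≤ ((K : ℝ) + 1) * (x : ℝ) := mul_nonneg hK.le x.2.1
      simp only [Set.mem_preimage, Set.mem_singleton_iff, cell, Fin.ext_iff, Set.mem_Ici,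
        ← Subtype.coe_le_coe]
      rw [div_le_iff₀ hK, h, min_eq_right_iff, Nat.le_floor_iff hx0, mul_comm]
    rw [hset, unitInterval.volume_Ici]
    congr 1
    simp only
    rw [hiK]
    field_simp
    ring

/-- The law of the cells of finitely many independent uniforms. -/
lemma integral_cell {ι : Type*} [Fintype ι] [DecidableEq ι] (K : ℕ) (f : (ι → Fin (K + 1)) → ℝ) :
    ∫ v : ι → unitInterval, f (fun ω => cell K (v ω))
      ∂(Measure.pi fun _ : ι => (volume : Measure unitInterval)) =
    (((K : ℝ) + 1) ^ (Fintype.card ι))⁻¹ * ∑ v : ι → Fin (K + 1), f v := by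
  have hmeas : Measurable (fun (v : ι → unitInterval) (ω : ι) => cell K (v ω)) :=
    measurable_pi_lambda _ fun ω => (measurable_cell K).comp (measurable_pi_apply ω)
  have hf : Measurable f := measurable_of_finite f
  have h1 := integral_map (μ := Measure.pi fun _ : ι => (volume : Measure unitInterval))
    hmeas.aemeasurable (f := f) hf.aestronglyMeasurable
  rw [← h1]
  have : IsProbabilityMeasure (Measure.map (fun (v : ι → unitInterval) (ω : ι) => cell K (v ω))
    (Measure.pi fun _ : ι => (volume : Measure unitInterval))) :=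
    Measure.isProbabilityMeasure_map hmeas.aemeasurable
  rw [integral_fintype (Integrable.of_finite), Finset.mul_sum]
  refine Finset.sum_congr rfl fun c _ => ?_
  rw [smul_eq_mul]
  congr 1
  rw [Measure.real, Measure.map_apply hmeas (MeasurableSet.singleton c)]
  have hpre : (fun (v : ι → unitInterval) (ω : ι) => cell K (v ω)) ⁻¹' {c} =
      Set.univ.pi fun ω => cell K ⁻¹' {c ω} := by
    ext v
    simp [funext_iff]
  rw [hpre, Measure.pi_pi]
  simp only [volume_cell, Finset.prod_const, Finset.card_univ]
  rw [ENNReal.toReal_pow, ENNReal.toReal_ofReal (by positivity), inv_pow]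

/-- The cells of an array. -/
noncomputable def cells {L : Type*} {r : ℕ} (K : ℕ) (u : L → Fin (r + 1) → unitInterval) :
    L → Fin (r + 1) → Fin (K + 1) := fun ω j => cell K (u ω j)

lemma measurable_cells {L : Type*} {r : ℕ} (K : ℕ) : Measurable (cells (L := L) (r := r) K) :=
  measurable_pi_lambda _ fun ω => measurable_pi_lambda _ fun j =>
    (measurable_cell K).comp ((measurable_pi_apply j).comp (measurable_pi_apply ω))

lemma pmStep_cells {L : Type*} [Fintype L] [DecidableEq L] {r K : ℕ} (m : ℝ) (lvl : Fin (r + 1))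
    (g : (L → Fin (r + 1) → Fin (K + 1)) → ℝ) (u : L → Fin (r + 1) → unitInterval) :
    pmStep m lvl (fun u' => g (cells K u')) u = fpmStep m lvl g (cells K u) := by
  unfold pmStep fpmStep
  congr 1
  rw [← integral_cell (ι := L) K
    (fun v => (g (fun ω j => if j = lvl then v ω else cells K u ω j)) ^ m)]
  refine integral_congr_ae (ae_of_all _ fun v => ?_)
  simp only
  congr 2
  funext ω j
  unfold cells
  by_cases h : j = lvl <;> simp [h]

/-- Nested power means of a function of the cells. -/
theorem powerMeans_cells {L : Type*} [Fintype L] [DecidableEq L] {r K : ℕ} (m : Fin r → ℝ)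
    (g : (L → Fin (r + 1) → Fin (K + 1)) → ℝ) (u : L → Fin (r + 1) → unitInterval) :
    powerMeans m (fun u' => g (cells K u')) u = fPM m g (cells K u) := by
  unfold powerMeans fPM
  have key : ∀ ds : List (Fin r),
      ds.foldr (fun d acc => pmStep (m d) d.succ acc) (fun u' => g (cells K u')) =
      fun u' => ds.foldr (fun d acc => fpmStep (m d) d.succ acc) g (cells K u') := by
    intro ds
    induction ds with
    | nil => rfl
    | cons d ds ih =>
      simp only [List.foldr_cons]
      rw [ih]
      funext u'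
      exact pmStep_cells (m d) d.succ _ u'
  rw [key]

/-- Integral of a function of the cells of an array. -/
theorem integral_cells {L : Type*} [Fintype L] [DecidableEq L] {r K : ℕ}
    (F : (L → Fin (r + 1) → Fin (K + 1)) → ℝ) :
    ∫ u, F (cells K u) ∂(uniformArrays L r) = cellAvg F := by
  have hmeas := measurable_cells (L := L) (r := r) K
  have hF : Measurable F := measurable_of_finite F
  have h1 := integral_map (μ := uniformArrays L r) hmeas.aemeasurable (f := F)
    hF.aestronglyMeasurable
  rw [← h1]
  have : IsProbabilityMeasure (uniformArrays L r) := by unfold uniformArrays; infer_instance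
  have : IsProbabilityMeasure (Measure.map (cells (L := L) (r := r) K) (uniformArrays L r)) :=
    Measure.isProbabilityMeasure_map hmeas.aemeasurable
  unfold cellAvg
  rw [integral_fintype (Integrable.of_finite), Finset.mul_sum]
  refine Finset.sum_congr rfl fun c _ => ?_
  rw [smul_eq_mul]
  congr 1
  rw [Measure.real, Measure.map_apply hmeas (MeasurableSet.singleton c)]
  have hpre : (cells (L := L) (r := r) K) ⁻¹' {c} =
      Set.univ.pi fun ω => Set.univ.pi fun j => cell K ⁻¹' {c ω j} := by
    ext v
    simp [funext_iff, cells]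
  rw [hpre]
  unfold uniformArrays
  rw [Measure.pi_pi]
  simp only [Measure.pi_pi, volume_cell, Finset.prod_const, Finset.card_univ, Fintype.card_fin]
  rw [ENNReal.toReal_pow, ENNReal.toReal_pow, ENNReal.toReal_ofReal (by positivity), inv_pow,
    inv_pow]

end Crest.Agent.R153
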