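import Mathlib
import Crest.Agent.R153.FinApproxDefs

/-!
Row 153, part C4: every measurable `(0,1)`-valued function on the cube is an a.e. limit of rational
`(0,1)`-valued functions of the grid cells.
-/

set_option autoImplicit false

open MeasureTheory Filter Topology Crest.ProbabilityR.Diluted

namespace Crest.Agent.R153

/-- A bounded measurable function on a finite-measure compact metric space is an a.e. limit of
continuous functions. -/
lemma exists_continuous_tendsto_ae {X : Type*} [MetricSpace X] [MeasurableSpace X] [BorelSpace X]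
    (μ : Measure X) [IsFiniteMeasure μ] [μ.WeaklyRegular] (f : X → ℝ) (hf : Integrable f μ) :
    ∃ g : ℕ → X → ℝ, (∀ n, Continuous (g n)) ∧
      ∀ᵐ x ∂μ, Tendsto (fun n => g n x) atTop (𝓝 (f x)) := by
  have h2 : ∀ n : ℕ, ((1 : ENNReal) / 2) ^ n ≠ 0 := fun n => by
    simp
  choose g hg hgi using fun n => hf.exists_boundedContinuous_lintegral_sub_le (h2 n)
  refine ⟨fun n => g n, fun n => (g n).continuous, ?_⟩
  have hmeas : ∀ n, AEMeasurable (fun x => ‖f x - g n x‖ₑ) μ := fun n =>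
    (hf.aestronglyMeasurable.sub (hgi n).aestronglyMeasurable).enorm
  have hsum : ∫⁻ x, ∑' n, ‖f x - g n x‖ₑ ∂μ ≠ ⊤ := by
    rw [lintegral_tsum hmeas]
    refine ne_top_of_le_ne_top ?_ (ENNReal.tsum_le_tsum hg)
    rw [ENNReal.tsum_geometric]
    have : (1 : ENNReal) - 1 / 2 ≠ 0 := by
      rw [one_div, ENNReal.one_sub_inv_two]; simp
    exact ENNReal.inv_ne_top.mpr this
  have hae : ∀ᵐ x ∂μ, ∑' n, ‖f x - g n x‖ₑ < ⊤ :=
    ae_lt_top' (AEMeasurable.tsum hmeas) hsum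
  filter_upwards [hae] with x hx
  have h0 := ENNReal.tendsto_atTop_zero_of_tsum_ne_top hx.ne
  rw [tendsto_iff_edist_tendsto_0]
  refine h0.congr fun n => ?_
  rw [edist_comm, edist_eq_enorm_sub]

/-- A grid point of the cell. -/
noncomputable def gpt (K : ℕ) (i : Fin (K + 1)) : unitInterval :=
  ⟨(i : ℝ) / ((K : ℝ) + 1), by
    have hi : (i : ℝ) ≤ K := by exact_mod_cast Nat.lt_succ_iff.mp i.2
    have hK : (0 : ℝ) < (K : ℝ) + 1 := by positivity
    exact ⟨by positivity, (div_le_one hK).mpr (by linarith)⟩⟩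

lemma dist_gpt_cell (K : ℕ) (x : unitInterval) :
    dist x (gpt K (cell K x)) ≤ 1 / ((K : ℝ) + 1) := by
  have hK : (0 : ℝ) < (K : ℝ) + 1 := by positivity
  have hx0 : (0 : ℝ) ≤ ((K : ℝ) + 1) * (x : ℝ) := mul_nonneg hK.le x.2.1
  have hx1 : (x : ℝ) ≤ 1 := x.2.2
  rw [Subtype.dist_eq, Real.dist_eq]
  simp only [gpt, cell]
  have h1 : (⌊((K : ℝ) + 1) * (x : ℝ)⌋₊ : ℝ) ≤ ((K : ℝ) + 1) * (x : ℝ) := Nat.floor_le hx0
  have h2 : ((K : ℝ) + 1) * (x : ℝ) < (⌊((K : ℝ) + 1) * (x : ℝ)⌋₊ : ℝ) + 1 := Nat.lt_floor_add_one _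
  set F : ℕ := ⌊((K : ℝ) + 1) * (x : ℝ)⌋₊ with hF
  have h3 : ((min F K : ℕ) : ℝ) ≤ ((K : ℝ) + 1) * (x : ℝ) :=
    le_trans (by exact_mod_cast min_le_left _ _) h1
  have h4 : ((K : ℝ) + 1) * (x : ℝ) ≤ ((min F K : ℕ) : ℝ) + 1 := by
    rcases min_choice F K with h | h
    · rw [h]; exact h2.le
    · rw [h]; nlinarith
  rw [abs_le]
  constructor
  · rw [neg_le_sub_iff_le_add, div_le_iff₀ hK, add_mul, one_div, inv_mul_cancel₀ hK.ne']
    linarith
  · rw [sub_le_iff_le_add, ← add_div, le_div_iff₀ hK]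
    linarith

/-- The clamp to `[1/(n+3), 1 - 1/(n+3)]`. -/
noncomputable def clampN (n : ℕ) (x : ℝ) : ℝ := max (1 / ((n : ℝ) + 3)) (min x (1 - 1 / ((n : ℝ) + 3)))

lemma clampN_lip (n : ℕ) (x y : ℝ) : |clampN n x - clampN n y| ≤ |x - y| := by
  unfold clampN
  rw [max_comm _ (min x _), max_comm _ (min y _)]
  refine (abs_max_sub_max_le_abs _ _ _).trans ?_
  exact (abs_min_sub_min_le_max _ _ _ _).trans (by simp)

lemma clampN_ge (n : ℕ) (x : ℝ) : 1 / ((n : ℝ) + 3) ≤ clampN n x := le_max_left _ _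

lemma clampN_le (n : ℕ) (x : ℝ) : clampN n x ≤ 1 - 1 / ((n : ℝ) + 3) := by
  unfold clampN
  refine max_le ?_ (min_le_right _ _)
  have h3 : (3 : ℝ) ≤ (n : ℝ) + 3 := by have := Nat.cast_nonneg (α := ℝ) n; linarith
  have : 1 / ((n : ℝ) + 3) ≤ 1 / 3 := one_div_le_one_div_of_le (by norm_num) h3
  linarith

lemma tendsto_one_div_add (c : ℝ) : Tendsto (fun n : ℕ => 1 / ((n : ℝ) + c)) atTop (𝓝 0) := by
  have h : Tendsto (fun n : ℕ => (n : ℝ) + c) atTop atTop :=
    tendsto_atTop_add_const_right _ _ tendsto_natCast_atTop_atTop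
  refine h.inv_tendsto_atTop.congr fun n => ?_
  simp [one_div]

lemma clampN_eq_eventually {x : ℝ} (h0 : 0 < x) (h1 : x < 1) :
    ∀ᶠ n : ℕ in atTop, clampN n x = x := by
  have ht := tendsto_one_div_add 3
  have e1 : ∀ᶠ n : ℕ in atTop, 1 / ((n : ℝ) + 3) < x := ht.eventually_lt_const h0
  have e2 : ∀ᶠ n : ℕ in atTop, 1 / ((n : ℝ) + 3) < 1 - x := ht.eventually_lt_const (by linarith)
  filter_upwards [e1, e2] with n hn1 hn2
  unfold clampN
  rw [min_eq_left (by linarith), max_eq_right hn1.le]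

/-- A.e. rational grid approximation of a `(0,1)`-valued measurable function. -/
theorem exists_grid_tendsto_ae {r : ℕ} (Q : (Fin (r + 1) → unitInterval) → ℝ) (hQ : Measurable Q)
    (h0 : ∀ u, 0 < Q u) (h1 : ∀ u, Q u < 1) :
    ∃ (K : ℕ → ℕ) (q : (n : ℕ) → (Fin (r + 1) → Fin (K n + 1)) → ℚ),
      (∀ n c, 0 < q n c ∧ q n c < 1) ∧
      ∀ᵐ u ∂(Measure.pi fun _ : Fin (r + 1) => (volume : Measure unitInterval)),
        Tendsto (fun n => ((q n (fun j => cell (K n) (u j)) : ℚ) : ℝ)) atTop (𝓝 (Q u)) := by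
  set μ : Measure (Fin (r + 1) → unitInterval) :=
    Measure.pi fun _ : Fin (r + 1) => (volume : Measure unitInterval) with hμ
  have hint : Integrable Q μ := by
    refine Integrable.of_bound hQ.aestronglyMeasurable 1 (ae_of_all _ fun u => ?_)
    rw [Real.norm_eq_abs, abs_of_pos (h0 u)]
    exact (h1 u).le
  obtain ⟨g, hgc, hg⟩ := exists_continuous_tendsto_ae μ Q hint
  have hunif : ∀ n : ℕ, ∃ K : ℕ, ∀ u v : Fin (r + 1) → unitInterval,
      dist u v ≤ 1 / ((K : ℝ) + 1) → |g n u - g n v| < 1 / ((n : ℝ) + 1) := by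
    intro n
    have huc := CompactSpace.uniformContinuous_of_continuous (hgc n)
    obtain ⟨δ, hδ, hδ'⟩ := Metric.uniformContinuous_iff.mp huc (1 / ((n : ℝ) + 1)) (by positivity)
    obtain ⟨K, hK⟩ := exists_nat_one_div_lt hδ
    exact ⟨K, fun u v huv => by
      have := hδ' (lt_of_le_of_lt huv hK)
      rwa [Real.dist_eq] at this⟩
  choose K hK using hunif
  have hrat : ∀ (n : ℕ) (c : Fin (r + 1) → Fin (K n + 1)), ∃ q : ℚ,
      (0 < q ∧ q < 1) ∧ |(q : ℝ) - clampN n (g n (fun j => gpt (K n) (c j)))| < 1 / ((n : ℝ) + 3) := by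
    intro n c
    set y := clampN n (g n (fun j => gpt (K n) (c j)))
    have hpos : (0 : ℝ) < 1 / ((n : ℝ) + 3) := by positivity
    obtain ⟨q, hq1, hq2⟩ := exists_rat_btwn (show y - 1 / ((n : ℝ) + 3) < y + 1 / ((n : ℝ) + 3) by
      linarith)
    have hy1 : 1 / ((n : ℝ) + 3) ≤ y := clampN_ge _ _
    have hy2 : y ≤ 1 - 1 / ((n : ℝ) + 3) := clampN_le _ _
    refine ⟨q, ⟨?_, ?_⟩, ?_⟩
    · have : (0 : ℝ) < q := by linarith
      exact_mod_cast this
    · have : (q : ℝ) < 1 := by linarith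
      exact_mod_cast this
    · rw [abs_lt]; constructor <;> linarith
  choose q hq01 hq using hrat
  refine ⟨K, q, hq01, ?_⟩
  filter_upwards [hg] with u hu
  rw [tendsto_iff_dist_tendsto_zero]
  have hb : Tendsto (fun n : ℕ => 1 / ((n : ℝ) + 3) + 1 / ((n : ℝ) + 1) + |g n u - Q u|)
      atTop (𝓝 0) := by
    have := ((tendsto_one_div_add 3).add (tendsto_one_div_add 1)).add
      ((tendsto_iff_dist_tendsto_zero.mp hu))
    simpa [Real.dist_eq] using this
  refine squeeze_zero' (Eventually.of_forall fun n => dist_nonneg) ?_ hb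
  filter_upwards [clampN_eq_eventually (h0 u) (h1 u)] with n hn
  rw [Real.dist_eq]
  set c : Fin (r + 1) → Fin (K n + 1) := fun j => cell (K n) (u j)
  have a1 := hq n c
  have hd : dist u (fun j => gpt (K n) (c j)) ≤ 1 / ((K n : ℝ) + 1) := by
    refine (dist_pi_le_iff (by positivity)).mpr fun j => ?_
    exact dist_gpt_cell (K n) (u j)
  have a2 := (clampN_lip n (g n (fun j => gpt (K n) (c j))) (g n u))
  have a3 := hK n u _ hd
  rw [abs_sub_comm] at a3
  have a4 := clampN_lip n (g n u) (Q u)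
  rw [hn] at a4
  have t1 : |(q n c : ℝ) - Q u| ≤ |(q n c : ℝ) - clampN n (g n (fun j => gpt (K n) (c j)))| +
      |clampN n (g n (fun j => gpt (K n) (c j))) - clampN n (g n u)| + |clampN n (g n u) - Q u| := by
    have := abs_sub_le (q n c : ℝ) (clampN n (g n (fun j => gpt (K n) (c j)))) (Q u)
    have := abs_sub_le (clampN n (g n (fun j => gpt (K n) (c j)))) (clampN n (g n u)) (Q u)
    linarith
  linarith

end Crest.Agent.R153
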