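import Mathlib
import Crest.Prelude.Def_DilutedSpinGlass

/-!
Row 153, part C4: continuity of the nested power means in the exponents and in the integrand
(almost everywhere convergence of uniformly bounded, uniformly positive integrands).
-/

set_option autoImplicit false

open MeasureTheory Filter Topology Crest.ProbabilityR.Diluted

namespace Crest.Agent.R153

/-- Replace the level-`lvl` coordinate of one label. -/
def rep1 {r : ℕ} (lvl : Fin (r + 1)) (p : (Fin (r + 1) → unitInterval) × unitInterval) :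
    Fin (r + 1) → unitInterval := fun j => if j = lvl then p.2 else p.1 j

lemma measurable_rep1 {r : ℕ} (lvl : Fin (r + 1)) : Measurable (rep1 lvl) := by
  refine measurable_pi_lambda _ fun j => ?_
  by_cases h : j = lvl
  · simp only [rep1, h, if_true]; exact measurable_snd
  · simp only [rep1, h, if_false]; exact (measurable_pi_apply j).comp measurable_fst

lemma measurePreserving_rep1 {r : ℕ} (lvl : Fin (r + 1)) :
    MeasurePreserving (rep1 lvl)
      ((Measure.pi fun _ : Fin (r + 1) => (volume : Measure unitInterval)).prod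
        (volume : Measure unitInterval))
      (Measure.pi fun _ : Fin (r + 1) => (volume : Measure unitInterval)) := by
  refine ⟨measurable_rep1 lvl, ?_⟩
  symm
  refine Measure.pi_eq fun s hs => ?_
  rw [Measure.map_apply (measurable_rep1 lvl) (MeasurableSet.univ_pi hs)]
  have hpre : rep1 lvl ⁻¹' (Set.univ.pi s) =
      (Set.univ.pi fun j => if j = lvl then Set.univ else s j) ×ˢ s lvl := by
    ext ⟨x, y⟩
    simp only [Set.mem_preimage, Set.mem_univ_pi, rep1, Set.mem_prod]
    constructor
    · intro h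
      refine ⟨fun j => ?_, by simpa using h lvl⟩
      by_cases hj : j = lvl
      · simp [hj]
      · simpa [hj] using h j
    · rintro ⟨h1, h2⟩ j
      by_cases hj : j = lvl
      · subst hj; simpa using h2
      · simpa [hj] using h1 j
  rw [hpre, Measure.prod_prod, Measure.pi_pi]
  rw [← Finset.mul_prod_erase Finset.univ (fun j => volume (s j)) (Finset.mem_univ lvl),
    ← Finset.mul_prod_erase Finset.univ
      (fun j => volume (if j = lvl then Set.univ else s j)) (Finset.mem_univ lvl)]
  simp only [if_true, measure_univ, one_mul]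
  rw [mul_comm]
  congr 1
  refine Finset.prod_congr rfl fun j hj => ?_
  rw [if_neg (Finset.ne_of_mem_erase hj)]

/-- Replace the level-`lvl` coordinates of all labels. -/
def rep {L : Type*} {r : ℕ} (lvl : Fin (r + 1))
    (p : (L → Fin (r + 1) → unitInterval) × (L → unitInterval)) :
    L → Fin (r + 1) → unitInterval := fun ω j => if j = lvl then p.2 ω else p.1 ω j

lemma measurable_rep {L : Type*} {r : ℕ} (lvl : Fin (r + 1)) : Measurable (rep (L := L) lvl) := by
  refine measurable_pi_lambda _ fun ω => measurable_pi_lambda _ fun j => ?_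
  by_cases h : j = lvl
  · simp only [rep, h, if_true]; exact (measurable_pi_apply ω).comp measurable_snd
  · simp only [rep, h, if_false]
    exact (measurable_pi_apply j).comp ((measurable_pi_apply ω).comp measurable_fst)

lemma measurePreserving_rep {L : Type*} [Fintype L] {r : ℕ} (lvl : Fin (r + 1)) :
    MeasurePreserving (rep (L := L) lvl)
      ((uniformArrays L r).prod (Measure.pi fun _ : L => (volume : Measure unitInterval)))
      (uniformArrays L r) := by
  have h1 := (measurePreserving_arrowProdEquivProdArrow (Fin (r + 1) → unitInterval)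
    unitInterval L
    (fun _ => Measure.pi fun _ : Fin (r + 1) => (volume : Measure unitInterval))
    (fun _ => (volume : Measure unitInterval))).symm
  have h2 := measurePreserving_pi
    (fun _ : L => ((Measure.pi fun _ : Fin (r + 1) => (volume : Measure unitInterval)).prod
        (volume : Measure unitInterval)))
    (fun _ : L => (Measure.pi fun _ : Fin (r + 1) => (volume : Measure unitInterval)))
    (fun _ => measurePreserving_rep1 lvl)
  exact h2.comp h1

instance {L : Type*} [Fintype L] {r : ℕ} : IsProbabilityMeasure (uniformArrays L r) := by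
  unfold uniformArrays; infer_instance

/-- Almost every property of arrays holds almost surely after resampling one level. -/
lemma ae_rep {L : Type*} [Fintype L] {r : ℕ} (lvl : Fin (r + 1))
    {P : (L → Fin (r + 1) → unitInterval) → Prop} (h : ∀ᵐ u ∂(uniformArrays L r), P u) :
    ∀ᵐ u ∂(uniformArrays L r),
      ∀ᵐ v ∂(Measure.pi fun _ : L => (volume : Measure unitInterval)), P (rep lvl (u, v)) := by
  have h1 := (measurePreserving_rep (L := L) lvl).quasiMeasurePreserving.ae h
  exact Measure.ae_ae_of_ae_prod h1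

lemma pmStep_eq {L : Type*} [Fintype L] {r : ℕ} (m : ℝ) (lvl : Fin (r + 1))
    (W : (L → Fin (r + 1) → unitInterval) → ℝ) (u : L → Fin (r + 1) → unitInterval) :
    pmStep m lvl W u = (∫ v, (W (rep lvl (u, v))) ^ m
      ∂(Measure.pi fun _ : L => (volume : Measure unitInterval))) ^ (1 / m) := rfl

lemma measurable_pmStep {L : Type*} [Fintype L] {r : ℕ} (m : ℝ) (lvl : Fin (r + 1))
    {W : (L → Fin (r + 1) → unitInterval) → ℝ} (hW : Measurable W) :
    Measurable (pmStep m lvl W) := by
  have h1 : Measurable (fun p : (L → Fin (r + 1) → unitInterval) × (L → unitInterval) =>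
      (W (rep lvl p)) ^ m) := (hW.comp (measurable_rep lvl)).pow_const m
  have h2 : Measurable (fun u : L → Fin (r + 1) → unitInterval =>
      ∫ v, (W (rep lvl (u, v))) ^ m
        ∂(Measure.pi fun _ : L => (volume : Measure unitInterval))) :=
    (h1.stronglyMeasurable.integral_prod_right (ν := Measure.pi fun _ : L =>
      (volume : Measure unitInterval))).measurable
  exact h2.pow_const (1 / m)

lemma rpow_bounds {a b x m : ℝ} (ha : 0 < a) (h1 : a ≤ x) (h2 : x ≤ b) (hm : 0 < m) :
    a ^ m ≤ x ^ m ∧ x ^ m ≤ b ^ m :=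
  ⟨Real.rpow_le_rpow ha.le h1 hm.le, Real.rpow_le_rpow (ha.le.trans h1) h2 hm.le⟩

lemma integrable_rpow {L : Type*} [Fintype L] {r : ℕ} {m : ℝ} (hm : 0 < m) (lvl : Fin (r + 1))
    {W : (L → Fin (r + 1) → unitInterval) → ℝ} (hW : Measurable W) {a b : ℝ} (ha : 0 < a)
    (hab : ∀ u, a ≤ W u ∧ W u ≤ b) (u : L → Fin (r + 1) → unitInterval) :
    Integrable (fun v => (W (rep lvl (u, v))) ^ m)
      (Measure.pi fun _ : L => (volume : Measure unitInterval)) := by
  refine Integrable.of_bound (C := b ^ m) ?_ ?_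
  · exact ((hW.comp ((measurable_rep lvl).comp measurable_prodMk_left)).pow_const m).aestronglyMeasurable
  · refine ae_of_all _ fun v => ?_
    obtain ⟨h1, h2⟩ := rpow_bounds ha (hab (rep lvl (u, v))).1 (hab (rep lvl (u, v))).2 hm
    rw [Real.norm_of_nonneg (le_trans (Real.rpow_nonneg ha.le _) h1)]
    exact h2

lemma pmStep_bounds {L : Type*} [Fintype L] {r : ℕ} {m : ℝ} (hm : 0 < m) (lvl : Fin (r + 1))
    {W : (L → Fin (r + 1) → unitInterval) → ℝ} (hW : Measurable W) {a b : ℝ} (ha : 0 < a)
    (hab : ∀ u, a ≤ W u ∧ W u ≤ b) (u : L → Fin (r + 1) → unitInterval) :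
    a ≤ pmStep m lvl W u ∧ pmStep m lvl W u ≤ b := by
  have hint := integrable_rpow hm lvl hW ha hab u
  have hb : 0 < b := ha.trans_le ((hab u).1.trans (hab u).2)
  have h1 : a ^ m ≤ ∫ v, (W (rep lvl (u, v))) ^ m
      ∂(Measure.pi fun _ : L => (volume : Measure unitInterval)) := by
    have := integral_mono (μ := Measure.pi fun _ : L => (volume : Measure unitInterval))
      (integrable_const (a ^ m)) hint
      (fun v => (rpow_bounds ha (hab (rep lvl (u, v))).1 (hab (rep lvl (u, v))).2 hm).1)
    simpa using this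
  have h2 : ∫ v, (W (rep lvl (u, v))) ^ m
      ∂(Measure.pi fun _ : L => (volume : Measure unitInterval)) ≤ b ^ m := by
    have := integral_mono (μ := Measure.pi fun _ : L => (volume : Measure unitInterval)) hint
      (integrable_const (b ^ m))
      (fun v => (rpow_bounds ha (hab (rep lvl (u, v))).1 (hab (rep lvl (u, v))).2 hm).2)
    simpa using this
  have ham : 0 < a ^ m := Real.rpow_pos_of_pos ha m
  rw [pmStep_eq]
  constructor
  · calc a = (a ^ m) ^ (1 / m) := by
          rw [← Real.rpow_mul ha.le, mul_one_div_cancel hm.ne', Real.rpow_one]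
      _ ≤ _ := Real.rpow_le_rpow ham.le h1 (by positivity)
  · calc _ ≤ (b ^ m) ^ (1 / m) := Real.rpow_le_rpow (ham.le.trans h1) h2 (by positivity)
      _ = b := by rw [← Real.rpow_mul hb.le, mul_one_div_cancel hm.ne', Real.rpow_one]

/-- Continuity of one power-mean step. -/
lemma tendsto_pmStep {L : Type*} [Fintype L] {r : ℕ} {ι : Type*} {l : Filter ι}
    [l.IsCountablyGenerated] {m : ℝ} (hm : 0 < m) {mn : ι → ℝ} (hmn : Tendsto mn l (𝓝 m))
    (lvl : Fin (r + 1)) {W : (L → Fin (r + 1) → unitInterval) → ℝ}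
    {Wn : ι → (L → Fin (r + 1) → unitInterval) → ℝ} (hWn : ∀ n, Measurable (Wn n))
    {a b : ℝ} (ha : 0 < a) (hab : ∀ u, a ≤ W u ∧ W u ≤ b)
    (habn : ∀ n u, a ≤ Wn n u ∧ Wn n u ≤ b)
    (hlim : ∀ᵐ u ∂(uniformArrays L r), Tendsto (fun n => Wn n u) l (𝓝 (W u))) (hW : Measurable W) :
    ∀ᵐ u ∂(uniformArrays L r),
      Tendsto (fun n => pmStep (mn n) lvl (Wn n) u) l (𝓝 (pmStep m lvl W u)) := by
  filter_upwards [ae_rep lvl hlim] with u hu
  have hb : 0 < b := ha.trans_le ((hab u).1.trans (hab u).2)
  have hev : ∀ᶠ n in l, m / 2 < mn n ∧ mn n < 2 * m :=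
    (hmn.eventually (lt_mem_nhds (by linarith : m / 2 < m))).and
      (hmn.eventually (gt_mem_nhds (by linarith : m < 2 * m)))
  have hI : Tendsto (fun n => ∫ v, (Wn n (rep lvl (u, v))) ^ (mn n)
      ∂(Measure.pi fun _ : L => (volume : Measure unitInterval))) l
      (𝓝 (∫ v, (W (rep lvl (u, v))) ^ m
        ∂(Measure.pi fun _ : L => (volume : Measure unitInterval)))) := by
    refine tendsto_integral_filter_of_dominated_convergence (fun _ => (max 1 b) ^ (2 * m)) ?_ ?_ ?_ ?_
    · refine Eventually.of_forall fun n => ?_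
      exact (((hWn n).comp ((measurable_rep lvl).comp measurable_prodMk_left)).pow_const _).aestronglyMeasurable
    · filter_upwards [hev] with n hn
      refine ae_of_all _ fun v => ?_
      have h0 := habn n (rep lvl (u, v))
      have hpos : 0 < Wn n (rep lvl (u, v)) := ha.trans_le h0.1
      rw [Real.norm_of_nonneg (Real.rpow_nonneg hpos.le _)]
      calc (Wn n (rep lvl (u, v))) ^ (mn n) ≤ (max 1 b) ^ (mn n) :=
            Real.rpow_le_rpow hpos.le (h0.2.trans (le_max_right _ _)) (by linarith [hn.1])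
        _ ≤ (max 1 b) ^ (2 * m) :=
            Real.rpow_le_rpow_of_exponent_le (le_max_left _ _) hn.2.le
    · exact integrable_const _
    · filter_upwards [hu] with v hv
      exact hv.rpow hmn (Or.inl (ha.trans_le (hab _).1).ne')
  rw [pmStep_eq]
  simp only [pmStep_eq]
  have hIpos : 0 < ∫ v, (W (rep lvl (u, v))) ^ m
      ∂(Measure.pi fun _ : L => (volume : Measure unitInterval)) := by
    have hint := integrable_rpow hm lvl hW ha hab u
    have h1 : a ^ m ≤ ∫ v, (W (rep lvl (u, v))) ^ m
      ∂(Measure.pi fun _ : L => (volume : Measure unitInterval)) := by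
      have := integral_mono (μ := Measure.pi fun _ : L => (volume : Measure unitInterval))
        (integrable_const (a ^ m)) hint
        (fun v => (rpow_bounds ha (hab (rep lvl (u, v))).1 (hab (rep lvl (u, v))).2 hm).1)
      simpa using this
    exact (Real.rpow_pos_of_pos ha m).trans_le h1
  refine hI.rpow ?_ (Or.inl hIpos.ne')
  exact tendsto_const_nhds.div hmn hm.ne'

/-- Measurability and bounds of nested power means along a list of levels. -/
lemma foldr_bounds {L : Type*} [Fintype L] {r : ℕ} (m : Fin r → ℝ) (hm : ∀ d, 0 < m d)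
    (ds : List (Fin r)) {W : (L → Fin (r + 1) → unitInterval) → ℝ} (hW : Measurable W) {a b : ℝ}
    (ha : 0 < a) (hab : ∀ u, a ≤ W u ∧ W u ≤ b) :
    Measurable (ds.foldr (fun d acc => pmStep (m d) d.succ acc) W) ∧
      ∀ u, a ≤ ds.foldr (fun d acc => pmStep (m d) d.succ acc) W u ∧
        ds.foldr (fun d acc => pmStep (m d) d.succ acc) W u ≤ b := by
  induction ds with
  | nil => exact ⟨hW, hab⟩
  | cons d ds ih =>
    refine ⟨measurable_pmStep _ _ ih.1, fun u => ?_⟩
    exact pmStep_bounds (hm d) d.succ ih.1 ha ih.2 u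

lemma powerMeans_bounds {L : Type*} [Fintype L] {r : ℕ} (m : Fin r → ℝ) (hm : ∀ d, 0 < m d)
    {W : (L → Fin (r + 1) → unitInterval) → ℝ} (hW : Measurable W) {a b : ℝ}
    (ha : 0 < a) (hab : ∀ u, a ≤ W u ∧ W u ≤ b) :
    Measurable (powerMeans m W) ∧ ∀ u, a ≤ powerMeans m W u ∧ powerMeans m W u ≤ b :=
  foldr_bounds m hm _ hW ha hab

/-- Continuity of the nested power means. -/
lemma tendsto_powerMeans {L : Type*} [Fintype L] {r : ℕ} {ι : Type*} {l : Filter ι}
    [l.IsCountablyGenerated] {m : Fin r → ℝ} (hm : ∀ d, 0 < m d) {mn : ι → Fin r → ℝ}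
    (hmn0 : ∀ n d, 0 < mn n d) (hmn : Tendsto mn l (𝓝 m))
    {W : (L → Fin (r + 1) → unitInterval) → ℝ} (hW : Measurable W)
    {Wn : ι → (L → Fin (r + 1) → unitInterval) → ℝ} (hWn : ∀ n, Measurable (Wn n))
    {a b : ℝ} (ha : 0 < a) (hab : ∀ u, a ≤ W u ∧ W u ≤ b)
    (habn : ∀ n u, a ≤ Wn n u ∧ Wn n u ≤ b)
    (hlim : ∀ᵐ u ∂(uniformArrays L r), Tendsto (fun n => Wn n u) l (𝓝 (W u))) :
    ∀ᵐ u ∂(uniformArrays L r),
      Tendsto (fun n => powerMeans (mn n) (Wn n) u) l (𝓝 (powerMeans m W u)) := by
  unfold powerMeans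
  generalize List.finRange r = ds
  induction ds with
  | nil => exact hlim
  | cons d ds ih =>
    have h1 := foldr_bounds m hm ds hW ha hab
    have h2 := fun n => foldr_bounds (mn n) (hmn0 n) ds (hWn n) ha (habn n)
    exact tendsto_pmStep (hm d) ((tendsto_pi_nhds.mp hmn) d) d.succ (fun n => (h2 n).1) ha h1.2
      (fun n => (h2 n).2) ih h1.1

lemma abs_log_le_of_bounds {a b x : ℝ} (ha : 0 < a) (h1 : a ≤ x) (h2 : x ≤ b) :
    |Real.log x| ≤ max (|Real.log a|) (|Real.log b|) := by
  have hx : 0 < x := ha.trans_le h1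
  have h3 : Real.log a ≤ Real.log x := Real.log_le_log ha h1
  have h4 : Real.log x ≤ Real.log b := Real.log_le_log hx h2
  rcases le_total 0 (Real.log x) with h | h
  · rw [abs_of_nonneg h]; exact (h4.trans (le_abs_self _)).trans (le_max_right _ _)
  · rw [abs_of_nonpos h]
    exact ((neg_le_neg h3).trans (neg_le_abs _)).trans (le_max_left _ _)

/-- Continuity of the expected logarithm of the nested power means. -/
lemma tendsto_integral_log_powerMeans {L : Type*} [Fintype L] {r : ℕ} {ι : Type*} {l : Filter ι}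
    [l.IsCountablyGenerated] {m : Fin r → ℝ} (hm : ∀ d, 0 < m d) {mn : ι → Fin r → ℝ}
    (hmn0 : ∀ n d, 0 < mn n d) (hmn : Tendsto mn l (𝓝 m))
    {W : (L → Fin (r + 1) → unitInterval) → ℝ} (hW : Measurable W)
    {Wn : ι → (L → Fin (r + 1) → unitInterval) → ℝ} (hWn : ∀ n, Measurable (Wn n))
    {a b : ℝ} (ha : 0 < a) (hab : ∀ u, a ≤ W u ∧ W u ≤ b)
    (habn : ∀ n u, a ≤ Wn n u ∧ Wn n u ≤ b)
    (hlim : ∀ᵐ u ∂(uniformArrays L r), Tendsto (fun n => Wn n u) l (𝓝 (W u))) :
    Tendsto (fun n => ∫ u, Real.log (powerMeans (mn n) (Wn n) u) ∂(uniformArrays L r)) l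
      (𝓝 (∫ u, Real.log (powerMeans m W u) ∂(uniformArrays L r))) := by
  have h0 := powerMeans_bounds m hm hW ha hab
  have hn := fun n => powerMeans_bounds (mn n) (hmn0 n) (hWn n) ha (habn n)
  refine tendsto_integral_filter_of_dominated_convergence
    (fun _ => max (|Real.log a|) (|Real.log b|)) ?_ ?_ ?_ ?_
  · exact Eventually.of_forall fun n => ((hn n).1.log).aestronglyMeasurable
  · refine Eventually.of_forall fun n => ae_of_all _ fun u => ?_
    rw [Real.norm_eq_abs]
    exact abs_log_le_of_bounds ha ((hn n).2 u).1 ((hn n).2 u).2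
  · exact integrable_const _
  · filter_upwards [tendsto_powerMeans hm hmn0 hmn hW hWn ha hab habn hlim] with u hu
    exact (Real.continuousAt_log (ha.trans_le (h0.2 u).1).ne').tendsto.comp hu

lemma abs_integral_log_powerMeans_le {L : Type*} [Fintype L] {r : ℕ} {m : Fin r → ℝ}
    (hm : ∀ d, 0 < m d) {W : (L → Fin (r + 1) → unitInterval) → ℝ} (hW : Measurable W)
    {a b : ℝ} (ha : 0 < a) (hab : ∀ u, a ≤ W u ∧ W u ≤ b) :
    |∫ u, Real.log (powerMeans m W u) ∂(uniformArrays L r)| ≤
      max (|Real.log a|) (|Real.log b|) := by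
  have h0 := powerMeans_bounds m hm hW ha hab
  have := norm_integral_le_of_norm_le_const (μ := uniformArrays L r)
    (f := fun u => Real.log (powerMeans m W u)) (C := max (|Real.log a|) (|Real.log b|))
    (ae_of_all _ fun u => by
      rw [Real.norm_eq_abs]; exact abs_log_le_of_bounds ha (h0.2 u).1 (h0.2 u).2)
  simpa using this

end Crest.Agent.R153
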