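import Mathlib
import Crest.Prelude.Def_DilutedSpinGlass
import Crest.Agent.R153.SatLaw
import Crest.Agent.R153.FinApproxDefs

/-!
Row 153: the 3-SAT interaction law `muSAT β` (uniform forbidden pattern `s₀`, weight `e^{-β}`), its
product powers as finite averages, explicit site/edge terms, bounds, and the finite-average form of
`trialFunctional 3 c (muSAT β) (dirac 0)`.
-/

set_option autoImplicit false
open MeasureTheory Filter Topology
open Crest.ProbabilityR.Diluted

namespace Crest.Agent.R153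

lemma muSAT_apply (β : ℝ) {s : Set (Inter 3)} (hs : MeasurableSet s) :
    muSAT β s = (8 : ENNReal)⁻¹ * ∑ s₀ : Fin 3 → Bool, s.indicator 1 (satInter β s₀) := by
  rw [muSAT_eq]
  rw [Measure.smul_apply, Measure.finsetSum_apply, smul_eq_mul]
  congr 1
  refine Finset.sum_congr rfl fun s₀ _ => ?_
  rw [Measure.dirac_apply' _ hs]

/-- Product powers of `muSAT` are finite averages of point masses. -/
lemma pi_muSAT (β : ℝ) (k : ℕ) :
    (Measure.pi fun _ : Fin k => muSAT β) =
      ((8 : ENNReal)⁻¹ ^ k) • ∑ J : Fin k → Fin 3 → Bool,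
        Measure.dirac (fun j => satInter β (J j)) := by
  refine (Measure.pi_eq fun s hs => ?_)
  rw [Measure.smul_apply, Measure.finsetSum_apply, smul_eq_mul]
  have h1 : ∀ i : Fin k, muSAT β (s i) =
      (8 : ENNReal)⁻¹ * ∑ s₀ : Fin 3 → Bool, (s i).indicator 1 (satInter β s₀) :=
    fun i => muSAT_apply β (hs i)
  simp only [h1]
  rw [Finset.prod_mul_distrib, Finset.prod_const, Finset.card_univ, Fintype.card_fin,
    Finset.prod_univ_sum]
  congr 1
  rw [Fintype.piFinset_univ]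
  refine Finset.sum_congr rfl fun J _ => ?_
  rw [Measure.dirac_apply' _ (.univ_pi hs)]
  by_cases h : ∀ i, satInter β (J i) ∈ s i
  · rw [Set.indicator_of_mem (by simpa [Set.mem_univ_pi] using h)]
    refine (Finset.prod_eq_one fun i _ => ?_).symm
    rw [Set.indicator_of_mem (h i)]; rfl
  · rw [Set.indicator_of_notMem (by simpa [Set.mem_univ_pi] using h)]
    push Not at h
    obtain ⟨i, hi⟩ := h
    refine (Finset.prod_eq_zero (Finset.mem_univ i) ?_).symm
    rw [Set.indicator_of_notMem hi]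

lemma integral_pi_muSAT (β : ℝ) (k : ℕ) (f : (Fin k → Inter 3) → ℝ) :
    ∫ θs, f θs ∂(Measure.pi fun _ : Fin k => muSAT β) =
      ((8 : ℝ) ^ k)⁻¹ * ∑ J : Fin k → Fin 3 → Bool, f (fun j => satInter β (J j)) := by
  rw [pi_muSAT, integral_smul_measure, integral_finsetSum_measure]
  · simp only [integral_dirac, smul_eq_mul]
    congr 1
    rw [ENNReal.toReal_pow, ENNReal.toReal_inv, inv_pow]
    norm_num
  · intro J _
    exact integrable_dirac (by simp)

/-! ### explicit edge and site terms -/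

lemma sum_tilt (x : ℝ) : ∑ s : Bool, tilt x s = 1 := by
  rw [Fintype.sum_bool]; exact tilt_add x

lemma sum_prod_tilt {p : ℕ} (x : Fin p → ℝ) :
    ∑ s : Fin p → Bool, ∏ ℓ, tilt (x ℓ) (s ℓ) = 1 := by
  have := Finset.prod_univ_sum (fun _ : Fin p => (Finset.univ : Finset Bool))
    (fun ℓ s => tilt (x ℓ) s)
  rw [Fintype.piFinset_univ] at this
  rw [← this]
  exact Finset.prod_eq_one fun i _ => sum_tilt (x i)

lemma tilt_le_one (x : ℝ) (s : Bool) : tilt x s ≤ 1 := by
  have h := sum_tilt x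
  rw [Fintype.sum_bool] at h
  have h1 := tilt_pos x true
  have h2 := tilt_pos x false
  cases s <;> linarith

lemma tilt_false (x : ℝ) : tilt x false = 1 - tilt x true := by
  have h := sum_tilt x
  rw [Fintype.sum_bool] at h
  linarith

lemma exp_satInter (β : ℝ) (s₀ s : Fin 3 → Bool) :
    Real.exp (satInter β s₀ s) = 1 - (1 - Real.exp (-β)) * (if s = s₀ then 1 else 0) := by
  unfold satInter
  split_ifs <;> simp

lemma edgeTerm_satInter (β : ℝ) (s₀ : Fin 3 → Bool) (x : Fin 3 → ℝ) :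
    edgeTerm (satInter β s₀) x = 1 - (1 - Real.exp (-β)) * ∏ ℓ, tilt (x ℓ) (s₀ ℓ) := by
  unfold edgeTerm
  simp only [exp_satInter]
  simp only [sub_mul, one_mul, Finset.sum_sub_distrib, sum_prod_tilt]
  congr 1
  simp only [mul_assoc, ite_mul, one_mul, zero_mul]
  rw [← Finset.sum_sub_distrib]
  have : ∀ s : Fin 3 → Bool, ((if s = s₀ then ∏ ℓ, tilt (x ℓ) (s ℓ) else 0) -
      Real.exp (-β) * (if s = s₀ then ∏ ℓ, tilt (x ℓ) (s ℓ) else 0)) =
      if s = s₀ then (∏ ℓ, tilt (x ℓ) (s ℓ) - Real.exp (-β) * ∏ ℓ, tilt (x ℓ) (s ℓ)) else 0 := by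
    intro s
    split_ifs <;> simp
  simp only [this]
  rw [Finset.sum_ite_eq' Finset.univ s₀]
  simp

/-- weight carried by one interaction seen from the site with spin `ε` -/
noncomputable def msgW (β : ℝ) (s₀ : Fin 3 → Bool) (x : Fin 2 → ℝ) (ε : Bool) : ℝ :=
  1 - (1 - Real.exp (-β)) * (if ε = s₀ 2 then tilt (x 0) (s₀ 0) * tilt (x 1) (s₀ 1) else 0)

lemma msgW_sum (β : ℝ) (s₀ : Fin 3 → Bool) (x : Fin 2 → ℝ) (ε : Bool) :
    (∑ s' : Fin 2 → Bool,
      Real.exp (satInter β s₀ (fun ℓ => if h : ℓ.val < 2 then s' ⟨ℓ.val, h⟩ else ε)) *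
      ∏ ℓ, tilt (x ℓ) (s' ℓ)) = msgW β s₀ x ε := by
  simp only [exp_satInter]
  have hcond : ∀ s' : Fin 2 → Bool,
      ((fun ℓ : Fin 3 => if h : ℓ.val < 2 then s' ⟨ℓ.val, h⟩ else ε) = s₀) ↔
        (s' = ![s₀ 0, s₀ 1] ∧ ε = s₀ 2) := by
    intro s'
    constructor
    · intro h
      have h0 := congrFun h 0
      have h1 := congrFun h 1
      have h2 := congrFun h 2
      simp at h0 h1 h2
      refine ⟨?_, h2⟩
      ext i; fin_cases i
      · simpa using h0
      · simpa using h1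
    · rintro ⟨rfl, rfl⟩
      ext i; fin_cases i <;> simp
  simp only [hcond]
  simp only [sub_mul, one_mul, Finset.sum_sub_distrib, sum_prod_tilt]
  unfold msgW
  by_cases hε : ε = s₀ 2
  · simp only [hε, and_true, if_true]
    rw [Finset.sum_eq_single ![s₀ 0, s₀ 1], Finset.sum_eq_single ![s₀ 0, s₀ 1]]
    · simp [Fin.prod_univ_two]; ring
    · intro b _ hb; simp [hb]
    · simp
    · intro b _ hb; simp [hb]
    · simp
  · simp [hε]

lemma msgW_bounds {β : ℝ} (hβ : 0 ≤ β) (s₀ : Fin 3 → Bool) (x : Fin 2 → ℝ) (ε : Bool) :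
    Real.exp (-β) ≤ msgW β s₀ x ε ∧ msgW β s₀ x ε ≤ 1 := by
  unfold msgW
  have he : Real.exp (-β) ≤ 1 := by
    rw [Real.exp_le_one_iff]; linarith
  have h0 := tilt_pos (x 0) (s₀ 0)
  have h1 := tilt_pos (x 1) (s₀ 1)
  have h0' := tilt_le_one (x 0) (s₀ 0)
  have h1' := tilt_le_one (x 1) (s₀ 1)
  have hp : tilt (x 0) (s₀ 0) * tilt (x 1) (s₀ 1) ≤ 1 := by nlinarith
  have hp0 : 0 ≤ tilt (x 0) (s₀ 0) * tilt (x 1) (s₀ 1) := by positivity
  split_ifs
  · constructor <;> nlinarith
  · constructor <;> linarith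

lemma msgW_pos (β : ℝ) (s₀ : Fin 3 → Bool) (x : Fin 2 → ℝ) (ε : Bool) :
    0 < msgW β s₀ x ε := by
  rw [← msgW_sum]
  refine Finset.sum_pos (fun s' _ => ?_) Finset.univ_nonempty
  exact mul_pos (Real.exp_pos _) (Finset.prod_pos fun ℓ _ => tilt_pos _ _)

lemma siteMessage_satInter (β : ℝ) (s₀ : Fin 3 → Bool) (x : Fin 2 → ℝ) (ε : Bool) :
    siteMessage (p := 3) (satInter β s₀) x ε = Real.log (msgW β s₀ x ε) := by
  rw [← msgW_sum]; rfl

lemma siteTerm_satInter (β : ℝ) {k : ℕ} (J : Fin k → Fin 3 → Bool) (x : Fin k → Fin 2 → ℝ) :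
    siteTerm (p := 3) 0 (fun j => satInter β (J j)) x =
      (1 / 2) * ∑ ε : Bool, ∏ j : Fin k, msgW β (J j) (x j) ε := by
  unfold siteTerm
  congr 1
  refine Finset.sum_congr rfl fun ε _ => ?_
  rw [zero_mul, zero_add, Real.exp_sum]
  refine Finset.prod_congr rfl fun j _ => ?_
  rw [siteMessage_satInter, Real.exp_log (msgW_pos _ _ _ _)]

lemma siteTerm_satInter_bounds {β : ℝ} (hβ : 0 ≤ β) {k : ℕ} (J : Fin k → Fin 3 → Bool)
    (x : Fin k → Fin 2 → ℝ) :
    Real.exp (-(β * k)) ≤ siteTerm (p := 3) 0 (fun j => satInter β (J j)) x ∧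
      siteTerm (p := 3) 0 (fun j => satInter β (J j)) x ≤ 1 := by
  rw [siteTerm_satInter]
  have hlow : ∀ ε : Bool, Real.exp (-(β * k)) ≤ ∏ j : Fin k, msgW β (J j) (x j) ε := by
    intro ε
    have : Real.exp (-(β * k)) = ∏ _j : Fin k, Real.exp (-β) := by
      rw [Finset.prod_const, Finset.card_univ, Fintype.card_fin, ← Real.exp_nat_mul]
      congr 1; ring
    rw [this]
    exact Finset.prod_le_prod (fun _ _ => (Real.exp_pos _).le)
      (fun j _ => (msgW_bounds hβ _ _ _).1)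
  have hup : ∀ ε : Bool, ∏ j : Fin k, msgW β (J j) (x j) ε ≤ 1 := by
    intro ε
    exact Finset.prod_le_one (fun _ _ => (msgW_pos _ _ _ _).le)
      (fun j _ => (msgW_bounds hβ _ _ _).2)
  rw [Fintype.sum_bool]
  have h1 := hlow true; have h2 := hlow false; have h3 := hup true; have h4 := hup false
  constructor <;> linarith

lemma edgeTerm_satInter_bounds {β : ℝ} (hβ : 0 ≤ β) (s₀ : Fin 3 → Bool) (x : Fin 3 → ℝ) :
    Real.exp (-β) ≤ edgeTerm (satInter β s₀) x ∧ edgeTerm (satInter β s₀) x ≤ 1 := by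
  rw [edgeTerm_satInter]
  have he : Real.exp (-β) ≤ 1 := by
    rw [Real.exp_le_one_iff]; linarith
  have hp : ∏ ℓ, tilt (x ℓ) (s₀ ℓ) ≤ 1 :=
    Finset.prod_le_one (fun _ _ => (tilt_pos _ _).le) (fun _ _ => tilt_le_one _ _)
  have hp0 : 0 ≤ ∏ ℓ, tilt (x ℓ) (s₀ ℓ) := Finset.prod_nonneg fun _ _ => (tilt_pos _ _).le
  constructor <;> nlinarith

/-! ### measurability in the uniforms -/

lemma measurable_tilt (s : Bool) : Measurable (fun x : ℝ => tilt x s) := by
  unfold tilt
  fun_prop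

lemma continuous_tilt (s : Bool) : Continuous (fun x : ℝ => tilt x s) := by
  unfold tilt
  refine Continuous.div (by fun_prop) (by fun_prop) fun x => ?_
  have := Real.cosh_pos x
  positivity

lemma measurable_site {r : ℕ} {X : (Fin (r + 1) → unitInterval) → ℝ} (hX : Measurable X)
    (β : ℝ) {k : ℕ} (J : Fin k → Fin 3 → Bool) :
    Measurable (fun u' : (Fin k × Fin 2) → Fin (r + 1) → unitInterval =>
      siteTerm (p := 3) 0 (fun j => satInter β (J j)) (fun j ℓ => X (u' (j, ℓ)))) := by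
  have hXc : ∀ a : Fin k × Fin 2, ∀ s : Bool, Measurable
      (fun u' : (Fin k × Fin 2) → Fin (r + 1) → unitInterval => tilt (X (u' a)) s) := by
    intro a s
    exact (measurable_tilt s).comp (hX.comp (measurable_pi_apply a))
  simp only [siteTerm_satInter]
  refine Measurable.const_mul ?_ _
  refine Finset.measurable_fun_sum _ fun ε _ => ?_
  refine Finset.measurable_fun_prod _ fun j _ => ?_
  unfold msgW
  refine Measurable.const_sub ?_ _
  refine Measurable.const_mul ?_ _
  by_cases h : ε = J j 2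
  · simp only [h, if_true]
    exact (hXc (j, 0) (J j 0)).mul (hXc (j, 1) (J j 1))
  · simp only [h, if_false]
    exact measurable_const

lemma measurable_edge {r : ℕ} {X : (Fin (r + 1) → unitInterval) → ℝ} (hX : Measurable X)
    (β : ℝ) (s₀ : Fin 3 → Bool) :
    Measurable (fun u' : Fin 3 → Fin (r + 1) → unitInterval =>
      edgeTerm (satInter β s₀) (fun ℓ => X (u' ℓ))) := by
  simp only [edgeTerm_satInter]
  refine Measurable.const_sub ?_ _
  refine Measurable.const_mul ?_ _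
  refine Finset.measurable_fun_prod _ fun ℓ _ => ?_
  exact (measurable_tilt _).comp (hX.comp (measurable_pi_apply ℓ))

/-! ### the trial functional as a Poisson sum of finite averages -/

/-- average over the clause patterns of the site integral with `k` interactions -/
noncomputable def siteAvg (β : ℝ) (r : ℕ) (m : Fin r → ℝ) (X : (Fin (r + 1) → unitInterval) → ℝ)
    (k : ℕ) : ℝ :=
  ((8 : ℝ) ^ k)⁻¹ * ∑ J : Fin k → Fin 3 → Bool,
    ∫ u, Real.log (powerMeans m
      (fun u' : (Fin k × Fin 2) → Fin (r + 1) → unitInterval =>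
        siteTerm (p := 3) 0 (fun j => satInter β (J j)) (fun j ℓ => X (u' (j, ℓ)))) u)
      ∂(uniformArrays (Fin k × Fin 2) r)

/-- average over the clause patterns of the edge integral -/
noncomputable def edgeAvg (β : ℝ) (r : ℕ) (m : Fin r → ℝ) (X : (Fin (r + 1) → unitInterval) → ℝ) :
    ℝ :=
  (1 / 8 : ℝ) * ∑ s₀ : Fin 3 → Bool,
    ∫ u, Real.log (powerMeans m
      (fun u' : Fin 3 → Fin (r + 1) → unitInterval =>
        edgeTerm (satInter β s₀) (fun ℓ => X (u' ℓ))) u)
      ∂(uniformArrays (Fin 3) r)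

theorem trialFunctional_muSAT (c β : ℝ) (r : ℕ) (m : Fin r → ℝ)
    (X : (Fin (r + 1) → unitInterval) → ℝ) :
    trialFunctional 3 c (muSAT β) (Measure.dirac 0) r m X =
      Real.log 2 + (∑' k : ℕ, poissonWeight (c * 3) k * siteAvg β r m X k)
        - 2 * c * edgeAvg β r m X := by
  unfold trialFunctional siteAvg edgeAvg
  simp only [integral_pi_muSAT, integral_muSAT, integral_dirac]
  push_cast
  congr 1
  ring

end Crest.Agent.R153
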