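import Mathlib
import Crest.Prelude.Def_DilutedSpinGlass
import Crest.Agent.R153.PMTend
import Crest.Agent.R153.FinApproxDefs
import Crest.Agent.R153.SatLaw
import Crest.Agent.R153.SatTrial
import Crest.Agent.R153.GridDense

/-!
Row 153, part C4: a negative trial for soft 3-SAT can be replaced by a negative rational grid
trial.
-/

set_option autoImplicit false

open MeasureTheory Filter Topology Crest.ProbabilityR.Diluted

namespace Crest.Agent.R153.FA

/-! ### continuity of the site and edge terms in the messages -/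

lemma continuous_edgeTerm {p : ℕ} (θ : Inter p) : Continuous fun x : Fin p → ℝ => edgeTerm θ x := by
  unfold edgeTerm
  refine continuous_finsetSum _ fun s _ => continuous_const.mul ?_
  exact continuous_finsetProd _ fun ℓ _ => (continuous_tilt _).comp (continuous_apply ℓ)

lemma continuous_siteMessage {p : ℕ} (θ : Inter p) (ε : Bool) :
    Continuous fun x : Fin (p - 1) → ℝ => siteMessage θ x ε := by
  unfold siteMessage
  refine Continuous.log ?_ fun x => ?_
  · refine continuous_finsetSum _ fun s _ => continuous_const.mul ?_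
    exact continuous_finsetProd _ fun ℓ _ => (continuous_tilt _).comp (continuous_apply ℓ)
  · refine (Finset.sum_pos (fun s _ => ?_) Finset.univ_nonempty).ne'
    exact mul_pos (Real.exp_pos _) (Finset.prod_pos fun ℓ _ => tilt_pos _ _)

lemma continuous_siteTerm {p k : ℕ} (h : ℝ) (θs : Fin k → Inter p) :
    Continuous fun x : Fin k → Fin (p - 1) → ℝ => siteTerm h θs x := by
  unfold siteTerm
  refine continuous_const.mul (continuous_finsetSum _ fun ε _ => ?_)
  refine Real.continuous_exp.comp (continuous_const.add (continuous_finsetSum _ fun j _ => ?_))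
  exact (continuous_siteMessage (θs j) ε).comp (continuous_apply j)

/-! ### the two expected logarithms of a trial -/

/-- expected logarithm of the nested power means of the site term -/
noncomputable def siteI {p k : ℕ} (h : ℝ) (θs : Fin k → Inter p) (r : ℕ) (m : Fin r → ℝ)
    (X : (Fin (r + 1) → unitInterval) → ℝ) : ℝ :=
  ∫ u, Real.log (powerMeans m
      (fun u' : (Fin k × Fin (p - 1)) → Fin (r + 1) → unitInterval =>
        siteTerm h θs (fun j ℓ => X (u' (j, ℓ)))) u)
    ∂(uniformArrays (Fin k × Fin (p - 1)) r)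

/-- expected logarithm of the nested power means of the edge term -/
noncomputable def edgeI {p : ℕ} (θ : Inter p) (r : ℕ) (m : Fin r → ℝ)
    (X : (Fin (r + 1) → unitInterval) → ℝ) : ℝ :=
  ∫ u, Real.log (powerMeans m
      (fun u' : Fin p → Fin (r + 1) → unitInterval => edgeTerm θ (fun ℓ => X (u' ℓ))) u)
    ∂(uniformArrays (Fin p) r)

lemma ae_labels {L : Type*} [Fintype L] {r : ℕ} {P : (Fin (r + 1) → unitInterval) → Prop}
    (h : ∀ᵐ x ∂(Measure.pi fun _ : Fin (r + 1) => (volume : Measure unitInterval)), P x) :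
    ∀ᵐ u ∂(uniformArrays L r), ∀ ω, P (u ω) := by
  rw [ae_all_iff]
  intro ω
  have := (Measure.quasiMeasurePreserving_eval
    (fun _ : L => Measure.pi fun _ : Fin (r + 1) => (volume : Measure unitInterval)) ω).ae h
  exact this

lemma tendsto_siteI {p k : ℕ} (h : ℝ) (θs : Fin k → Inter p) {r : ℕ} {ι : Type*} {l : Filter ι}
    [l.IsCountablyGenerated] {m : Fin r → ℝ} (hm : ∀ d, 0 < m d) {mn : ι → Fin r → ℝ}
    (hmn0 : ∀ n d, 0 < mn n d) (hmn : Tendsto mn l (𝓝 m))
    {X : (Fin (r + 1) → unitInterval) → ℝ} (hX : Measurable X)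
    {Xn : ι → (Fin (r + 1) → unitInterval) → ℝ} (hXn : ∀ n, Measurable (Xn n))
    (hlim : ∀ᵐ x ∂(Measure.pi fun _ : Fin (r + 1) => (volume : Measure unitInterval)),
      Tendsto (fun n => Xn n x) l (𝓝 (X x)))
    {a b : ℝ} (ha : 0 < a) (hab : ∀ x, a ≤ siteTerm h θs x ∧ siteTerm h θs x ≤ b) :
    Tendsto (fun n => siteI h θs r (mn n) (Xn n)) l (𝓝 (siteI h θs r m X)) := by
  unfold siteI
  have hmeas : ∀ {Y : (Fin (r + 1) → unitInterval) → ℝ}, Measurable Y →
      Measurable (fun u' : (Fin k × Fin (p - 1)) → Fin (r + 1) → unitInterval =>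
        siteTerm h θs (fun j ℓ => Y (u' (j, ℓ)))) := by
    intro Y hY
    refine (continuous_siteTerm h θs).measurable.comp ?_
    exact measurable_pi_lambda _ fun j => measurable_pi_lambda _ fun ℓ =>
      hY.comp (measurable_pi_apply _)
  refine tendsto_integral_log_powerMeans hm hmn0 hmn (hmeas hX) (fun n => hmeas (hXn n)) ha
    (fun u => hab _) (fun n u => hab _) ?_
  filter_upwards [ae_labels (L := Fin k × Fin (p - 1)) hlim] with u hu
  refine ((continuous_siteTerm h θs).tendsto _).comp ?_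
  rw [tendsto_pi_nhds]; intro j; rw [tendsto_pi_nhds]; intro ℓ
  exact hu (j, ℓ)

lemma tendsto_edgeI {p : ℕ} (θ : Inter p) {r : ℕ} {ι : Type*} {l : Filter ι}
    [l.IsCountablyGenerated] {m : Fin r → ℝ} (hm : ∀ d, 0 < m d) {mn : ι → Fin r → ℝ}
    (hmn0 : ∀ n d, 0 < mn n d) (hmn : Tendsto mn l (𝓝 m))
    {X : (Fin (r + 1) → unitInterval) → ℝ} (hX : Measurable X)
    {Xn : ι → (Fin (r + 1) → unitInterval) → ℝ} (hXn : ∀ n, Measurable (Xn n))
    (hlim : ∀ᵐ x ∂(Measure.pi fun _ : Fin (r + 1) => (volume : Measure unitInterval)),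
      Tendsto (fun n => Xn n x) l (𝓝 (X x)))
    {a b : ℝ} (ha : 0 < a) (hab : ∀ x, a ≤ edgeTerm θ x ∧ edgeTerm θ x ≤ b) :
    Tendsto (fun n => edgeI θ r (mn n) (Xn n)) l (𝓝 (edgeI θ r m X)) := by
  unfold edgeI
  have hmeas : ∀ {Y : (Fin (r + 1) → unitInterval) → ℝ}, Measurable Y →
      Measurable (fun u' : Fin p → Fin (r + 1) → unitInterval =>
        edgeTerm θ (fun ℓ => Y (u' ℓ))) := by
    intro Y hY
    refine (continuous_edgeTerm θ).measurable.comp ?_
    exact measurable_pi_lambda _ fun j => hY.comp (measurable_pi_apply _)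
  refine tendsto_integral_log_powerMeans hm hmn0 hmn (hmeas hX) (fun n => hmeas (hXn n)) ha
    (fun u => hab _) (fun n u => hab _) ?_
  filter_upwards [ae_labels (L := Fin p) hlim] with u hu
  refine ((continuous_edgeTerm θ).tendsto _).comp ?_
  rw [tendsto_pi_nhds]; intro ℓ
  exact hu ℓ

lemma abs_siteI_le {p k : ℕ} (h : ℝ) (θs : Fin k → Inter p) {r : ℕ} {m : Fin r → ℝ}
    (hm : ∀ d, 0 < m d) {X : (Fin (r + 1) → unitInterval) → ℝ} (hX : Measurable X)
    {a b : ℝ} (ha : 0 < a) (hab : ∀ x, a ≤ siteTerm h θs x ∧ siteTerm h θs x ≤ b) :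
    |siteI h θs r m X| ≤ max (|Real.log a|) (|Real.log b|) := by
  unfold siteI
  refine abs_integral_log_powerMeans_le hm ?_ ha (fun u => hab _)
  refine (continuous_siteTerm h θs).measurable.comp ?_
  exact measurable_pi_lambda _ fun j => measurable_pi_lambda _ fun ℓ =>
    hX.comp (measurable_pi_apply _)

/-! ### bounds for soft 3-SAT -/

lemma tilt_sum_prod {ι : Type*} [Fintype ι] [DecidableEq ι] (x : ι → ℝ) :
    ∑ s : ι → Bool, ∏ ℓ, tilt (x ℓ) (s ℓ) = 1 := by
  have h := Finset.prod_univ_sum (fun _ : ι => (Finset.univ : Finset Bool))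
    (fun ℓ b => tilt (x ℓ) b)
  rw [Fintype.piFinset_univ] at h
  rw [← h]
  refine Finset.prod_eq_one fun ℓ _ => ?_
  rw [Fintype.sum_bool]
  exact tilt_add _

lemma edgeTerm_bounds {β : ℝ} (hβ : 0 ≤ β) (J : Fin 3 → Bool) (x : Fin 3 → ℝ) :
    Real.exp (-β) ≤ edgeTerm (satInter β J) x ∧ edgeTerm (satInter β J) x ≤ 1 := by
  unfold edgeTerm
  have hpos : ∀ s : Fin 3 → Bool, 0 ≤ ∏ ℓ, tilt (x ℓ) (s ℓ) := fun s =>
    Finset.prod_nonneg fun ℓ _ => (tilt_pos _ _).le
  constructor
  · calc Real.exp (-β) = ∑ s : Fin 3 → Bool, Real.exp (-β) * ∏ ℓ, tilt (x ℓ) (s ℓ) := by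
          rw [← Finset.mul_sum, tilt_sum_prod, mul_one]
      _ ≤ _ := Finset.sum_le_sum fun s _ => mul_le_mul_of_nonneg_right
          (Real.exp_le_exp.mpr (by unfold satInter; split_ifs <;> linarith)) (hpos s)
  · calc _ ≤ ∑ s : Fin 3 → Bool, 1 * ∏ ℓ, tilt (x ℓ) (s ℓ) :=
          Finset.sum_le_sum fun s _ => mul_le_mul_of_nonneg_right
            (by
              rw [← Real.exp_zero]
              exact Real.exp_le_exp.mpr (by unfold satInter; split_ifs <;> linarith)) (hpos s)
      _ = 1 := by simp only [one_mul]; exact tilt_sum_prod x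

lemma siteMessage_bounds {β : ℝ} (hβ : 0 ≤ β) (J : Fin 3 → Bool) (x : Fin (3 - 1) → ℝ) (ε : Bool) :
    -β ≤ siteMessage (satInter β J) x ε ∧ siteMessage (satInter β J) x ε ≤ 0 := by
  unfold siteMessage
  have hpos : ∀ s : Fin (3 - 1) → Bool, 0 ≤ ∏ ℓ, tilt (x ℓ) (s ℓ) := fun s =>
    Finset.prod_nonneg fun ℓ _ => (tilt_pos _ _).le
  have h1 : Real.exp (-β) ≤ ∑ s' : Fin (3 - 1) → Bool,
      Real.exp (satInter β J (fun ℓ => if h : ℓ.val < 3 - 1 then s' ⟨ℓ.val, h⟩ else ε)) *
      ∏ ℓ, tilt (x ℓ) (s' ℓ) := by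
    calc Real.exp (-β) = ∑ s : Fin (3 - 1) → Bool, Real.exp (-β) * ∏ ℓ, tilt (x ℓ) (s ℓ) := by
          rw [← Finset.mul_sum, tilt_sum_prod, mul_one]
      _ ≤ _ := Finset.sum_le_sum fun s _ => mul_le_mul_of_nonneg_right
          (Real.exp_le_exp.mpr (by unfold satInter; split_ifs <;> linarith)) (hpos s)
  have h2 : ∑ s' : Fin (3 - 1) → Bool,
      Real.exp (satInter β J (fun ℓ => if h : ℓ.val < 3 - 1 then s' ⟨ℓ.val, h⟩ else ε)) *
      ∏ ℓ, tilt (x ℓ) (s' ℓ) ≤ 1 := by
    calc _ ≤ ∑ s : Fin (3 - 1) → Bool, 1 * ∏ ℓ, tilt (x ℓ) (s ℓ) :=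
          Finset.sum_le_sum fun s _ => mul_le_mul_of_nonneg_right
            (by
              rw [← Real.exp_zero]
              exact Real.exp_le_exp.mpr (by unfold satInter; split_ifs <;> linarith)) (hpos s)
      _ = 1 := by simp only [one_mul]; exact tilt_sum_prod x
  constructor
  · rw [← Real.log_exp (-β)]
    exact Real.log_le_log (Real.exp_pos _) h1
  · exact Real.log_nonpos ((Real.exp_pos _).le.trans h1) h2

lemma siteTerm_bounds {β : ℝ} (hβ : 0 ≤ β) {k : ℕ} (Js : Fin k → Fin 3 → Bool)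
    (x : Fin k → Fin (3 - 1) → ℝ) :
    Real.exp (-(β * k)) ≤ siteTerm 0 (fun j => satInter β (Js j)) x ∧
      siteTerm 0 (fun j => satInter β (Js j)) x ≤ 1 := by
  unfold siteTerm
  have hlo : ∀ ε : Bool, -(β * k) ≤ 0 * spinVal ε + ∑ j : Fin k,
      siteMessage (satInter β (Js j)) (x j) ε := by
    intro ε
    rw [zero_mul, zero_add]
    calc -(β * k) = ∑ _j : Fin k, (-β) := by simp [mul_comm]
      _ ≤ _ := Finset.sum_le_sum fun j _ => (siteMessage_bounds hβ (Js j) (x j) ε).1
  have hhi : ∀ ε : Bool, 0 * spinVal ε + ∑ j : Fin k,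
      siteMessage (satInter β (Js j)) (x j) ε ≤ 0 := by
    intro ε
    rw [zero_mul, zero_add]
    exact Finset.sum_nonpos fun j _ => (siteMessage_bounds hβ (Js j) (x j) ε).2
  rw [Fintype.sum_bool]
  have h1 := Real.exp_le_exp.mpr (hlo true)
  have h2 := Real.exp_le_exp.mpr (hlo false)
  have h3 := Real.exp_le_one_iff.mpr (hhi true)
  have h4 := Real.exp_le_one_iff.mpr (hhi false)
  constructor <;> linarith

/-! ### continuity of the finite-average form of the functional -/

/-- The trial functional of soft 3-SAT written with finite averages over the sign patterns. -/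
noncomputable def satFunctional (c β : ℝ) (r : ℕ) (m : Fin r → ℝ)
    (X : (Fin (r + 1) → unitInterval) → ℝ) : ℝ :=
  Real.log 2 +
    (∑' k : ℕ, poissonWeight (c * 3) k * (((8 : ℝ) ^ k)⁻¹ *
      ∑ Js : Fin k → Fin 3 → Bool, siteI 0 (fun j => satInter β (Js j)) r m X)) -
    c * 2 * (8⁻¹ * ∑ J : Fin 3 → Bool, edgeI (satInter β J) r m X)

lemma summable_poissonWeight_mul (lam b : ℝ) : Summable fun k : ℕ => poissonWeight lam k * (b * k) := by
  have h1 : Summable fun k : ℕ => (lam ^ k / (Nat.factorial k : ℝ)) * k := by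
    have h0 := (Real.summable_pow_div_factorial |2 * lam|)
    refine Summable.of_norm_bounded h0 fun k => ?_
    rw [norm_mul, norm_div, norm_pow, Real.norm_eq_abs, Real.norm_natCast, Real.norm_natCast,
      abs_mul, abs_two, mul_pow]
    have hk : (k : ℝ) ≤ 2 ^ k := by exact_mod_cast (Nat.lt_two_pow_self).le
    have hf : (0 : ℝ) < (Nat.factorial k : ℝ) := by exact_mod_cast Nat.factorial_pos k
    rw [div_mul_eq_mul_div, div_le_div_iff_of_pos_right hf]
    nlinarith [pow_nonneg (abs_nonneg lam) k]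
  have h2 := h1.mul_left (Real.exp (-lam) * b)
  refine h2.congr fun k => ?_
  unfold poissonWeight
  ring

lemma poissonWeight_nonneg {lam : ℝ} (h : 0 ≤ lam) (k : ℕ) : 0 ≤ poissonWeight lam k := by
  unfold poissonWeight; positivity

theorem tendsto_satFunctional {c β : ℝ} (hc : 0 ≤ c) (hβ : 0 ≤ β) {r : ℕ} {ι : Type*}
    {l : Filter ι} [l.IsCountablyGenerated] {m : Fin r → ℝ} (hm : ∀ d, 0 < m d)
    {mn : ι → Fin r → ℝ} (hmn0 : ∀ n d, 0 < mn n d) (hmn : Tendsto mn l (𝓝 m))
    {X : (Fin (r + 1) → unitInterval) → ℝ} (hX : Measurable X)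
    {Xn : ι → (Fin (r + 1) → unitInterval) → ℝ} (hXn : ∀ n, Measurable (Xn n))
    (hlim : ∀ᵐ x ∂(Measure.pi fun _ : Fin (r + 1) => (volume : Measure unitInterval)),
      Tendsto (fun n => Xn n x) l (𝓝 (X x))) :
    Tendsto (fun n => satFunctional c β r (mn n) (Xn n)) l (𝓝 (satFunctional c β r m X)) := by
  unfold satFunctional
  refine Tendsto.sub (tendsto_const_nhds.add ?_) ?_
  · refine tendsto_tsum_of_dominated_convergence
      (bound := fun k : ℕ => poissonWeight (c * 3) k * (β * k))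
      (summable_poissonWeight_mul _ _) (fun k => ?_) (Eventually.of_forall fun n k => ?_)
    · refine tendsto_const_nhds.mul (tendsto_const_nhds.mul (tendsto_finsetSum _ fun Js _ => ?_))
      exact tendsto_siteI 0 _ hm hmn0 hmn hX hXn hlim (Real.exp_pos _)
        (siteTerm_bounds hβ Js)
    · rw [norm_mul, Real.norm_of_nonneg (poissonWeight_nonneg (by positivity) k)]
      refine mul_le_mul_of_nonneg_left ?_ (poissonWeight_nonneg (by positivity) k)
      rw [norm_mul, norm_inv, norm_pow, Real.norm_ofNat]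
      have hk : ∀ Js : Fin k → Fin 3 → Bool,
          ‖siteI 0 (fun j => satInter β (Js j)) r (mn n) (Xn n)‖ ≤ β * k := by
        intro Js
        rw [Real.norm_eq_abs]
        refine (abs_siteI_le 0 _ (hmn0 n) (hXn n) (Real.exp_pos _)
          (siteTerm_bounds hβ Js)).trans ?_
        rw [Real.log_exp, Real.log_one, abs_zero, abs_neg, abs_of_nonneg (by positivity)]
        exact max_le le_rfl (by positivity)
      calc ((8 : ℝ) ^ k)⁻¹ * ‖∑ Js : Fin k → Fin 3 → Bool,
            siteI 0 (fun j => satInter β (Js j)) r (mn n) (Xn n)‖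
          ≤ ((8 : ℝ) ^ k)⁻¹ * ∑ _Js : Fin k → Fin 3 → Bool, (β * k) := by
            refine mul_le_mul_of_nonneg_left ?_ (by positivity)
            exact (norm_sum_le _ _).trans (Finset.sum_le_sum fun Js _ => hk Js)
        _ = β * k := by
            rw [Finset.sum_const, Finset.card_univ, nsmul_eq_mul]
            have : ((Fintype.card (Fin k → Fin 3 → Bool) : ℕ) : ℝ) = 8 ^ k := by
              simp only [Fintype.card_fun, Fintype.card_bool, Fintype.card_fin]
              push_cast; norm_num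
            rw [this, ← mul_assoc, inv_mul_cancel₀ (by positivity), one_mul]
  · refine tendsto_const_nhds.mul (tendsto_const_nhds.mul (tendsto_finsetSum _ fun J _ => ?_))
    exact tendsto_edgeI _ hm hmn0 hmn hX hXn hlim (Real.exp_pos _) (edgeTerm_bounds hβ J)

/-- `satFunctional` is the trial functional of the row-141 theorem at the law `muSAT β`. -/
theorem trialFunctional_eq_satFunctional (c β : ℝ) (r : ℕ) (m : Fin r → ℝ)
    (X : (Fin (r + 1) → unitInterval) → ℝ) :
    trialFunctional 3 c (muSAT β) (Measure.dirac 0) r m X = satFunctional c β r m X := by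
  rw [trialFunctional_muSAT]
  unfold satFunctional siteAvg edgeAvg siteI edgeI
  rw [show (8 : ℝ)⁻¹ = 1 / 8 by norm_num, mul_comm c 2]

/-! ### rational exponents -/

lemma isOpen_admissible (r : ℕ) : IsOpen {m : Fin r → ℝ | AdmissibleExponents m} := by
  have h : {m : Fin r → ℝ | AdmissibleExponents m} =
      (⋂ (i : Fin r) (j : Fin r) (_ : i < j), {m : Fin r → ℝ | m i < m j}) ∩
        ⋂ d : Fin r, ({m : Fin r → ℝ | 0 < m d} ∩ {m : Fin r → ℝ | m d < 1}) := by
    ext m
    simp only [Set.mem_ofPred_eq, Set.mem_inter_iff, Set.mem_iInter]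
    constructor
    · rintro ⟨h1, h2⟩
      exact ⟨fun i j hij => h1 hij, fun d => h2 d⟩
    · rintro ⟨h1, h2⟩
      exact ⟨fun i j hij => h1 i j hij, fun d => h2 d⟩
  rw [h]
  refine IsOpen.inter ?_ ?_
  · refine isOpen_iInter_of_finite fun i => isOpen_iInter_of_finite fun j => ?_
    refine isOpen_iInter_of_finite fun _ => ?_
    exact isOpen_lt (continuous_apply i) (continuous_apply j)
  · refine isOpen_iInter_of_finite fun d => ?_
    exact (isOpen_lt continuous_const (continuous_apply d)).inter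
      (isOpen_lt (continuous_apply d) continuous_const)

lemma exists_rat_exponents {r : ℕ} {m : Fin r → ℝ} (hm : AdmissibleExponents m) :
    ∃ mn : ℕ → Fin r → ℚ, (∀ n, StrictMono (mn n) ∧ ∀ d, 0 < mn n d ∧ mn n d < 1) ∧
      Tendsto (fun n (d : Fin r) => ((mn n d : ℚ) : ℝ)) atTop (𝓝 m) := by
  have hdense : DenseRange (fun (q : Fin r → ℚ) (d : Fin r) => ((q d : ℚ) : ℝ)) :=
    DenseRange.piMap (fun _ => Rat.denseRange_cast)
  have hex : ∀ n : ℕ, ∃ q : Fin r → ℚ, (fun d => ((q d : ℚ) : ℝ)) ∈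
      {m : Fin r → ℝ | AdmissibleExponents m} ∩ Metric.ball m (1 / ((n : ℝ) + 1)) := by
    intro n
    exact hdense.exists_mem_open ((isOpen_admissible r).inter Metric.isOpen_ball)
      ⟨m, hm, Metric.mem_ball_self (by positivity)⟩
  choose mn hmn using hex
  refine ⟨mn, fun n => ⟨fun i j hij => ?_, fun d => ?_⟩, ?_⟩
  · have h1 : ((mn n i : ℚ) : ℝ) < ((mn n j : ℚ) : ℝ) := (hmn n).1.1 hij
    exact_mod_cast h1
  · have h1 : (0 : ℝ) < ((mn n d : ℚ) : ℝ) := ((hmn n).1.2 d).1
    have h2 : ((mn n d : ℚ) : ℝ) < 1 := ((hmn n).1.2 d).2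
    exact ⟨by exact_mod_cast h1, by exact_mod_cast h2⟩
  · rw [tendsto_iff_dist_tendsto_zero]
    refine squeeze_zero (fun n => dist_nonneg) (fun n => (Metric.mem_ball.mp (hmn n).2).le) ?_
    exact tendsto_one_div_add_atTop_nhds_zero_nat

/-- Density input: every measurable function with values in `(0,1)` is an almost everywhere limit of
rational grid functions. -/
def GridDense : Prop := ∀ (r : ℕ) (Q : (Fin (r + 1) → unitInterval) → ℝ), Measurable Q →
  (∀ u, 0 < Q u ∧ Q u < 1) →
  ∃ (K : ℕ → ℕ) (q : (n : ℕ) → (Fin (r + 1) → Fin (K n + 1)) → ℚ),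
    (∀ n c, 0 < q n c ∧ q n c < 1) ∧
    ∀ᵐ u ∂(Measure.pi fun _ : Fin (r + 1) => (volume : Measure unitInterval)),
      Tendsto (fun n => ((q n (fun j => cell (K n) (u j)) : ℚ) : ℝ)) atTop (𝓝 (Q u))

lemma measurable_gridX {r K : ℕ} (q : (Fin (r + 1) → Fin (K + 1)) → ℚ) :
    Measurable fun u : Fin (r + 1) → unitInterval => msg ((q (fun j => cell K (u j)) : ℚ) : ℝ) := by
  have h1 : Measurable fun u : Fin (r + 1) → unitInterval => fun j => cell K (u j) :=
    measurable_pi_lambda _ fun j => (measurable_cell K).comp (measurable_pi_apply j)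
  exact (measurable_of_finite (fun c : Fin (r + 1) → Fin (K + 1) => msg ((q c : ℚ) : ℝ))).comp h1

lemma tilt_true_lt_one (x : ℝ) : tilt x true < 1 := by
  have := tilt_add x
  have := tilt_pos x false
  linarith

lemma continuousAt_msg {q : ℝ} (h0 : 0 < q) (h1 : q < 1) : ContinuousAt msg q := by
  unfold msg
  have h2 : 0 < 1 - q := by linarith
  refine continuousAt_const.mul (ContinuousAt.log ?_ (div_pos h0 h2).ne')
  exact continuousAt_id.div (continuousAt_const.sub continuousAt_id) h2.ne'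

theorem gridDense : GridDense := fun r Q hQ h => by
  obtain ⟨K, q, h1, h2⟩ := exists_grid_tendsto_ae Q hQ (fun u => (h u).1) (fun u => (h u).2)
  exact ⟨K, q, h1, h2⟩

end Crest.Agent.R153.FA

namespace Crest.Agent.R153

open FA

/-- C4: a trial with value `< y` can be replaced by a rational grid trial with value `< y`. -/
theorem exists_finTrial_lt {c β : ℝ} (hc : 0 ≤ c) (hβ : 0 ≤ β) {r : ℕ}
    {m : Fin r → ℝ} (hm : AdmissibleExponents m) {X : (Fin (r + 1) → unitInterval) → ℝ}
    (hX : Measurable X) {y : ℝ}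
    (h : trialFunctional 3 c (muSAT β) (Measure.dirac 0) r m X < y) :
    ∃ T : FinTrial, T.Valid ∧ T.r = r ∧
      trialFunctional 3 c (muSAT β) (Measure.dirac 0) T.r (fun d => ((T.m d : ℚ) : ℝ)) T.X < y := by
  obtain ⟨K, q, hq, hlim⟩ := gridDense r (fun u => tilt (X u) true)
    (((continuous_tilt true).measurable).comp hX) (fun u => ⟨tilt_pos _ _, tilt_true_lt_one _⟩)
  obtain ⟨mn, hmn, hmlim⟩ := exists_rat_exponents hm
  have hX' : ∀ᵐ u ∂(Measure.pi fun _ : Fin (r + 1) => (volume : Measure unitInterval)),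
      Tendsto (fun n => msg ((q n (fun j => cell (K n) (u j)) : ℚ) : ℝ)) atTop (𝓝 (X u)) := by
    filter_upwards [hlim] with u hu
    have h1 := (continuousAt_msg (tilt_pos (X u) true) (tilt_true_lt_one (X u))).tendsto.comp hu
    rwa [msg_tilt] at h1
  have hT := tendsto_satFunctional hc hβ (fun d => (hm.2 d).1)
    (fun n d => by exact_mod_cast ((hmn n).2 d).1) hmlim hX
    (fun n => measurable_gridX (q n)) hX'
  rw [trialFunctional_eq_satFunctional] at h
  obtain ⟨n, hn⟩ := (hT.eventually (gt_mem_nhds h)).exists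
  refine ⟨⟨r, mn n, K n, q n⟩, ⟨(hmn n).1, (hmn n).2, hq n⟩, rfl, ?_⟩
  rw [trialFunctional_eq_satFunctional]
  exact hn

theorem FinTrial.measurable_X (T : FinTrial) : Measurable T.X := measurable_gridX T.q

theorem FinTrial.Valid.admissible {T : FinTrial} (hT : T.Valid) :
    AdmissibleExponents (fun d => ((T.m d : ℚ) : ℝ)) :=
  ⟨fun i j hij => by
      have h := hT.1 hij
      show ((T.m i : ℚ) : ℝ) < ((T.m j : ℚ) : ℝ)
      exact_mod_cast h,
    fun d => by
      have h := hT.2.1 d
      show (0 : ℝ) < ((T.m d : ℚ) : ℝ) ∧ ((T.m d : ℚ) : ℝ) < 1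
      exact ⟨by exact_mod_cast h.1, by exact_mod_cast h.2⟩⟩

end Crest.Agent.R153
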