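import Crest.Agent.R153.Split

/-! Row 153 (S0217), task PATTERN: generating function bound for the decomposition at `v`. -/

set_option autoImplicit false

open Crest.ProbabilityR.RandomSAT

namespace Crest.Agent.R153

theorem nonempty_clause {m n : ℕ} (hmn : m ≤ n) : Nonempty (Clause m n) := by
  rw [← Fintype.card_pos_iff, card_clause]
  exact Nat.mul_pos (Nat.descFactorial_pos.2 hmn) (by positivity)

theorem theta_nonneg (m n : ℕ) : 0 ≤ theta m n := by
  unfold theta; positivity

theorem two_theta_le_one {m n : ℕ} (hmn : m ≤ n) : 2 * theta m n ≤ 1 := by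
  unfold theta
  have hn1 : (0 : ℝ) < n + 1 := by positivity
  have : (m : ℝ) ≤ n := by exact_mod_cast hmn
  rw [← mul_div_assoc, div_le_one (by positivity)]
  linarith

theorem avg_prod_snd {α β : Type*} [Fintype α] [Fintype β] [Nonempty α] (g : β → ℝ) :
    avg (fun x : α × β => g x.2) = avg g := by
  unfold avg
  have h : (Fintype.card α : ℝ) ≠ 0 := by exact_mod_cast Fintype.card_ne_zero
  have e : ∑ x : α × β, g x.2 = (Fintype.card α : ℝ) * ∑ b, g b := by
    rw [Fintype.sum_prod_type]
    show ∑ _x : α, ∑ b : β, g b = _
    rw [Finset.sum_const, Finset.card_univ, nsmul_eq_mul]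
  rw [e, Fintype.card_prod]
  push_cast
  rw [mul_div_mul_left _ _ h]

theorem EL_pattern {m n : ℕ} (hmn : m ≤ n) (v : Fin (n + 1)) (b : Bool) (w u t : ℝ)
    (hw : 0 ≤ w) (hu : 0 ≤ u) (ht : 0 ≤ t) (M : ℕ) :
    ∀ (S : ℝ) (G : List (Clause (m + 1) n) → List (Clause m n) → ℝ), 0 ≤ S →
      (∀ a e : ℕ, EL a (fun F => EL e (fun Q => G F Q)) ≤ S * u ^ a * t ^ e) →
      EL M (fun F : List (Clause (m + 1) (n + 1)) =>
        w ^ (cnt v F) * G (pureL v F) (redL v b F)) ≤
        S * ((1 - 2 * theta m n) * u + theta m n * (w * t) + theta m n * w) ^ M := by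
  have hne : Nonempty (Clause m n) := nonempty_clause hmn
  have hθ := theta_nonneg m n
  have hθ1 := two_theta_le_one hmn
  set K : ℝ := (1 - 2 * theta m n) * u + theta m n * (w * t) + theta m n * w with hK
  have hK0 : 0 ≤ K := by
    have : 0 ≤ 1 - 2 * theta m n := by linarith
    positivity
  induction M with
  | zero =>
    intro S G hS hG
    have := hG 0 0
    simpa [EL] using this
  | succ M ih =>
    intro S G hS hG
    rw [EL_succ, avg_split hmn v]
    have hA : avg (fun c : Clause (m + 1) n => EL M (fun F : List (Clause (m + 1) (n + 1)) =>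
        w ^ (cnt v (joinL v c :: F)) * G (pureL v (joinL v c :: F)) (redL v b (joinL v c :: F))))
        ≤ S * u * K ^ M := by
      have h := ih (S * u) (fun F Q => avg (fun c : Clause (m + 1) n => G (c :: F) Q))
        (mul_nonneg hS hu) (by
          intro a e
          have e1 : EL a (fun F : List (Clause (m + 1) n) => EL e (fun Q : List (Clause m n) =>
              avg (fun c : Clause (m + 1) n => G (c :: F) Q))) =
              EL (a + 1) (fun F : List (Clause (m + 1) n) => EL e (fun Q => G F Q)) := by
            rw [EL_succ, ← EL_avg_comm]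
            exact EL_congr fun F => EL_avg_comm e _
          rw [e1]
          refine (hG (a + 1) e).trans (le_of_eq ?_)
          ring)
      refine le_trans (le_of_eq ?_) h
      rw [← EL_avg_comm]
      refine EL_congr fun F => ?_
      rw [← avg_const_mul]
      refine avg_congr fun c => ?_
      simp
    have hBeq : avg (fun x : Fin (m + 1) × Clause m n =>
        EL M (fun F : List (Clause (m + 1) (n + 1)) =>
        w ^ (cnt v (joinR v x.1 b x.2 :: F)) * G (pureL v (joinR v x.1 b x.2 :: F))
          (redL v b (joinR v x.1 b x.2 :: F))))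
        ≤ w * (S * K ^ M) := by
      have e1 : (fun x : Fin (m + 1) × Clause m n =>
          EL M (fun F : List (Clause (m + 1) (n + 1)) =>
          w ^ (cnt v (joinR v x.1 b x.2 :: F)) * G (pureL v (joinR v x.1 b x.2 :: F))
            (redL v b (joinR v x.1 b x.2 :: F)))) =
          fun _ => w * EL M (fun F : List (Clause (m + 1) (n + 1)) =>
            w ^ (cnt v F) * G (pureL v F) (redL v b F)) := by
        funext x
        rw [← EL_const_mul]
        refine EL_congr fun F => ?_
        rw [cnt_consR, pureL_consR, redL_consR_eq, pow_succ]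
        ring
      rw [e1, avg_const]
      exact mul_le_mul_of_nonneg_left (ih S G hS hG) hw
    have hBne : ∀ s : Bool, s ≠ b → avg (fun x : Fin (m + 1) × Clause m n =>
        EL M (fun F : List (Clause (m + 1) (n + 1)) =>
        w ^ (cnt v (joinR v x.1 s x.2 :: F)) * G (pureL v (joinR v x.1 s x.2 :: F))
          (redL v b (joinR v x.1 s x.2 :: F))))
        ≤ w * (S * t * K ^ M) := by
      intro s hs
      have h := ih (S * t) (fun F Q => avg (fun q : Clause m n => G F (q :: Q)))
        (mul_nonneg hS ht) (by
          intro a e
          have e1 : EL a (fun F : List (Clause (m + 1) n) => EL e (fun Q : List (Clause m n) =>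
              avg (fun q : Clause m n => G F (q :: Q)))) =
              EL a (fun F : List (Clause (m + 1) n) => EL (e + 1) (fun Q => G F Q)) := by
            refine EL_congr fun F => ?_
            rw [EL_succ, ← EL_avg_comm]
          rw [e1]
          refine (hG a (e + 1)).trans (le_of_eq ?_)
          ring)
      have e2 : avg (fun x : Fin (m + 1) × Clause m n =>
          EL M (fun F : List (Clause (m + 1) (n + 1)) =>
          w ^ (cnt v (joinR v x.1 s x.2 :: F)) * G (pureL v (joinR v x.1 s x.2 :: F))
            (redL v b (joinR v x.1 s x.2 :: F)))) =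
          w * EL M (fun F : List (Clause (m + 1) (n + 1)) =>
            w ^ (cnt v F) * avg (fun q : Clause m n => G (pureL v F) (q :: redL v b F))) := by
        have e3 : ∀ x : Fin (m + 1) × Clause m n,
            EL M (fun F : List (Clause (m + 1) (n + 1)) =>
            w ^ (cnt v (joinR v x.1 s x.2 :: F)) * G (pureL v (joinR v x.1 s x.2 :: F))
              (redL v b (joinR v x.1 s x.2 :: F))) =
            (fun q : Clause m n => w * EL M (fun F : List (Clause (m + 1) (n + 1)) =>
              w ^ (cnt v F) * G (pureL v F) (q :: redL v b F))) x.2 := by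
          intro x
          show _ = w * EL M _
          rw [← EL_const_mul]
          refine EL_congr fun F => ?_
          rw [cnt_consR, pureL_consR, redL_consR_ne v hs, pow_succ]
          ring
        refine (avg_congr e3).trans ((avg_prod_snd (α := Fin (m + 1)) (fun q : Clause m n =>
          w * EL M (fun F : List (Clause (m + 1) (n + 1)) =>
              w ^ (cnt v F) * G (pureL v F) (q :: redL v b F)))).trans ?_)
        rw [avg_const_mul, ← EL_avg_comm]
        congr 1
        refine EL_congr fun F => ?_
        rw [avg_const_mul]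
      rw [e2]
      exact mul_le_mul_of_nonneg_left h hw
    have hsum : avg (fun x : Fin (m + 1) × Clause m n =>
        EL M (fun F : List (Clause (m + 1) (n + 1)) =>
        w ^ (cnt v (joinR v x.1 true x.2 :: F)) * G (pureL v (joinR v x.1 true x.2 :: F))
          (redL v b (joinR v x.1 true x.2 :: F)))) +
        avg (fun x : Fin (m + 1) × Clause m n =>
        EL M (fun F : List (Clause (m + 1) (n + 1)) =>
        w ^ (cnt v (joinR v x.1 false x.2 :: F)) * G (pureL v (joinR v x.1 false x.2 :: F))
          (redL v b (joinR v x.1 false x.2 :: F)))) ≤ w * (S * K ^ M) + w * (S * t * K ^ M) := by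
      cases b with
      | true => exact add_le_add hBeq (hBne false (by simp))
      | false =>
        rw [add_comm]
        exact add_le_add hBeq (hBne true (by simp))
    refine (add_le_add (mul_le_mul_of_nonneg_left hA (by linarith))
      (mul_le_mul_of_nonneg_left hsum hθ)).trans (le_of_eq ?_)
    rw [hK]
    ring

end Crest.Agent.R153
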