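import Crest.Agent.R153.GElim
import Crest.Agent.R153.Pattern

/-! Row 153, all energy levels: splitting the loss caused by a list of clauses into single losses
(helper784). -/

set_option autoImplicit false

open Crest.ProbabilityR.RandomSAT

namespace Crest.Agent.R153.G

variable {J j k m n : ℕ}

/-- loss of the clause `q` at state `h` -/
noncomputable def loss (J : ℕ) {k m n : ℕ} (h : Cost n) (q : Clause m n)
    (F : List (Clause k n)) : ℝ := hit J h F - hit J (cut h q) F

/-- weighted sum of the squares of the single losses along the list `R` -/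
noncomputable def chain (J : ℕ) {k m n : ℕ} :
    Cost n → List (Clause m n) → List (Clause k n) → ℝ
  | _, [], _ => 0
  | h, q :: R, F => 2 * loss J h q F ^ 2 + 2 * chain J (cut h q) R F

theorem chain_nonneg (h : Cost n) (R : List (Clause m n)) (F : List (Clause k n)) :
    0 ≤ chain J h R F := by
  induction R generalizing h with
  | nil => exact le_rfl
  | cons q R ih =>
    have := ih (cut h q)
    show 0 ≤ 2 * loss J h q F ^ 2 + 2 * chain J (cut h q) R F
    positivity

theorem sq_le_chain (h : Cost n) (R : List (Clause m n)) (F : List (Clause k n)) :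
    (hit J h F - hit J (cutL h R) F) ^ 2 ≤ chain J h R F := by
  induction R generalizing h with
  | nil => simp [chain]
  | cons q R ih =>
    have h1 := ih (cut h q)
    show _ ≤ 2 * loss J h q F ^ 2 + 2 * chain J (cut h q) R F
    rw [cutL_cons]
    have e : hit J h F - hit J (cutL (cut h q) R) F =
        loss J h q F + (hit J (cut h q) F - hit J (cutL (cut h q) R) F) := by
      unfold loss; ring
    rw [e]
    nlinarith [sq_nonneg (loss J h q F - (hit J (cut h q) F - hit J (cutL (cut h q) R) F))]

/-- mean square of the loss of a uniform `(j+2)`-clause, after `i` uniform `(j+2)`-clauses, along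
`a` uniform `(j+3)`-clauses -/
noncomputable def Lq (J j n i a : ℕ) : ℝ :=
  EL (α := Clause (j + 2) n) i (fun E => EL (α := Clause (j + 3) n) a (fun P =>
    avg (fun q : Clause (j + 2) n => loss J (cutL (fun _ => 0) E) q P ^ 2)))

/-- mean of `chain` -/
noncomputable def Wc (J j n i a e : ℕ) : ℝ :=
  EL (α := Clause (j + 2) n) i (fun E => EL (α := Clause (j + 3) n) a (fun P =>
    EL (α := Clause (j + 2) n) e (fun R => chain J (cutL (fun _ => 0) E) R P)))

theorem cutL_zero_cons (q : Clause m n) (E : List (Clause m n)) :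
    cutL (fun _ => 0) (q :: E) = cut (cutL (fun _ => 0) E) q := by
  rw [cutL_cons, cutL_cut_comm]

theorem Wc_succ (hn : j + 3 ≤ n) (i a e : ℕ) :
    Wc J j n i a (e + 1) = 2 * Lq J j n i a + 2 * Wc J j n (i + 1) a e := by
  have : Nonempty (Clause (j + 2) n) := nonempty_clause (by omega)
  have : Nonempty (Clause (j + 3) n) := nonempty_clause hn
  have e1 : ∀ (E : List (Clause (j + 2) n)) (P : List (Clause (j + 3) n)),
      EL (α := Clause (j + 2) n) (e + 1) (fun R => chain J (cutL (fun _ => 0) E) R P) =
      2 * avg (fun q : Clause (j + 2) n => loss J (cutL (fun _ => 0) E) q P ^ 2) +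
        2 * avg (fun q : Clause (j + 2) n => EL (α := Clause (j + 2) n) e (fun R =>
          chain J (cutL (fun _ => 0) (q :: E)) R P)) := by
    intro E P
    rw [EL_succ, ← avg_const_mul, ← avg_const_mul, ← avg_add]
    refine avg_congr fun q => ?_
    rw [← EL_const_mul, ← EL_const (α := Clause (j + 2) n) e
      (2 * loss J (cutL (fun _ => 0) E) q P ^ 2), ← EL_add]
    refine EL_congr fun R => ?_
    rw [cutL_zero_cons]
    rfl
  unfold Wc Lq
  have e2 : ∀ E : List (Clause (j + 2) n),
      EL (α := Clause (j + 3) n) a (fun P => EL (α := Clause (j + 2) n) (e + 1)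
        (fun R => chain J (cutL (fun _ => 0) E) R P)) =
      2 * EL (α := Clause (j + 3) n) a (fun P =>
        avg (fun q : Clause (j + 2) n => loss J (cutL (fun _ => 0) E) q P ^ 2)) +
      2 * avg (fun q : Clause (j + 2) n => EL (α := Clause (j + 3) n) a (fun P =>
        EL (α := Clause (j + 2) n) e (fun R => chain J (cutL (fun _ => 0) (q :: E)) R P))) := by
    intro E
    rw [← EL_const_mul, ← EL_avg_comm, ← EL_const_mul, ← EL_add]
    exact EL_congr fun P => e1 E P
  rw [EL_congr e2, EL_add, EL_const_mul, EL_const_mul, EL_avg_comm]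
  rfl

theorem Wc_le (hn : j + 3 ≤ n) (a : ℕ) (Λ : ℝ) (hΛ : 0 ≤ Λ)
    (hL : ∀ i, Lq J j n i a ≤ Λ * 2 ^ i) (e : ℕ) : ∀ i, Wc J j n i a e ≤ Λ * 2 ^ i * (4 ^ e - 1) := by
  induction e with
  | zero =>
    intro i
    have : Wc J j n i a 0 = 0 := by
      unfold Wc
      show EL i (fun E => EL a (fun P => (0 : ℝ))) = 0
      rw [EL_congr fun E => EL_zero_fun a, EL_zero_fun]
    rw [this]; simp
  | succ e ih =>
    intro i
    rw [Wc_succ hn]
    have h1 := hL i
    have h2 := ih (i + 1)
    have h3 : (0 : ℝ) ≤ Λ * 2 ^ i := by positivity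
    calc 2 * Lq J j n i a + 2 * Wc J j n (i + 1) a e
        ≤ 2 * (Λ * 2 ^ i) + 2 * (Λ * 2 ^ (i + 1) * (4 ^ e - 1)) := by linarith
      _ = Λ * 2 ^ i * (4 ^ (e + 1) - 2) := by ring
      _ ≤ Λ * 2 ^ i * (4 ^ (e + 1) - 1) := by
        refine mul_le_mul_of_nonneg_left ?_ h3; linarith

end Crest.Agent.R153.G
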