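import Crest.Agent.R153.Split

/-!
Row 153, part A at all energy levels (note 5721 of the captain): states are cost functions
`h : Asg n → ℕ`, `J` is the level (threshold).  `J = 0` and `h ∈ {0, >0}` is the `Finset` version.
Everything lives in the namespace `Crest.Agent.R153.G`; `avg`, `EL`, `Asg`, `fstLit`, `joinL`,
`joinR`, `pureL`, `redL`, `cnt`, `theta` are shared with the `Finset` version.
-/

set_option autoImplicit false

open Crest.ProbabilityR.RandomSAT

namespace Crest.Agent.R153.G

/-- states: cost functions on assignments -/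
abbrev Cost (n : ℕ) := Asg n → ℕ

/-- add a clause: cost `1` for the assignments violating it -/
noncomputable def cut {k n : ℕ} (h : Cost n) (c : Clause k n) : Cost n :=
  haveI := Classical.decPred (fun σ : Asg n => ClauseSat σ c)
  fun σ => h σ + if ClauseSat σ c then 0 else 1

/-- add a list of clauses -/
noncomputable def cutL {k n : ℕ} (h : Cost n) (E : List (Clause k n)) : Cost n :=
  E.foldl cut h

/-- add a (soft) literal -/
def cutLit {n : ℕ} (h : Cost n) (l : Fin n × Bool) : Cost n :=
  fun σ => h σ + if σ l.1 = l.2 then 0 else 1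

/-- `1` if some assignment has cost `≤ J`, else `0` -/
noncomputable def ne (J : ℕ) {n : ℕ} (h : Cost n) : ℝ := by
  classical exact if ∃ σ, h σ ≤ J then 1 else 0

/-- number of prefixes of `F` (from the empty one to `F` itself) with minimal cost `≤ J` -/
noncomputable def hit (J : ℕ) {k n : ℕ} : Cost n → List (Clause k n) → ℝ
  | h, [] => ne J h
  | h, c :: F => ne J h + hit J (cut h c) F

/-- frozen fraction: the proportion of literals `l` whose addition pushes the cost above `J` -/
noncomputable def phi1 (J : ℕ) {n : ℕ} (h : Cost n) : ℝ :=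
  avg (fun l : Fin n × Bool => 1 - ne J (cutLit h l))

/-- probability that a uniform `m`-clause pushes the cost above `J` -/
noncomputable def phi (J m : ℕ) {n : ℕ} (h : Cost n) : ℝ :=
  avg (fun q : Clause m n => 1 - ne J (cut h q))

/-- indicator that the cost is `≤ J` and the frozen fraction exceeds `ε` -/
noncomputable def frz (J : ℕ) (ε : ℝ) {n : ℕ} (h : Cost n) : ℝ := by
  classical exact if (∃ σ, h σ ≤ J) ∧ ε < phi1 J h then 1 else 0

/-- number of prefixes `F'` of `F` with cost `≤ J` and frozen fraction `> ε` -/
noncomputable def Teps (J : ℕ) (ε : ℝ) {k n : ℕ} : Cost n → List (Clause k n) → ℝ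
  | h, [] => frz J ε h
  | h, c :: F => frz J ε h + Teps J ε (cut h c) F

/-- second moment of the loss caused by a random (soft) literal, at level `J`, in the process with
`i` random `(j+2)`-clauses present at time `0` and `M` random `(j+3)`-clauses. -/
noncomputable def DD (J j n i M : ℕ) : ℝ :=
  EL (α := Clause (j + 2) n) i (fun E => EL (α := Clause (j + 3) n) M (fun F =>
    avg (fun l : Fin n × Bool =>
      (hit J (cutL (fun _ => 0) E) F - hit J (cutLit (cutL (fun _ => 0) E) l) F) ^ 2)))

section basic

variable {J k m n : ℕ}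

open Classical in
theorem cut_apply (h : Cost n) (c : Clause k n) (σ : Asg n) :
    cut h c σ = h σ + if ClauseSat σ c then 0 else 1 := by
  unfold cut
  congr

theorem cutLit_apply (h : Cost n) (l : Fin n × Bool) (σ : Asg n) :
    cutLit h l σ = h σ + if σ l.1 = l.2 then 0 else 1 := rfl

theorem cut_of_sat {h : Cost n} {c : Clause k n} {σ : Asg n} (hs : ClauseSat σ c) :
    cut h c σ = h σ := by
  rw [cut_apply, if_pos hs, add_zero]

theorem cut_of_not_sat {h : Cost n} {c : Clause k n} {σ : Asg n} (hs : ¬ ClauseSat σ c) :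
    cut h c σ = h σ + 1 := by
  rw [cut_apply, if_neg hs]

theorem cutLit_of_eq {h : Cost n} {l : Fin n × Bool} {σ : Asg n} (hs : σ l.1 = l.2) :
    cutLit h l σ = h σ := by
  rw [cutLit_apply, if_pos hs, add_zero]

theorem cutLit_of_ne {h : Cost n} {l : Fin n × Bool} {σ : Asg n} (hs : σ l.1 ≠ l.2) :
    cutLit h l σ = h σ + 1 := by
  rw [cutLit_apply, if_neg hs]

theorem le_cut (h : Cost n) (c : Clause k n) : h ≤ cut h c := fun σ => by
  rw [cut_apply]; exact Nat.le_add_right _ _

theorem cut_le_succ (h : Cost n) (c : Clause k n) (σ : Asg n) : cut h c σ ≤ h σ + 1 := by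
  rw [cut_apply]; split_ifs <;> omega

theorem le_cutLit (h : Cost n) (l : Fin n × Bool) : h ≤ cutLit h l := fun σ => by
  rw [cutLit_apply]; exact Nat.le_add_right _ _

theorem cutLit_le_succ (h : Cost n) (l : Fin n × Bool) (σ : Asg n) :
    cutLit h l σ ≤ h σ + 1 := by
  rw [cutLit_apply]; split_ifs <;> omega

theorem cut_mono {h g : Cost n} (hg : h ≤ g) (c : Clause k n) : cut h c ≤ cut g c := fun σ => by
  rw [cut_apply, cut_apply]; exact Nat.add_le_add_right (hg σ) _

theorem cutLit_mono {h g : Cost n} (hg : h ≤ g) (l : Fin n × Bool) : cutLit h l ≤ cutLit g l :=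
  fun σ => Nat.add_le_add_right (hg σ) _

@[simp] theorem cutL_nil (h : Cost n) : cutL h ([] : List (Clause k n)) = h := rfl

theorem cutL_cons (h : Cost n) (c : Clause k n) (E : List (Clause k n)) :
    cutL h (c :: E) = cutL (cut h c) E := rfl

theorem cutL_append (h : Cost n) (E E' : List (Clause k n)) :
    cutL h (E ++ E') = cutL (cutL h E) E' := by
  unfold cutL; rw [List.foldl_append]

theorem cutL_mono {h g : Cost n} (hg : h ≤ g) (E : List (Clause k n)) : cutL h E ≤ cutL g E := by
  induction E generalizing h g with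
  | nil => exact hg
  | cons c E ih => exact ih (cut_mono hg c)

theorem le_cutL (h : Cost n) (E : List (Clause k n)) : h ≤ cutL h E := by
  induction E generalizing h with
  | nil => exact le_rfl
  | cons c E ih => exact (le_cut h c).trans (ih _)

open Classical in
/-- explicit form: `cutL` adds the number of violated clauses -/
theorem cutL_apply (h : Cost n) (E : List (Clause k n)) (σ : Asg n) :
    cutL h E σ = h σ + (E.filter (fun c => ¬ ClauseSat σ c)).length := by
  induction E generalizing h with
  | nil => simp
  | cons c E ih =>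
    rw [cutL_cons, ih]
    by_cases hs : ClauseSat σ c
    · rw [cut_of_sat hs, List.filter_cons_of_neg (by simpa using hs)]
    · rw [cut_of_not_sat hs, List.filter_cons_of_pos (by simpa using hs), List.length_cons]
      omega

theorem cut_comm (h : Cost n) (c : Clause k n) (d : Clause m n) :
    cut (cut h c) d = cut (cut h d) c := by
  funext σ
  simp only [cut_apply]
  omega

theorem cutLit_cut_comm (h : Cost n) (l : Fin n × Bool) (d : Clause m n) :
    cutLit (cut h d) l = cut (cutLit h l) d := by
  funext σ
  simp only [cut_apply, cutLit_apply]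
  omega

theorem cutLit_comm (h : Cost n) (l l' : Fin n × Bool) :
    cutLit (cutLit h l) l' = cutLit (cutLit h l') l := by
  funext σ
  simp only [cutLit_apply]
  omega

theorem cutL_cut_comm (h : Cost n) (E : List (Clause k n)) (d : Clause m n) :
    cutL (cut h d) E = cut (cutL h E) d := by
  induction E generalizing h with
  | nil => rfl
  | cons c E ih => rw [cutL_cons, cutL_cons, ← ih, cut_comm]

theorem cutL_comm (h : Cost n) (E : List (Clause k n)) (D : List (Clause m n)) :
    cutL (cutL h D) E = cutL (cutL h E) D := by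
  induction D generalizing h with
  | nil => rfl
  | cons c D ih => rw [cutL_cons, cutL_cons, ih, cutL_cut_comm]

theorem cutL_cutLit_comm (h : Cost n) (E : List (Clause k n)) (l : Fin n × Bool) :
    cutL (cutLit h l) E = cutLit (cutL h E) l := by
  induction E generalizing h with
  | nil => rfl
  | cons c E ih => rw [cutL_cons, cutL_cons, ← ih, cutLit_cut_comm]

/-- a clause costs at most its first literal -/
theorem cut_le_cutLit (h : Cost n) (q : Clause (m + 1) n) : cut h q ≤ cutLit h (fstLit q) := by
  intro σ
  by_cases hs : σ (fstLit q).1 = (fstLit q).2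
  · rw [cutLit_of_eq hs, cut_of_sat ⟨0, hs⟩]
  · rw [cutLit_of_ne hs]
    exact cut_le_succ h q σ

theorem ne_nonneg (h : Cost n) : 0 ≤ ne J h := by unfold ne; split_ifs <;> norm_num

theorem ne_le_one (h : Cost n) : ne J h ≤ 1 := by unfold ne; split_ifs <;> norm_num

theorem ne_of_exists {h : Cost n} (hh : ∃ σ, h σ ≤ J) : ne J h = 1 := by
  unfold ne; rw [if_pos hh]

theorem ne_eq_zero {h : Cost n} (hh : ¬ ∃ σ, h σ ≤ J) : ne J h = 0 := by
  unfold ne; rw [if_neg hh]

theorem ne_eq_one_iff {h : Cost n} : ne J h = 1 ↔ ∃ σ, h σ ≤ J := by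
  constructor
  · intro h1
    by_contra hc
    rw [ne_eq_zero hc] at h1
    exact zero_ne_one h1
  · exact ne_of_exists

theorem ne_zero_or_one (h : Cost n) : ne J h = 0 ∨ ne J h = 1 := by
  by_cases hh : ∃ σ, h σ ≤ J
  · right; exact ne_of_exists hh
  · left; exact ne_eq_zero hh

/-- a larger cost is less satisfiable -/
theorem ne_anti {h g : Cost n} (hg : h ≤ g) : ne J g ≤ ne J h := by
  by_cases hh : ∃ σ, g σ ≤ J
  · obtain ⟨σ, hσ⟩ := hh
    rw [ne_of_exists ⟨σ, (hg σ).trans hσ⟩]
    exact ne_le_one g
  · rw [ne_eq_zero hh]; exact ne_nonneg h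

theorem ne_mono_level {J' : ℕ} (hJ : J ≤ J') (h : Cost n) : ne J h ≤ ne J' h := by
  by_cases hh : ∃ σ, h σ ≤ J
  · obtain ⟨σ, hσ⟩ := hh
    rw [ne_of_exists (J := J') ⟨σ, hσ.trans hJ⟩]
    exact ne_le_one h
  · rw [ne_eq_zero hh]; exact ne_nonneg h

@[simp] theorem hit_nil (h : Cost n) : hit J h ([] : List (Clause k n)) = ne J h := rfl

theorem hit_cons (h : Cost n) (c : Clause k n) (F : List (Clause k n)) :
    hit J h (c :: F) = ne J h + hit J (cut h c) F := rfl

theorem hit_nonneg (h : Cost n) (F : List (Clause k n)) : 0 ≤ hit J h F := by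
  induction F generalizing h with
  | nil => exact ne_nonneg h
  | cons c F ih => exact add_nonneg (ne_nonneg h) (ih _)

theorem hit_anti {h g : Cost n} (hg : h ≤ g) (F : List (Clause k n)) :
    hit J g F ≤ hit J h F := by
  induction F generalizing h g with
  | nil => exact ne_anti hg
  | cons c F ih => exact add_le_add (ne_anti hg) (ih (cut_mono hg c))

theorem hit_eq_zero {h : Cost n} (hh : ¬ ∃ σ, h σ ≤ J) (F : List (Clause k n)) :
    hit J h F = 0 := by
  induction F generalizing h with
  | nil => exact ne_eq_zero hh
  | cons c F ih =>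
    rw [hit_cons, ne_eq_zero hh, zero_add]
    refine ih ?_
    rintro ⟨σ, hσ⟩
    exact hh ⟨σ, (le_cut h c σ).trans hσ⟩

theorem hit_le_length (h : Cost n) (F : List (Clause k n)) : hit J h F ≤ F.length + 1 := by
  induction F generalizing h with
  | nil => simpa [hit] using ne_le_one (J := J) h
  | cons c F ih =>
    rw [hit_cons]
    have := ne_le_one (J := J) h
    have := ih (cut h c)
    push_cast [List.length_cons]
    linarith

theorem ne_le_hit (h : Cost n) (F : List (Clause k n)) : ne J h ≤ hit J h F := by
  cases F with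
  | nil => exact le_rfl
  | cons c F =>
    rw [hit_cons]
    linarith [hit_nonneg (J := J) (cut h c) F]

theorem frz_zero_or_one (ε : ℝ) (h : Cost n) : frz J ε h = 0 ∨ frz J ε h = 1 := by
  unfold frz; split_ifs <;> simp

theorem frz_nonneg (ε : ℝ) (h : Cost n) : 0 ≤ frz J ε h := by
  rcases frz_zero_or_one (J := J) ε h with h | h <;> rw [h] <;> norm_num

theorem Teps_nonneg (ε : ℝ) (h : Cost n) (F : List (Clause k n)) : 0 ≤ Teps J ε h F := by
  induction F generalizing h with
  | nil => exact frz_nonneg ε h
  | cons c F ih => exact add_nonneg (frz_nonneg ε h) (ih _)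

/-- taking one more prefix changes `hit` by at most one -/
theorem hit_take_le (h : Cost n) (F : List (Clause k n)) (N : ℕ) :
    hit J h (F.take N) ≤ hit J h F := by
  induction F generalizing h N with
  | nil => simp
  | cons c F ih =>
    cases N with
    | zero =>
      rw [List.take_zero, hit_nil, hit_cons]
      linarith [hit_nonneg (J := J) (cut h c) F]
    | succ N =>
      rw [List.take_succ_cons, hit_cons, hit_cons]
      linarith [ih (cut h c) N]

end basic

end Crest.Agent.R153.G
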