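import Crest.Agent.R153.GDefs

/-! Row 153, part A at all levels: deterministic elimination of a variable (cost functions). -/

set_option autoImplicit false

open Crest.ProbabilityR.RandomSAT

namespace Crest.Agent.R153.G

variable {J m n : ℕ}

/-- `Y` is below `h` after forgetting `v` -/
def Below (v : Fin (n + 1)) (h : Cost (n + 1)) (Y : Cost n) : Prop :=
  ∀ σ : Asg (n + 1), Y (fun i => σ (v.succAbove i)) ≤ h σ

/-- `Z` is above the slice `v = b` of `h` -/
def Above (v : Fin (n + 1)) (b : Bool) (h : Cost (n + 1)) (Z : Cost n) : Prop :=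
  ∀ τ : Asg n, h (v.insertNth b τ : Asg (n + 1)) ≤ Z τ

theorem Below.le_of_above {v : Fin (n + 1)} {b : Bool} {h : Cost (n + 1)} {Y Z : Cost n}
    (hY : Below v h Y) (hZ : Above v b h Z) : Y ≤ Z := by
  intro τ
  have h1 := hY (v.insertNth b τ : Asg (n + 1))
  have h2 : (fun i => (v.insertNth b τ : Asg (n + 1)) (v.succAbove i)) = τ := by
    funext i; simp
  rw [h2] at h1
  exact h1.trans (hZ τ)

theorem ne_le_below {v : Fin (n + 1)} {h : Cost (n + 1)} {Y : Cost n} (hY : Below v h Y) :
    ne J h ≤ ne J Y := by
  by_cases hX : ∃ σ, h σ ≤ J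
  · obtain ⟨σ, hσ⟩ := hX
    rw [ne_of_exists (h := Y) ⟨_, (hY σ).trans hσ⟩]
    exact ne_le_one h
  · rw [ne_eq_zero hX]
    exact ne_nonneg Y

theorem ne_above_le {v : Fin (n + 1)} {b : Bool} {h : Cost (n + 1)} {Z : Cost n}
    (hZ : Above v b h Z) : ne J Z ≤ ne J (cutLit h (v, b)) := by
  by_cases hX : ∃ τ, Z τ ≤ J
  · obtain ⟨τ, hτ⟩ := hX
    have h1 : cutLit h (v, b) (v.insertNth b τ : Asg (n + 1)) ≤ J := by
      rw [cutLit_of_eq (by simp)]
      exact (hZ τ).trans hτ
    rw [ne_of_exists ⟨_, h1⟩]
    exact ne_le_one Z
  · rw [ne_eq_zero hX]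
    exact ne_nonneg _

theorem ne_sub_le_hit_sub {k : ℕ} {A Y : Cost n} (h : Y ≤ A) (P : List (Clause k n)) :
    ne J Y - ne J A ≤ hit J Y P - hit J A P := by
  by_cases hA : ∃ σ, A σ ≤ J
  · obtain ⟨σ, hσ⟩ := hA
    rw [ne_of_exists (h := A) ⟨σ, hσ⟩, ne_of_exists (h := Y) ⟨σ, (h σ).trans hσ⟩]
    have := hit_anti (J := J) h P
    linarith
  · rw [hit_eq_zero hA, ne_eq_zero hA]
    have := ne_le_hit (J := J) Y P
    linarith

/-- losses are nonnegative -/
theorem loss_nonneg {k : ℕ} {A Y : Cost n} (h : Y ≤ A) (P : List (Clause k n)) :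
    0 ≤ hit J Y P - hit J A P := sub_nonneg.2 (hit_anti h P)

theorem insertNth_comp (v : Fin (n + 1)) (b : Bool) (τ : Asg n) :
    (fun i => (v.insertNth b τ : Asg (n + 1)) (v.succAbove i)) = τ := by
  funext i; simp

theorem loss_elim (v : Fin (n + 1)) (b : Bool) (h : Cost (n + 1))
    (Y Z : Cost n) (hY : Below v h Y) (hZ : Above v b h Z)
    (F : List (Clause (m + 1) (n + 1))) :
    hit J h F - hit J (cutLit h (v, b)) F ≤
      (1 + cnt v F) * (hit J Y (pureL v F) - hit J (cutL Z (redL v b F)) (pureL v F)) := by
  induction F generalizing h Y Z with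
  | nil =>
    have h1 := ne_le_below (J := J) hY
    have h2 := ne_above_le (J := J) hZ
    show ne J h - ne J (cutLit h (v, b)) ≤ (1 + ((0 : ℕ) : ℝ)) * (ne J Y - ne J Z)
    push_cast
    linarith
  | cons c F ih =>
    have h1 := ne_le_below (J := J) hY
    have h2 := ne_above_le (J := J) hZ
    have hZY : Y ≤ Z := hY.le_of_above hZ
    have hcnt : (0 : ℝ) ≤ cnt v F := Nat.cast_nonneg _
    revert c
    refine cases_clause v ?_ ?_
    · intro c
      have ih' := ih (cut h (joinL v c)) (cut Y c) (cut Z c) (by
          intro σ
          have h0 := hY σ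
          by_cases hc : ClauseSat (fun i => σ (v.succAbove i)) c
          · rw [cut_of_sat hc, cut_of_sat ((clauseSat_joinL v c σ).2 hc)]
            exact h0
          · rw [cut_of_not_sat hc, cut_of_not_sat (fun hh => hc ((clauseSat_joinL v c σ).1 hh))]
            exact Nat.succ_le_succ h0) (by
          intro τ
          have h0 := hZ τ
          have e0 := clauseSat_joinL v c (v.insertNth b τ : Asg (n + 1))
          rw [insertNth_comp] at e0
          by_cases hc : ClauseSat τ c
          · rw [cut_of_sat hc, cut_of_sat (e0.2 hc)]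
            exact h0
          · rw [cut_of_not_sat hc, cut_of_not_sat (fun hh => hc (e0.1 hh))]
            exact Nat.succ_le_succ h0)
      rw [cnt_consL, pureL_consL, redL_consL]
      have e1 : hit J h (joinL v c :: F) = ne J h + hit J (cut h (joinL v c)) F := rfl
      have e2 : hit J (cutLit h (v, b)) (joinL v c :: F) =
          ne J (cutLit h (v, b)) + hit J (cutLit (cut h (joinL v c)) (v, b)) F := by
        rw [cutLit_cut_comm]; rfl
      have e3 : hit J Y (c :: pureL v F) = ne J Y + hit J (cut Y c) (pureL v F) := rfl
      have e4 : hit J (cutL Z (redL v b F)) (c :: pureL v F) =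
          ne J (cutL Z (redL v b F)) + hit J (cutL (cut Z c) (redL v b F)) (pureL v F) := by
        rw [cutL_cut_comm]; rfl
      rw [e1, e2, e3, e4]
      have h3 : ne J (cutL Z (redL v b F)) ≤ ne J Z := ne_anti (le_cutL _ _)
      have h4 : 0 ≤ (cnt v F : ℝ) * (ne J Y - ne J (cutL Z (redL v b F))) := by
        apply mul_nonneg hcnt
        have := ne_anti (J := J) hZY
        linarith
      nlinarith
    · intro i s q
      by_cases hs : s = b
      · subst hs
        have ih' := ih (cut h (joinR v i s q)) Y Z (by
            intro σ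
            exact (hY σ).trans (le_cut h _ σ)) (by
            intro τ
            rw [cut_of_sat ((clauseSat_joinR v i s q _).2 (Or.inl (by simp)))]
            exact hZ τ)
        rw [cnt_consR, pureL_consR, redL_consR_eq]
        have e1 : hit J h (joinR v i s q :: F) = ne J h + hit J (cut h (joinR v i s q)) F := rfl
        have e2 : hit J (cutLit h (v, s)) (joinR v i s q :: F) =
            ne J (cutLit h (v, s)) + hit J (cutLit (cut h (joinR v i s q)) (v, s)) F := by
          rw [cutLit_cut_comm]; rfl
        rw [e1, e2]
        have h3 : ne J (cutL Z (redL v s F)) ≤ ne J Z := ne_anti (le_cutL _ _)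
        have h5 := ne_sub_le_hit_sub (J := J) (hZY.trans (le_cutL Z (redL v s F))) (pureL v F)
        push_cast
        linarith
      · have ih' := ih (cut h (joinR v i s q)) Y (cut Z q) (by
            intro σ
            exact (hY σ).trans (le_cut h _ σ)) (by
            intro τ
            have h0 := hZ τ
            have e0 := clauseSat_joinR v i s q (v.insertNth b τ : Asg (n + 1))
            rw [insertNth_comp] at e0
            by_cases hc : ClauseSat τ q
            · rw [cut_of_sat hc, cut_of_sat (e0.2 (Or.inr hc))]
              exact h0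
            · rw [cut_of_not_sat hc]
              exact (cut_le_succ h _ _).trans (Nat.succ_le_succ h0))
        rw [cnt_consR, pureL_consR, redL_consR_ne v hs]
        have e1 : hit J h (joinR v i s q :: F) = ne J h + hit J (cut h (joinR v i s q)) F := rfl
        have e2 : hit J (cutLit h (v, b)) (joinR v i s q :: F) =
            ne J (cutLit h (v, b)) + hit J (cutLit (cut h (joinR v i s q)) (v, b)) F := by
          rw [cutLit_cut_comm]; rfl
        rw [e1, e2, cutL_cons]
        have hsub : Z ≤ cutL (cut Z q) (redL v b F) := (le_cut Z q).trans (le_cutL _ _)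
        have h3 : ne J (cutL (cut Z q) (redL v b F)) ≤ ne J Z := ne_anti hsub
        have h5 := ne_sub_le_hit_sub (J := J) (hZY.trans hsub) (pureL v F)
        push_cast
        linarith

/-- environment: forgetting `v` -/
theorem below_cutL (v : Fin (n + 1)) (h : Cost (n + 1)) (Y : Cost n) (hY : Below v h Y)
    (E : List (Clause (m + 1) (n + 1))) : Below v (cutL h E) (cutL Y (pureL v E)) := by
  induction E generalizing h Y with
  | nil => exact hY
  | cons c E ih =>
    revert c
    refine cases_clause v ?_ ?_
    · intro c
      rw [pureL_consL, cutL_cons, cutL_cons]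
      refine ih _ _ ?_
      intro σ
      have h0 := hY σ
      by_cases hc : ClauseSat (fun i => σ (v.succAbove i)) c
      · rw [cut_of_sat hc, cut_of_sat ((clauseSat_joinL v c σ).2 hc)]
        exact h0
      · rw [cut_of_not_sat hc, cut_of_not_sat (fun hh => hc ((clauseSat_joinL v c σ).1 hh))]
        exact Nat.succ_le_succ h0
    · intro i s q
      rw [pureL_consR, cutL_cons]
      exact ih _ _ fun σ => (hY σ).trans (le_cut h _ σ)

/-- environment: slice `v = b` -/
theorem above_cutL (v : Fin (n + 1)) (b : Bool) (h : Cost (n + 1)) (Z : Cost n)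
    (hZ : Above v b h Z) (E : List (Clause (m + 1) (n + 1))) :
    Above v b (cutL h E) (cutL (cutL Z (pureL v E)) (redL v b E)) := by
  induction E generalizing h Z with
  | nil => exact hZ
  | cons c E ih =>
    revert c
    refine cases_clause v ?_ ?_
    · intro c
      rw [pureL_consL, redL_consL, cutL_cons, cutL_cons]
      refine ih _ _ ?_
      intro τ
      have h0 := hZ τ
      have e0 := clauseSat_joinL v c (v.insertNth b τ : Asg (n + 1))
      rw [insertNth_comp] at e0
      by_cases hc : ClauseSat τ c
      · rw [cut_of_sat hc, cut_of_sat (e0.2 hc)]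
        exact h0
      · rw [cut_of_not_sat hc, cut_of_not_sat (fun hh => hc (e0.1 hh))]
        exact Nat.succ_le_succ h0
    · intro i s q
      have e0 := fun τ => clauseSat_joinR v i s q (v.insertNth b τ : Asg (n + 1))
      by_cases hs : s = b
      · subst hs
        rw [pureL_consR, redL_consR_eq, cutL_cons]
        refine ih _ _ fun τ => ?_
        rw [cut_of_sat ((e0 τ).2 (Or.inl (by simp)))]
        exact hZ τ
      · rw [pureL_consR, redL_consR_ne v hs, cutL_cons, cutL_cons, ← cutL_cut_comm]
        refine ih _ _ fun τ => ?_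
        have h0 := hZ τ
        have e1 := e0 τ
        rw [insertNth_comp] at e1
        by_cases hc : ClauseSat τ q
        · rw [cut_of_sat hc, cut_of_sat (e1.2 (Or.inr hc))]
          exact h0
        · rw [cut_of_not_sat hc]
          exact (cut_le_succ h _ _).trans (Nat.succ_le_succ h0)

theorem below_zero (v : Fin (n + 1)) : Below v (fun _ => 0) (fun _ => 0) := fun _ => le_rfl

theorem above_zero (v : Fin (n + 1)) (b : Bool) : Above v b (fun _ => 0) (fun _ => 0) :=
  fun _ => le_rfl

/-- horizon: the loss over a long list is at most the loss over its truncation plus the number of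
additional prefixes -/
theorem loss_le_take {k : ℕ} {A Y : Cost n} (h : Y ≤ A) (F : List (Clause k n)) (N : ℕ) :
    hit J Y F - hit J A F ≤
      (hit J Y (F.take N) - hit J A (F.take N)) + ((F.length - N : ℕ) : ℝ) := by
  induction F generalizing A Y N with
  | nil => simp
  | cons c F ih =>
    cases N with
    | zero =>
      have h1 := ne_sub_le_hit_sub (J := J) h ([] : List (Clause k n))
      have h2 : hit J (cut Y c) F - hit J (cut A c) F ≤ F.length + 1 := by
        have h3 := hit_le_length (J := J) (cut Y c) F
        have h4 := hit_nonneg (J := J) (cut A c) F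
        linarith
      rw [List.take_zero, hit_cons, hit_cons, hit_nil, hit_nil]
      simp only [List.length_cons, Nat.sub_zero]
      push_cast
      linarith
    | succ N =>
      rw [List.take_succ_cons, hit_cons, hit_cons, hit_cons, hit_cons]
      have h1 := ih (cut_mono h c) N
      have e : (c :: F).length - (N + 1) = F.length - N := by simp
      rw [e]
      linarith

end Crest.Agent.R153.G
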