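import Crest.Agent.R153.GFrozen
import Crest.Agent.R153.GeomAbs

/-! Row 153, part A at all energy levels, task GGEOM: the number of steps with frozen fraction
`> ε` has bounded second moment (instance of helper857's `GeomAbs`). -/

set_option autoImplicit false

open Crest.ProbabilityR.RandomSAT

namespace Crest.Agent.R153.G

variable {J k n : ℕ}

theorem Teps_eq_visits (ε : ℝ) (F : List (Clause k n)) (h : Cost n) :
    Teps J ε h F = visits (fun (g : Cost n) (c : Clause k n) => cut g c) (frz J ε) h F := by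
  induction F generalizing h with
  | nil => rfl
  | cons c F ih =>
    show frz J ε h + Teps J ε (cut h c) F = frz J ε h + _
    rw [ih]

theorem frz_eq_zero_of_ne {ε : ℝ} {h : Cost n} (hh : ne J h = 0) : frz J ε h = 0 := by
  unfold frz
  rw [if_neg]
  rintro ⟨h1, _⟩
  rw [ne_of_exists h1] at hh
  exact one_ne_zero hh

theorem frz_eq_one {ε : ℝ} {h : Cost n} (hh : frz J ε h = 1) :
    (∃ σ, h σ ≤ J) ∧ ε < phi1 J h := by
  by_contra hc
  unfold frz at hh
  rw [if_neg hc] at hh
  exact zero_ne_one hh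

theorem ne_cut_eq_zero {h : Cost n} (c : Clause k n) (hh : ne J h = 0) : ne J (cut h c) = 0 :=
  le_antisymm (hh ▸ ne_anti (le_cut h c)) (ne_nonneg _)

theorem avg_ne_cut_le (h : Cost n) : avg (fun c : Clause k n => ne J (cut h c)) ≤ 1 - phi J k h := by
  have e : (fun c : Clause k n => ne J (cut h c))
      = (fun c : Clause k n => 1 - (1 - ne J (cut h c))) := by
    funext c; ring
  rw [e, avg_sub]
  have h1 : avg (fun _ : Clause k n => (1 : ℝ)) ≤ 1 := avg_const_le zero_le_one
  have h2 : avg (fun c : Clause k n => 1 - ne J (cut h c)) = phi J k h := rfl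
  rw [h2]
  linarith

/-- first and second moments of the number of steps with frozen fraction `> ε` -/
theorem EL_Teps_both (J k : ℕ) {n : ℕ} (ε : ℝ) (hε : 0 < ε) (hε1 : ε ≤ 1)
    (hn : (k : ℝ) ≤ ε * n) (M : ℕ) (h : Cost n) :
    EL M (fun F : List (Clause k n) => Teps J ε h F) ≤ ne J h * (1 / (ε / 2) ^ k) ∧
    EL M (fun F : List (Clause k n) => (Teps J ε h F) ^ 2)
      ≤ ne J h * (2 / ((ε / 2) ^ k) ^ 2) := by
  have hp0 : 0 < (ε / 2) ^ k := by positivity
  have hp1 : (ε / 2) ^ k ≤ 1 := pow_le_one₀ (by positivity) (by linarith)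
  simp only [Teps_eq_visits]
  refine EL_visits (fun (g : Cost n) (c : Clause k n) => cut g c) (frz J ε) (ne J) _ hp0 hp1
    (frz_zero_or_one ε) ne_zero_or_one (fun s => frz_eq_zero_of_ne)
    (fun s c => ne_cut_eq_zero c) ?_ M h
  intro s hs
  obtain ⟨h1, h2⟩ := frz_eq_one hs
  have := phi_lower J k ε hε hn s h1 h2
  have := avg_ne_cut_le (J := J) (k := k) s
  linarith

/-- the number of steps with frozen fraction `> ε` is dominated by a geometric variable -/
theorem EL_Teps_sq_le (J k : ℕ) {n : ℕ} (ε : ℝ) (hε : 0 < ε) (hε1 : ε ≤ 1)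
    (hn : (k : ℝ) ≤ ε * n) (M : ℕ) (h : Cost n) :
    EL M (fun F : List (Clause k n) => (Teps J ε h F) ^ 2) ≤ 2 / ((ε / 2) ^ k) ^ 2 := by
  refine ((EL_Teps_both J k ε hε hε1 hn M h).2).trans ?_
  have hp0 : 0 < (ε / 2) ^ k := by positivity
  have h2 : (0 : ℝ) ≤ 2 / ((ε / 2) ^ k) ^ 2 := by positivity
  exact (mul_le_mul_of_nonneg_right (ne_le_one h) h2).trans (one_mul _).le

/-- the mean number of steps with frozen fraction `> ε` -/
theorem EL_Teps_le (J k : ℕ) {n : ℕ} (ε : ℝ) (hε : 0 < ε) (hε1 : ε ≤ 1)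
    (hn : (k : ℝ) ≤ ε * n) (M : ℕ) (h : Cost n) :
    EL M (fun F : List (Clause k n) => Teps J ε h F) ≤ 1 / (ε / 2) ^ k := by
  refine ((EL_Teps_both J k ε hε hε1 hn M h).1).trans ?_
  have hp0 : 0 < (ε / 2) ^ k := by positivity
  have h2 : (0 : ℝ) ≤ 1 / (ε / 2) ^ k := by positivity
  exact (mul_le_mul_of_nonneg_right (ne_le_one h) h2).trans (one_mul _).le

end Crest.Agent.R153.G
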