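import Crest.Agent.R153.GChain

/-! Row 153, all energy levels: the vertex elimination step (helper784). -/

set_option autoImplicit false

open Crest.ProbabilityR.RandomSAT

namespace Crest.Agent.R153.G

variable {J j k m n : ℕ}

/-- the variables not touched by the clauses of `E` -/
noncomputable def free {m n : ℕ} (E : List (Clause m n)) : Finset (Fin n) :=
  haveI := Classical.decPred (fun v : Fin n => ∀ c ∈ E, ∀ a, c.1.1 a ≠ v)
  Finset.univ.filter (fun v => ∀ c ∈ E, ∀ a, c.1.1 a ≠ v)

theorem mem_free {E : List (Clause m n)} {v : Fin n} :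
    v ∈ free E ↔ ∀ c ∈ E, ∀ a, c.1.1 a ≠ v := by
  unfold free; simp

/-- second moment of the loss caused by a random literal whose variable is not touched by the
`(j+2)`-clauses of the environment -/
noncomputable def DDu (J j n i M : ℕ) : ℝ :=
  EL (α := Clause (j + 2) n) i (fun E => EL (α := Clause (j + 3) n) M (fun F =>
    avg (fun l : Fin n × Bool => if l.1 ∈ free E then
      (hit J (cutL (fun _ => 0) E) F - hit J (cutLit (cutL (fun _ => 0) E) l) F) ^ 2 else 0)))

theorem cnt_eq_zero_of_free {E : List (Clause (m + 1) (n + 1))} {v : Fin (n + 1)}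
    (hv : v ∈ free E) : cnt v E = 0 := by
  induction E with
  | nil => rfl
  | cons c E ih =>
    rw [mem_free] at hv
    have h1 : v ∈ free E := mem_free.2 fun c' hc' => hv c' (List.mem_cons_of_mem _ hc')
    have h2 : ∀ a, c.1.1 a ≠ v := hv c List.mem_cons_self
    revert h2
    clear hv
    revert c
    refine cases_clause v ?_ ?_
    · intro c _
      rw [cnt_consL]; exact ih h1
    · intro i s q h2
      exact absurd (by simp [joinR]) (h2 i)

theorem redL_eq_nil {E : List (Clause (m + 1) (n + 1))} {v : Fin (n + 1)} (b : Bool)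
    (hv : cnt v E = 0) : redL v b E = [] := by
  induction E with
  | nil => rfl
  | cons c E ih =>
    revert hv
    revert c
    refine cases_clause v ?_ ?_
    · intro c hv
      rw [cnt_consL] at hv
      rw [redL_consL]; exact ih hv
    · intro i s q hv
      rw [cnt_consR] at hv
      exact absurd hv (Nat.succ_ne_zero _)

theorem length_pureL_le (v : Fin (n + 1)) (F : List (Clause (m + 1) (n + 1))) :
    (pureL v F).length ≤ F.length := by
  induction F with
  | nil => simp
  | cons c F ih =>
    revert c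
    refine cases_clause v ?_ ?_
    · intro c
      rw [pureL_consL, List.length_cons, List.length_cons]; omega
    · intro i s q
      rw [pureL_consR, List.length_cons]; omega

theorem one_add_sq_le_four_pow (c : ℕ) : ((1 : ℝ) + c) ^ 2 ≤ 4 ^ c := by
  have h : (1 : ℝ) + c ≤ 2 ^ c := by
    induction c with
    | zero => simp
    | succ c ih =>
      push_cast
      have : (1 : ℝ) ≤ 2 ^ c := one_le_pow₀ (by norm_num)
      rw [pow_succ]; linarith
  calc ((1 : ℝ) + c) ^ 2 ≤ (2 ^ c) ^ 2 := pow_le_pow_left₀ (by positivity) h 2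
    _ = 4 ^ c := by rw [← pow_mul, mul_comm, pow_mul]; norm_num

open Classical in
/-- the functional used in the elimination -/
noncomputable def Phi (J M : ℕ) {k m n : ℕ} (E : List (Clause m n)) (P : List (Clause k n))
    (R : List (Clause m n)) : ℝ :=
  if P.length ≤ M then chain J (cutL (fun _ => 0) E) R P else 0

theorem Phi_nonneg (M : ℕ) (E : List (Clause m n)) (P : List (Clause k n))
    (R : List (Clause m n)) : 0 ≤ Phi J M E P R := by
  unfold Phi; split_ifs
  · exact chain_nonneg _ _ _
  · exact le_rfl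

theorem loss_sq_le_Phi (v : Fin (n + 1)) (b : Bool) (M : ℕ)
    (E : List (Clause (j + 2) (n + 1))) (F : List (Clause (j + 3) (n + 1)))
    (hF : F.length = M) :
    (if v ∈ free E then (hit J (cutL (fun _ => 0) E) F -
      hit J (cutLit (cutL (fun _ => 0) E) (v, b)) F) ^ 2 else 0) ≤
      4 ^ (cnt v F) * ((0 : ℝ) ^ (cnt v E) * Phi J M (pureL v E) (pureL v F) (redL v b F)) := by
  split_ifs with hv
  · have h0 := cnt_eq_zero_of_free hv
    have hbel := below_cutL v (fun _ => 0) (fun _ => 0) (below_zero v) E
    have habv := above_cutL v b (fun _ => 0) (fun _ => 0) (above_zero v b) E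
    rw [redL_eq_nil b h0, cutL_nil] at habv
    have h1 := loss_elim (J := J) v b (cutL (fun _ => 0) E) _ _ hbel habv F
    rw [h0, pow_zero, one_mul]
    have hlen : (pureL v F).length ≤ M := hF ▸ length_pureL_le v F
    have hP : Phi J M (pureL v E) (pureL v F) (redL v b F) =
        chain J (cutL (fun _ => 0) (pureL v E)) (redL v b F) (pureL v F) := by
      unfold Phi; rw [if_pos hlen]
    rw [hP]
    have h2 := sq_le_chain (J := J) (cutL (fun _ => 0) (pureL v E)) (redL v b F) (pureL v F)
    have h3 : 0 ≤ hit J (cutL (fun _ => 0) E) F -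
        hit J (cutLit (cutL (fun _ => 0) E) (v, b)) F :=
      sub_nonneg.2 (hit_anti (le_cutLit _ _) F)
    calc _ ≤ ((1 + (cnt v F : ℝ)) * (hit J (cutL (fun _ => 0) (pureL v E)) (pureL v F) -
          hit J (cutL (cutL (fun _ => 0) (pureL v E)) (redL v b F)) (pureL v F))) ^ 2 :=
          pow_le_pow_left₀ h3 h1 2
      _ = (1 + (cnt v F : ℝ)) ^ 2 * (hit J (cutL (fun _ => 0) (pureL v E)) (pureL v F) -
          hit J (cutL (cutL (fun _ => 0) (pureL v E)) (redL v b F)) (pureL v F)) ^ 2 := by ring
      _ ≤ _ := mul_le_mul (one_add_sq_le_four_pow _) h2 (sq_nonneg _) (by positivity)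
  · have := Phi_nonneg (J := J) M (pureL v E) (pureL v F) (redL v b F)
    positivity

/-- the vertex elimination step -/
theorem DDu_succ_le (hn : j + 3 ≤ n) (M : ℕ) (Λ : ℝ) (hΛ : 0 ≤ Λ)
    (hL : ∀ i a, a ≤ M → Lq J j n i a ≤ Λ * 2 ^ i) (i : ℕ) :
    DDu J j (n + 1) i M ≤ Λ * 2 ^ i * (1 + 18 * theta (j + 2) n) ^ M := by
  have : Nonempty (Clause (j + 2) n) := nonempty_clause (by omega)
  have : Nonempty (Clause (j + 1) n) := nonempty_clause (by omega)
  have hθ := theta_nonneg (j + 2) n
  have hθ' := theta_nonneg (j + 1) n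
  have hθ1' := two_theta_le_one (m := j + 1) (n := n) (by omega)
  unfold DDu
  have hswap : EL (α := Clause (j + 2) (n + 1)) i (fun E => EL (α := Clause (j + 3) (n + 1)) M
      (fun F => avg (fun l : Fin (n + 1) × Bool => if l.1 ∈ free E then
      (hit J (cutL (fun _ => 0) E) F - hit J (cutLit (cutL (fun _ => 0) E) l) F) ^ 2 else 0))) =
      avg (fun l : Fin (n + 1) × Bool => EL (α := Clause (j + 2) (n + 1)) i
        (fun E => EL (α := Clause (j + 3) (n + 1)) M (fun F => if l.1 ∈ free E then
      (hit J (cutL (fun _ => 0) E) F - hit J (cutLit (cutL (fun _ => 0) E) l) F) ^ 2 else 0))) := by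
    rw [← EL_avg_comm]
    exact EL_congr fun E => EL_avg_comm M _
  rw [hswap]
  refine (avg_mono (g := fun _ => Λ * 2 ^ i * (1 + 18 * theta (j + 2) n) ^ M) ?_).trans
    (avg_const_le (by positivity))
  rintro ⟨v, b⟩
  -- bound by the functional
  have h1 : EL (α := Clause (j + 2) (n + 1)) i
        (fun E => EL (α := Clause (j + 3) (n + 1)) M (fun F => if v ∈ free E then
      (hit J (cutL (fun _ => 0) E) F - hit J (cutLit (cutL (fun _ => 0) E) (v, b)) F) ^ 2 else 0))
      ≤ EL (α := Clause (j + 2) (n + 1)) i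
        (fun E => EL (α := Clause (j + 3) (n + 1)) M (fun F =>
          4 ^ (cnt v F) * ((0 : ℝ) ^ (cnt v E) *
            Phi J M (pureL v E) (pureL v F) (redL v b F)))) :=
    EL_mono fun E => EL_mono' fun F hF => loss_sq_le_Phi v b M E F hF
  refine h1.trans ?_
  rw [EL_comm]
  have h2 : EL (α := Clause (j + 3) (n + 1)) M (fun F => EL (α := Clause (j + 2) (n + 1)) i
        (fun E => 4 ^ (cnt v F) * ((0 : ℝ) ^ (cnt v E) *
            Phi J M (pureL v E) (pureL v F) (redL v b F)))) =
      EL (α := Clause (j + 3) (n + 1)) M (fun F => 4 ^ (cnt v F) *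
        (fun P R => EL (α := Clause (j + 2) (n + 1)) i (fun E => (0 : ℝ) ^ (cnt v E) *
            Phi J M (pureL v E) P R)) (pureL v F) (redL v b F)) :=
    EL_congr fun F => EL_const_mul _ _ _
  rw [h2]
  refine (EL_pattern (m := j + 2) (by omega) v b 4 1 4 (by norm_num) (by norm_num) (by norm_num)
    M (Λ * 2 ^ i) (fun (P : List (Clause (j + 3) n)) (R : List (Clause (j + 2) n)) =>
      EL (α := Clause (j + 2) (n + 1)) i (fun E => (0 : ℝ) ^ (cnt v E) *
            Phi J M (pureL v E) P R)) (by positivity) ?_).trans (le_of_eq ?_)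
  swap
  · congr 2; ring
  intro a e
  rw [one_pow, mul_one]
  have h3 : EL (α := Clause (j + 3) n) a (fun P => EL (α := Clause (j + 2) n) e (fun R =>
      EL (α := Clause (j + 2) (n + 1)) i (fun E => (0 : ℝ) ^ (cnt v E) *
            Phi J M (pureL v E) P R))) =
      EL (α := Clause (j + 2) (n + 1)) i (fun E => (0 : ℝ) ^ (cnt v E) *
        (fun E' (_ : List (Clause (j + 1) n)) => EL (α := Clause (j + 3) n) a (fun P =>
          EL (α := Clause (j + 2) n) e (fun R => Phi J M E' P R))) (pureL v E) (redL v b E)) := by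
    rw [EL_congr fun P => EL_comm e i _, EL_comm]
    refine EL_congr fun E => ?_
    dsimp only
    rw [← EL_const_mul]
    refine EL_congr fun P => ?_
    rw [← EL_const_mul]
  show EL (α := Clause (j + 3) n) a (fun P => EL (α := Clause (j + 2) n) e (fun R =>
      EL (α := Clause (j + 2) (n + 1)) i (fun E => (0 : ℝ) ^ (cnt v E) *
            Phi J M (pureL v E) P R))) ≤ _
  rw [h3]
  refine (EL_pattern (m := j + 1) (by omega) v b 0 2 1 (by norm_num) (by norm_num) (by norm_num)
    i (Λ * 4 ^ e) (fun (E' : List (Clause (j + 2) n)) (_ : List (Clause (j + 1) n)) =>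
      EL (α := Clause (j + 3) n) a (fun P =>
          EL (α := Clause (j + 2) n) e (fun R => Phi J M E' P R))) (by positivity) ?_).trans ?_
  · intro i' e'
    rw [one_pow, mul_one, EL_congr fun E => EL_const e' _]
    by_cases ha : a ≤ M
    · have h4 : EL (α := Clause (j + 2) n) i' (fun E' => EL (α := Clause (j + 3) n) a (fun P =>
          EL (α := Clause (j + 2) n) e (fun R => Phi J M E' P R))) = Wc J j n i' a e := by
        unfold Wc
        refine EL_congr fun E' => EL_congr' fun P hP => EL_congr fun R => ?_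
        unfold Phi; rw [if_pos (hP ▸ ha)]
      rw [h4]
      refine (Wc_le hn a Λ hΛ (fun i => hL i a ha) e i').trans ?_
      have h5 : (0 : ℝ) ≤ Λ * 2 ^ i' := by positivity
      nlinarith
    · have h4 : EL (α := Clause (j + 2) n) i' (fun E' => EL (α := Clause (j + 3) n) a (fun P =>
          EL (α := Clause (j + 2) n) e (fun R => Phi J M E' P R))) = 0 := by
        rw [← EL_zero_fun (α := Clause (j + 2) n) i']
        refine EL_congr fun E' => ?_
        rw [← EL_zero_fun (α := Clause (j + 3) n) a]
        refine EL_congr' fun P hP => ?_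
        rw [← EL_zero_fun (α := Clause (j + 2) n) e]
        refine EL_congr fun R => ?_
        unfold Phi; rw [if_neg (hP ▸ ha)]
      rw [h4]
      positivity
  · have h6 : (1 - 2 * theta (j + 1) n) * 2 + theta (j + 1) n * (0 * 1) + theta (j + 1) n * 0 ≤ 2 := by
      linarith
    have h7 : 0 ≤ (1 - 2 * theta (j + 1) n) * 2 + theta (j + 1) n * (0 * 1) +
        theta (j + 1) n * 0 := by linarith
    calc _ ≤ Λ * 4 ^ e * 2 ^ i :=
          mul_le_mul_of_nonneg_left (pow_le_pow_left₀ h7 h6 i) (by positivity)
      _ = Λ * 2 ^ i * 4 ^ e := by ring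

end Crest.Agent.R153.G
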