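import Crest.Agent.R153.Frozen

/-! Row 153 (S0217), task GEOM. -/

set_option autoImplicit false

open Crest.ProbabilityR.RandomSAT

namespace Crest.Agent.R153

theorem frz_empty (ε : ℝ) {n : ℕ} : frz ε (∅ : Finset (Asg n)) = 0 := by
  unfold frz
  rw [if_neg]
  rintro ⟨h, _⟩
  exact Finset.not_nonempty_empty h

theorem Teps_empty (ε : ℝ) {k n : ℕ} (F : List (Clause k n)) :
    Teps ε (∅ : Finset (Asg n)) F = 0 := by
  have h0 : ∀ c : Clause k n, cut (∅ : Finset (Asg n)) c = ∅ := fun c =>
    Finset.subset_empty.1 (cut_subset ∅ c)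
  induction F with
  | nil => exact frz_empty ε
  | cons c F ih =>
    show frz ε (∅ : Finset (Asg n)) + Teps ε (cut ∅ c) F = 0
    rw [frz_empty, h0, ih, add_zero]

theorem frz_cases (ε : ℝ) {n : ℕ} (X : Finset (Asg n)) :
    frz ε X = 0 ∨ (frz ε X = 1 ∧ X.Nonempty ∧ ε < phi1 X) := by
  unfold frz
  by_cases h : X.Nonempty ∧ ε < phi1 X
  · right; exact ⟨if_pos h, h⟩
  · left; exact if_neg h

/-- average over a clause of `a + ne (cut X c) * b` -/
theorem avg_ne_le (k : ℕ) {n : ℕ} (X : Finset (Asg n)) (b p : ℝ) (hb : 0 ≤ b)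
    (hp : p ≤ phi k X) :
    avg (fun c : Clause k n => 1 + ne (cut X c) * b) ≤ 1 + (1 - p) * b := by
  have e : (fun c : Clause k n => 1 + ne (cut X c) * b)
      = (fun c : Clause k n => (1 + b) - (1 - ne (cut X c)) * b) := by
    funext c; ring
  rw [e, avg_sub, avg_mul_const]
  have h1 : avg (fun _ : Clause k n => 1 + b) ≤ 1 + b := avg_const_le (by linarith)
  have h2 : avg (fun c : Clause k n => 1 - ne (cut X c)) = phi k X := rfl
  rw [h2]
  nlinarith [mul_le_mul_of_nonneg_right hp hb]

theorem EL_Teps_both (k : ℕ) {n : ℕ} (ε : ℝ) (hε : 0 < ε) (hε1 : ε ≤ 1)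
    (hn : (k : ℝ) ≤ ε * n) (M : ℕ) : ∀ (X : Finset (Asg n)),
    EL M (fun F : List (Clause k n) => Teps ε X F) ≤ 1 / (ε / 2) ^ k ∧
    EL M (fun F : List (Clause k n) => (Teps ε X F) ^ 2)
      ≤ (2 - (ε / 2) ^ k) / ((ε / 2) ^ k) ^ 2 := by
  have hp0 : 0 < (ε / 2) ^ k := by positivity
  have hp1 : (ε / 2) ^ k ≤ 1 := pow_le_one₀ (by positivity) (by linarith)
  generalize hpp : (ε / 2) ^ k = p at hp0 hp1 ⊢
  have hA : 1 ≤ 1 / p := by rw [le_div_iff₀ hp0]; linarith
  have hB : 1 ≤ (2 - p) / p ^ 2 := by
    rw [le_div_iff₀ (by positivity)]; nlinarith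
  have hA0 : 0 ≤ 1 / p := by linarith
  have hB0 : 0 ≤ (2 - p) / p ^ 2 := by linarith
  induction M with
  | zero =>
    intro X
    show frz ε X ≤ _ ∧ (frz ε X) ^ 2 ≤ _
    rcases frz_cases ε X with h | ⟨h, _⟩
    · rw [h]
      exact ⟨hA0, by simpa using hB0⟩
    · rw [h]
      exact ⟨hA, by simpa using hB⟩
  | succ M ih =>
    intro X
    show avg (fun c : Clause k n => EL M (fun F : List (Clause k n) =>
        frz ε X + Teps ε (cut X c) F)) ≤ _ ∧
      avg (fun c : Clause k n => EL M (fun F : List (Clause k n) =>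
        (frz ε X + Teps ε (cut X c) F) ^ 2)) ≤ _
    rcases frz_cases ε X with h | ⟨h, hX, hphi⟩
    · rw [h]
      simp only [zero_add]
      exact ⟨(avg_mono fun c => (ih (cut X c)).1).trans (avg_const_le hA0),
        (avg_mono fun c => (ih (cut X c)).2).trans (avg_const_le hB0)⟩
    · rw [h]
      have hphi' : p ≤ phi k X := by
        rw [← hpp]; exact phi_lower k ε hε hn X hX hphi
      have key1 : ∀ c : Clause k n, EL M (fun F : List (Clause k n) => Teps ε (cut X c) F)
          ≤ ne (cut X c) * (1 / p) := by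
        intro c
        by_cases hc : (cut X c).Nonempty
        · rw [ne_of_nonempty hc, one_mul]
          exact (ih (cut X c)).1
        · rw [Finset.not_nonempty_iff_eq_empty] at hc
          rw [hc, ne_empty, zero_mul]
          simp only [Teps_empty]
          rw [EL_zero_fun]
      have key2 : ∀ c : Clause k n,
          EL M (fun F : List (Clause k n) => (Teps ε (cut X c) F) ^ 2)
          ≤ ne (cut X c) * ((2 - p) / p ^ 2) := by
        intro c
        by_cases hc : (cut X c).Nonempty
        · rw [ne_of_nonempty hc, one_mul]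
          exact (ih (cut X c)).2
        · rw [Finset.not_nonempty_iff_eq_empty] at hc
          rw [hc, ne_empty, zero_mul]
          simp only [Teps_empty]
          simp [EL_zero_fun]
      constructor
      · calc avg (fun c : Clause k n => EL M (fun F : List (Clause k n) =>
              1 + Teps ε (cut X c) F))
            ≤ avg (fun c : Clause k n => 1 + ne (cut X c) * (1 / p)) := by
              refine avg_mono fun c => ?_
              rw [EL_add M (fun _ => (1 : ℝ)) (fun F => Teps ε (cut X c) F)]
              exact add_le_add (EL_const_le zero_le_one) (key1 c)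
          _ ≤ 1 + (1 - p) * (1 / p) := avg_ne_le k X _ p hA0 hphi'
          _ = 1 / p := by field_simp; ring
      · calc avg (fun c : Clause k n => EL M (fun F : List (Clause k n) =>
              (1 + Teps ε (cut X c) F) ^ 2))
            ≤ avg (fun c : Clause k n =>
                1 + ne (cut X c) * (2 * (1 / p) + (2 - p) / p ^ 2)) := by
              refine avg_mono fun c => ?_
              have e : (fun F : List (Clause k n) => (1 + Teps ε (cut X c) F) ^ 2)
                  = (fun F : List (Clause k n) => (1 + 2 * Teps ε (cut X c) F)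
                      + (Teps ε (cut X c) F) ^ 2) := by
                funext F; ring
              rw [e, EL_add M (fun F => 1 + 2 * Teps ε (cut X c) F)
                (fun F => (Teps ε (cut X c) F) ^ 2),
                EL_add M (fun _ => (1 : ℝ)) (fun F => 2 * Teps ε (cut X c) F),
                EL_const_mul]
              have h1 := key1 c
              have h2 := key2 c
              have h3 : EL M (fun _ : List (Clause k n) => (1 : ℝ)) ≤ 1 :=
                EL_const_le zero_le_one
              nlinarith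
          _ ≤ 1 + (1 - p) * (2 * (1 / p) + (2 - p) / p ^ 2) :=
              avg_ne_le k X _ p (by linarith) hphi'
          _ = (2 - p) / p ^ 2 := by field_simp; ring

/-- the number of steps with frozen fraction `> ε` is dominated by a geometric variable -/
theorem EL_Teps_sq_le (k : ℕ) {n : ℕ} (ε : ℝ) (hε : 0 < ε) (hε1 : ε ≤ 1)
    (hn : (k : ℝ) ≤ ε * n) (M : ℕ) (X : Finset (Asg n)) :
    EL M (fun F : List (Clause k n) => (Teps ε X F) ^ 2) ≤ 2 / ((ε / 2) ^ k) ^ 2 := by
  refine ((EL_Teps_both k ε hε hε1 hn M X).2).trans ?_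
  have hp0 : 0 < (ε / 2) ^ k := by positivity
  rw [div_le_div_iff_of_pos_right (by positivity)]
  linarith

end Crest.Agent.R153
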