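import Crest.Agent.R153.GridPrim

/-!
Row 153, right certificate: the checker on natural numbers.
-/

set_option autoImplicit false

namespace Crest.Agent.R153

open Finset Good

/-- Code of the path (all `r+1` letters) of label `l` in the leaf `x`; position `i` is the
`i`-th level from the bottom, there are `nL` labels and the alphabet is `Fin K`. -/
def pathN (K nL r x l : ℕ) : ℕ :=
  ∑ i ∈ range (r + 1), (x / (K ^ nL) ^ i % K ^ nL / K ^ l % K) * K ^ i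

/-- the probability `q/Q` (if `bit = 1`) or `(Q-q)/Q` (if `bit = 0`), numerator. -/
def aval (Q bit q : ℕ) : ℕ := iteN bit q (Q - q)

/-- bit number `l` of `J`. -/
def bitN (J l : ℕ) : ℕ := J / 2 ^ l % 2

/-- Numerator of the edge term (denominator `2^b Q^3`). -/
def edgeNum (b K Q r : ℕ) (q : ℕ → ℕ) (J x : ℕ) : ℕ :=
  2 ^ b * Q ^ 3 - (2 ^ b - 1) * ∏ l ∈ range 3, aval Q (bitN J l) (q (pathN K 3 r x l))

def edgeDen (b Q : ℕ) : ℕ := 2 ^ b * Q ^ 3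

/-- The numerator `2^b Q^2 - (2^b-1) a_0 a_1` of the `j`-th message at a site. -/
def siteA (b K Q r k : ℕ) (q : ℕ → ℕ) (J x j : ℕ) : ℕ :=
  2 ^ b * Q ^ 2 - (2 ^ b - 1) * ∏ l ∈ range 2,
    aval Q (bitN (J / 8 ^ j % 8) l) (q (pathN K (k * 2) r x (l + 2 * j)))

/-- Numerator of the site term (denominator `2 (2^b Q^2)^k`). -/
def siteNum (b K Q r k : ℕ) (q : ℕ → ℕ) (J x : ℕ) : ℕ :=
  (∏ j ∈ range k, iteN (bitN (J / 8 ^ j % 8) 2) (siteA b K Q r k q J x j) (2 ^ b * Q ^ 2)) +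
    ∏ j ∈ range k, iteN (bitN (J / 8 ^ j % 8) 2) (2 ^ b * Q ^ 2) (siteA b K Q r k q J x j)

def siteDen (b Q k : ℕ) : ℕ := 2 * (2 ^ b * Q ^ 2) ^ k

/-- Upper tables for the powered nested means (height `0` = leaves). -/
def TreeUp (Φ r D R : ℕ) (ε Vn : ℕ → ℕ) (Vd : ℕ) (Y : ℕ → ℕ → ℕ) : Prop :=
  (∀ x < Φ ^ (r + 1), Vn x ^ ε 0 * R ^ D ≤ Vd ^ ε 0 * Y 0 x ^ D) ∧
  ∀ h < r, ∀ x < Φ ^ (r - h),
    (∑ y ∈ range Φ, Y h (Φ * x + y)) ^ ε (h + 1) * R ^ ε h ≤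
      Y (h + 1) x ^ ε h * (R * Φ) ^ ε (h + 1)

/-- Lower tables for the powered nested means. -/
def TreeLo (Φ r D R : ℕ) (ε Vn : ℕ → ℕ) (Vd : ℕ) (Z : ℕ → ℕ → ℕ) : Prop :=
  (∀ x < Φ ^ (r + 1), Vd ^ ε 0 * Z 0 x ^ D ≤ Vn x ^ ε 0 * R ^ D) ∧
  ∀ h < r, ∀ x < Φ ^ (r - h),
    Z (h + 1) x ^ ε h * (R * Φ) ^ ε (h + 1) ≤
      (∑ y ∈ range Φ, Z h (Φ * x + y)) ^ ε (h + 1) * R ^ ε h

/-- The right certificate. -/
structure Cert where
  b : ℕ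
  r : ℕ
  K : ℕ
  Q : ℕ
  D : ℕ
  R : ℕ
  n : ℕ
  M : ℕ
  τ : ℕ
  ε : ℕ → ℕ
  q : ℕ → ℕ
  v : ℕ → ℕ
  Y : ℕ → ℕ → ℕ → ℕ → ℕ
  Z : ℕ → ℕ → ℕ → ℕ
  zt : ℕ → ℕ → ℕ

/-- The sum of the top upper values over all `J` and all roots. -/
def Cert.A (c : Cert) (k : ℕ) : ℕ :=
  ∑ J ∈ range (8 ^ k), ∑ x ∈ range (c.K ^ (k * 2)), c.Y k J c.r x

/-- Validity of a certificate for the density `a / 2^κ`. -/
structure Cert.Valid (c : Cert) (a κ : ℕ) : Prop where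
  ha : 0 < a
  hK : 0 < c.K
  hD : 0 < c.D
  hR : 0 < c.R
  hn : 0 < c.n
  han : 3 * a ≤ c.n * 2 ^ κ
  εr : c.ε c.r = 1
  ε_lt : ∀ h < c.r, 0 < c.ε h ∧ c.ε h < c.D
  ε_anti : ∀ h < c.r - 1, c.ε (h + 1) < c.ε h
  hq : ∀ i < c.K ^ (c.r + 1), 0 < c.q i ∧ c.q i < c.Q
  hτ : 2 * c.R ^ c.D ≤ c.τ ^ c.D
  site : ∀ k < c.M, ∀ J < 8 ^ k, TreeUp (c.K ^ (k * 2)) c.r c.D c.R c.ε
    (siteNum c.b c.K c.Q c.r k c.q J) (siteDen c.b c.Q k) (c.Y k J)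
  edge : ∀ J < 8, TreeLo (c.K ^ 3) c.r c.D c.R c.ε
    (edgeNum c.b c.K c.Q c.r c.q J) (edgeDen c.b c.Q) (c.Z J)
  hzt : ∀ J < 8, ∀ x < c.K ^ 3, c.R * c.R ≤ c.zt J x * c.Z J c.r x
  hv : ∀ k < c.M, c.v k * ((8 ^ k * c.K ^ (k * 2)) * (k.factorial * (2 ^ κ) ^ k * (c.n * 2 ^ κ) ^ c.n)) +
      (3 * a) ^ k * (c.n * 2 ^ κ - 3 * a) ^ c.n * c.A k ≤
      (3 * a) ^ k * (c.n * 2 ^ κ - 3 * a) ^ c.n * ((8 ^ k * c.K ^ (k * 2)) * c.R)
  final : c.τ * (2 ^ κ * (8 * c.K ^ 3)) +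
      2 * a * (∑ J ∈ range 8, ∑ x ∈ range (c.K ^ 3), c.zt J x) <
      (c.R + ∑ k ∈ range c.M, c.v k) * (2 ^ κ * (8 * c.K ^ 3)) + 2 * a * c.R * (8 * c.K ^ 3)

/-- Reading a certificate from a table. -/
def toCert (f : ℕ → ℕ) : Cert where
  b := f (Nat.pair 0 0)
  r := f (Nat.pair 0 1)
  K := f (Nat.pair 0 2)
  Q := f (Nat.pair 0 3)
  D := f (Nat.pair 0 4)
  R := f (Nat.pair 0 5)
  n := f (Nat.pair 0 6)
  M := f (Nat.pair 0 7)
  τ := f (Nat.pair 0 8)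
  ε := fun h => f (Nat.pair 1 h)
  q := fun h => f (Nat.pair 2 h)
  v := fun h => f (Nat.pair 3 h)
  Y := fun k J h x => f (Nat.pair 4 (Nat.pair k (Nat.pair J (Nat.pair h x))))
  Z := fun J h x => f (Nat.pair 5 (Nat.pair J (Nat.pair h x)))
  zt := fun J x => f (Nat.pair 6 (Nat.pair J x))

/-- Writing a certificate into a table. -/
def Cert.table (c : Cert) (i : ℕ) : ℕ :=
  match i.unpair.1, i.unpair.2 with
  | 0, 0 => c.b
  | 0, 1 => c.r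
  | 0, 2 => c.K
  | 0, 3 => c.Q
  | 0, 4 => c.D
  | 0, 5 => c.R
  | 0, 6 => c.n
  | 0, 7 => c.M
  | 0, 8 => c.τ
  | 1, h => c.ε h
  | 2, h => c.q h
  | 3, h => c.v h
  | 4, p => c.Y p.unpair.1 p.unpair.2.unpair.1 p.unpair.2.unpair.2.unpair.1
      p.unpair.2.unpair.2.unpair.2
  | 5, p => c.Z p.unpair.1 p.unpair.2.unpair.1 p.unpair.2.unpair.2
  | 6, p => c.zt p.unpair.1 p.unpair.2
  | _, _ => 0

theorem toCert_table (c : Cert) : toCert c.table = c := by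
  unfold toCert Cert.table
  simp only [Nat.unpair_pair]

/-! ### The checker as a number -/

def treeUpN (Φ r D R : ℕ) (ε Vn : ℕ → ℕ) (Vd : ℕ) (Y : ℕ → ℕ → ℕ) : ℕ :=
  allN (Φ ^ (r + 1)) (fun x => leN (Vn x ^ ε 0 * R ^ D) (Vd ^ ε 0 * Y 0 x ^ D)) *
  allN r (fun h => allN (Φ ^ (r - h)) (fun x =>
    leN ((∑ y ∈ range Φ, Y h (Φ * x + y)) ^ ε (h + 1) * R ^ ε h)
      (Y (h + 1) x ^ ε h * (R * Φ) ^ ε (h + 1))))

theorem treeUpN_ne_zero {Φ r D R : ℕ} {ε Vn : ℕ → ℕ} {Vd : ℕ} {Y : ℕ → ℕ → ℕ} :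
    treeUpN Φ r D R ε Vn Vd Y ≠ 0 ↔ TreeUp Φ r D R ε Vn Vd Y := by
  unfold treeUpN TreeUp
  simp only [mul_ne_zero_iff, allN_ne_zero, leN_ne_zero]

def treeLoN (Φ r D R : ℕ) (ε Vn : ℕ → ℕ) (Vd : ℕ) (Z : ℕ → ℕ → ℕ) : ℕ :=
  allN (Φ ^ (r + 1)) (fun x => leN (Vd ^ ε 0 * Z 0 x ^ D) (Vn x ^ ε 0 * R ^ D)) *
  allN r (fun h => allN (Φ ^ (r - h)) (fun x =>
    leN (Z (h + 1) x ^ ε h * (R * Φ) ^ ε (h + 1))
      ((∑ y ∈ range Φ, Z h (Φ * x + y)) ^ ε (h + 1) * R ^ ε h)))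

theorem treeLoN_ne_zero {Φ r D R : ℕ} {ε Vn : ℕ → ℕ} {Vd : ℕ} {Z : ℕ → ℕ → ℕ} :
    treeLoN Φ r D R ε Vn Vd Z ≠ 0 ↔ TreeLo Φ r D R ε Vn Vd Z := by
  unfold treeLoN TreeLo
  simp only [mul_ne_zero_iff, allN_ne_zero, leN_ne_zero]

/-- The first group of checks. -/
def chk1 (c : Cert) (a κ : ℕ) : ℕ :=
  leN 1 a * leN 1 c.K * leN 1 c.D * leN 1 c.R * leN 1 c.n * leN (3 * a) (c.n * 2 ^ κ) *
  (leN (c.ε c.r) 1 * leN 1 (c.ε c.r)) *
  allN c.r (fun h => leN 1 (c.ε h) * leN (c.ε h + 1) c.D) *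
  allN (c.r - 1) (fun h => leN (c.ε (h + 1) + 1) (c.ε h)) *
  allN (c.K ^ (c.r + 1)) (fun i => leN 1 (c.q i) * leN (c.q i + 1) c.Q) *
  leN (2 * c.R ^ c.D) (c.τ ^ c.D)

def chk2 (c : Cert) : ℕ :=
  allN c.M (fun k => allN (8 ^ k) (fun J => treeUpN (c.K ^ (k * 2)) c.r c.D c.R c.ε
    (siteNum c.b c.K c.Q c.r k c.q J) (siteDen c.b c.Q k) (c.Y k J)))

def chk3 (c : Cert) : ℕ :=
  allN 8 (fun J => treeLoN (c.K ^ 3) c.r c.D c.R c.ε
    (edgeNum c.b c.K c.Q c.r c.q J) (edgeDen c.b c.Q) (c.Z J)) *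
  allN 8 (fun J => allN (c.K ^ 3) (fun x => leN (c.R * c.R) (c.zt J x * c.Z J c.r x)))

def chk4 (c : Cert) (a κ : ℕ) : ℕ :=
  allN c.M (fun k => leN
      (c.v k * ((8 ^ k * c.K ^ (k * 2)) * (k.factorial * (2 ^ κ) ^ k * (c.n * 2 ^ κ) ^ c.n)) +
      (3 * a) ^ k * (c.n * 2 ^ κ - 3 * a) ^ c.n * c.A k)
      ((3 * a) ^ k * (c.n * 2 ^ κ - 3 * a) ^ c.n * ((8 ^ k * c.K ^ (k * 2)) * c.R))) *
  leN (c.τ * (2 ^ κ * (8 * c.K ^ 3)) +
      2 * a * (∑ J ∈ range 8, ∑ x ∈ range (c.K ^ 3), c.zt J x) + 1)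
      ((c.R + ∑ k ∈ range c.M, c.v k) * (2 ^ κ * (8 * c.K ^ 3)) + 2 * a * c.R * (8 * c.K ^ 3))

/-- The whole check. -/
def chk (f : ℕ → ℕ) (p : ℕ × ℕ) : ℕ :=
  chk1 (toCert f) p.1 p.2 * chk2 (toCert f) * chk3 (toCert f) * chk4 (toCert f) p.1 p.2

theorem chk_ne_zero {f : ℕ → ℕ} {a κ : ℕ} : chk f (a, κ) ≠ 0 ↔ (toCert f).Valid a κ := by
  unfold chk chk1 chk2 chk3 chk4
  simp only [mul_ne_zero_iff, allN_ne_zero, leN_ne_zero, treeUpN_ne_zero, treeLoN_ne_zero,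
    Nat.succ_le_iff]
  constructor
  · rintro ⟨⟨⟨⟨⟨⟨⟨⟨⟨⟨⟨⟨⟨h1, h2⟩, h3⟩, h4⟩, h5⟩, h6⟩, h7⟩, h8⟩, h9⟩, h10⟩, h11⟩, h12⟩, h13, h14⟩,
      h15, h16⟩
    exact ⟨h1, h2, h3, h4, h5, h6, le_antisymm h7.1 h7.2, h8, h9, h10, h11, h12, h13, h14, h15,
      h16⟩
  · rintro ⟨h1, h2, h3, h4, h5, h6, h7, h8, h9, h10, h11, h12, h13, h14, h15, h16⟩
    exact ⟨⟨⟨⟨⟨⟨⟨⟨⟨⟨⟨⟨⟨h1, h2⟩, h3⟩, h4⟩, h5⟩, h6⟩, h7.le, h7.ge⟩, h8⟩, h9⟩, h10⟩, h11⟩, h12⟩,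
      h13, h14⟩, h15, h16⟩

/-! ### The checker is primitive recursive -/

/-- projections are primitive recursive -/
macro "prim_proj" : tactic =>
  `(tactic| (repeat' (first
    | with_reducible exact Primrec.id
    | with_reducible exact Primrec.fst
    | with_reducible exact Primrec.snd
    | with_reducible refine Primrec.fst.comp ?_
    | with_reducible refine Primrec.snd.comp ?_)))

macro "good_step" : tactic =>
  `(tactic| (first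
    | with_reducible exact Good.const _
    | with_reducible apply Good.tab
    | with_reducible apply Good.add
    | with_reducible apply Good.mul
    | with_reducible apply Good.sub
    | with_reducible apply Good.div
    | with_reducible apply Good.mod
    | with_reducible apply Good.pow
    | with_reducible apply Good.pair
    | with_reducible apply Good.factorial
    | with_reducible apply Good.leN'
    | with_reducible apply Good.iteN'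
    | with_reducible apply Good.all
    | with_reducible apply Good.sum
    | with_reducible apply Good.prod
    | (refine Good.fn ?_; prim_proj; done)))

macro "good" : tactic => `(tactic| repeat' good_step)

theorem good_chk1 : Good (fun f (p : ℕ × ℕ) => chk1 (toCert f) p.1 p.2) := by
  unfold chk1 toCert
  dsimp only
  good

theorem good_chk2 : Good (fun f (_ : ℕ × ℕ) => chk2 (toCert f)) := by
  unfold chk2 toCert treeUpN siteNum siteDen siteA pathN aval bitN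
  dsimp only
  good

theorem good_chk3 : Good (fun f (_ : ℕ × ℕ) => chk3 (toCert f)) := by
  unfold chk3 toCert treeLoN edgeNum edgeDen pathN aval bitN
  dsimp only
  good

theorem good_chk4 : Good (fun f (p : ℕ × ℕ) => chk4 (toCert f) p.1 p.2) := by
  unfold chk4 Cert.A toCert
  dsimp only
  good

theorem good_chk : Good chk := by
  have h := Good.mul (Good.mul (Good.mul good_chk1 good_chk2) good_chk3) good_chk4
  exact h

/-- The right cut decision procedure. -/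
def UpCert : ℕ × ℕ × ℕ → Bool := decideOf chk

theorem computable_UpCert : Computable UpCert := good_chk.computable

theorem UpCert_sound {a κ w : ℕ} (h : UpCert (a, κ, w) = true) : ∃ c : Cert, c.Valid a κ := by
  obtain ⟨f, hf⟩ := decideOf_sound h
  exact ⟨toCert f, chk_ne_zero.1 hf⟩

theorem UpCert_complete {a κ : ℕ} {c : Cert} (h : c.Valid a κ) :
    ∃ w, UpCert (a, κ, w) = true := by
  refine good_chk.decideOf_complete (f := c.table) ?_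
  rw [chk_ne_zero, toCert_table]
  exact h

end Crest.Agent.R153
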