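import Crest.Agent.R153.GridLim

/-!
Row 153, right certificate: completeness of the certificate.
-/

set_option autoImplicit false

namespace Crest.Agent.R153

open Finset Filter Topology Crest.ProbabilityR.Diluted

/-- Lower bound of the Poisson weight used in the certificate. -/
noncomputable def wt (c : ℝ) (n k : ℕ) : ℝ :=
  (c * 3) ^ k / (k.factorial : ℝ) * (1 - c * 3 / n) ^ n

theorem tendsto_wt (c : ℝ) (k : ℕ) :
    Tendsto (fun n : ℕ => wt c n k) atTop (𝓝 (poissonWeight (c * 3) k)) := by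
  have h1 := Real.tendsto_one_add_div_pow_exp (-(c * 3))
  have h2 : Tendsto (fun n : ℕ => (c * 3) ^ k / (k.factorial : ℝ) * (1 + -(c * 3) / n) ^ n) atTop
      (𝓝 ((c * 3) ^ k / (k.factorial : ℝ) * Real.exp (-(c * 3)))) := h1.const_mul _
  have h3 : (c * 3) ^ k / (k.factorial : ℝ) * Real.exp (-(c * 3)) = poissonWeight (c * 3) k := by
    unfold poissonWeight; ring
  rw [h3] at h2
  refine h2.congr fun n => ?_
  unfold wt
  rw [neg_div, ← sub_eq_add_neg]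

theorem wt_eq {a κ n k : ℕ} (hn : 0 < n) : wt ((a : ℝ) / 2 ^ κ) n k =
    ((3 * a) ^ k * (n * 2 ^ κ - 3 * a) ^ n : ℝ) /
        (k.factorial * (2 ^ κ) ^ k * (n * 2 ^ κ) ^ n) := by
  have hn : (0 : ℝ) < n := by exact_mod_cast hn
  unfold wt
  have h1 : (1 - (a : ℝ) / 2 ^ κ * 3 / n) = (n * 2 ^ κ - 3 * a) / (n * 2 ^ κ) := by
    field_simp
  have h2 : ((a : ℝ) / 2 ^ κ * 3) ^ k = (3 * a) ^ k / (2 ^ κ) ^ k := by
    rw [div_mul_eq_mul_div, div_pow, mul_comm (a : ℝ) 3]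
  rw [h1, h2, div_pow]
  field_simp

theorem hv_of_real {v P A R a κ n k : ℕ} (hP : 0 < P) (hR : 0 < R) (hn : 0 < n)
    (han : 3 * a ≤ n * 2 ^ κ)
    (h : (v : ℝ) / R ≤ wt ((a : ℝ) / 2 ^ κ) n k * (1 - (A : ℝ) / (P * R))) :
    v * (P * (k.factorial * (2 ^ κ) ^ k * (n * 2 ^ κ) ^ n)) +
      (3 * a) ^ k * (n * 2 ^ κ - 3 * a) ^ n * A ≤
      (3 * a) ^ k * (n * 2 ^ κ - 3 * a) ^ n * (P * R) := by
  have hP' : (0 : ℝ) < P := by exact_mod_cast hP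
  have hR' : (0 : ℝ) < R := by exact_mod_cast hR
  have hn' : (0 : ℝ) < n := by exact_mod_cast hn
  have h2 : ((n * 2 ^ κ - 3 * a : ℕ) : ℝ) = (n : ℝ) * 2 ^ κ - 3 * a := by
    rw [Nat.cast_sub han]; push_cast; ring
  rw [wt_eq hn, div_le_iff₀ hR'] at h
  have h3 : ((3 * a) ^ k * (n * 2 ^ κ - 3 * a) ^ n : ℝ) /
      (k.factorial * (2 ^ κ) ^ k * (n * 2 ^ κ) ^ n) *
      (1 - (A : ℝ) / (P * R)) * R =
      (((3 * a) ^ k * (n * 2 ^ κ - 3 * a) ^ n : ℝ) * (P * R) -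
      ((3 * a) ^ k * (n * 2 ^ κ - 3 * a) ^ n : ℝ) * A) /
      (P * (k.factorial * (2 ^ κ) ^ k * (n * 2 ^ κ) ^ n)) := by
    field_simp
  rw [h3, le_div_iff₀ (by positivity)] at h
  have h4 : ((v * (P * (k.factorial * (2 ^ κ) ^ k * (n * 2 ^ κ) ^ n)) +
      (3 * a) ^ k * (n * 2 ^ κ - 3 * a) ^ n * A : ℕ) : ℝ) ≤
      (((3 * a) ^ k * (n * 2 ^ κ - 3 * a) ^ n * (P * R) : ℕ) : ℝ) := by
    push_cast [h2]
    linarith
  exact_mod_cast h4

theorem exists_cert {b K Q r : ℕ} {q : ℕ → ℕ} (hK : 0 < K)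
    (hq : ∀ i < K ^ (r + 1), 0 < q i ∧ q i < Q) {D0 : ℕ} (hD0 : 0 < D0) {e : ℕ → ℕ}
    (he : ∀ h < r, 0 < e h ∧ e h < D0) (he' : ∀ h < r - 1, e (h + 1) < e h) {a κ : ℕ}
    (ha : 0 < a) (hB : gridB b K Q r q (fun h => (e h : ℝ) / D0) ((a : ℝ) / 2 ^ κ) < 0) :
    ∃ c : Cert, c.Valid a κ := by
  set μ : ℕ → ℝ := fun h => (e h : ℝ) / D0 with hμdef
  set cc : ℝ := (a : ℝ) / 2 ^ κ with hcc
  have hcc0 : 0 < cc := by
    have : (0 : ℝ) < a := by exact_mod_cast ha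
    positivity
  have hD0' : (0 : ℝ) < D0 := by exact_mod_cast hD0
  have hQ : 0 < Q := Q_pos hK hq
  have hKr : (0 : ℝ) < K := by exact_mod_cast hK
  have hμ : ∀ h < r, 0 < μ h := fun h hh => by
    have : (0 : ℝ) < e h := by exact_mod_cast (he h hh).1
    exact div_pos this hD0'
  -- values of the nested means
  have hTs : ∀ k J x, 0 < SM (K ^ (k * 2)) μ (Gs b K Q r q k J) r x := fun k J x =>
    (by positivity : (0 : ℝ) < (((2 : ℝ) ^ b)⁻¹) ^ k).trans_le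
      (SM_bounds (Nat.pow_pos hK) hμ (by positivity) (Gs_bounds hK hq k J) r le_rfl x).1
  have hTe : ∀ J x, 0 < SM (K ^ 3) μ (Ge b K Q r q J) r x := fun J x =>
    (by positivity : (0 : ℝ) < ((2 : ℝ) ^ b)⁻¹).trans_le
      (SM_bounds (Nat.pow_pos hK) hμ (by positivity) (Ge_bounds hK hq J) r le_rfl x).1
  -- stage 1
  obtain ⟨M, hM⟩ : ∃ M : ℕ, Real.log 2 +
      (∑ k ∈ range M, poissonWeight (cc * 3) k * gSiteAvg b K Q r q μ k) -
      cc * 2 * gEdgeAvg b K Q r q μ < 0 := by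
    have hs := (summable_gSiteAvg (b := b) hK hq hμ (lam := cc * 3) (by positivity)).hasSum.tendsto_sum_nat
    have h1 : Tendsto (fun M : ℕ => Real.log 2 +
      (∑ k ∈ range M, poissonWeight (cc * 3) k * gSiteAvg b K Q r q μ k) -
      cc * 2 * gEdgeAvg b K Q r q μ) atTop (𝓝 (gridB b K Q r q μ cc)) :=
      (hs.const_add (Real.log 2)).sub_const _
    exact (h1.eventually (gt_mem_nhds hB)).exists
  -- stage 2
  obtain ⟨n, hn3, hn⟩ : ∃ n : ℕ, 3 * a ≤ n ∧ Real.log 2 +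
      (∑ k ∈ range M, wt cc n k * gSiteAvg b K Q r q μ k) -
      cc * 2 * gEdgeAvg b K Q r q μ < 0 := by
    have h1 : Tendsto (fun n : ℕ => Real.log 2 +
      (∑ k ∈ range M, wt cc n k * gSiteAvg b K Q r q μ k) -
      cc * 2 * gEdgeAvg b K Q r q μ) atTop (𝓝 (Real.log 2 +
      (∑ k ∈ range M, poissonWeight (cc * 3) k * gSiteAvg b K Q r q μ k) -
      cc * 2 * gEdgeAvg b K Q r q μ)) :=
      ((tendsto_finsetSum _ fun k _ => (tendsto_wt cc k).mul_const _).const_add _).sub_const _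
    exact ((eventually_ge_atTop (3 * a)).and (h1.eventually (gt_mem_nhds hM))).exists
  have hn0 : 0 < n := by omega
  have hn0' : (0 : ℝ) < n := by exact_mod_cast hn0
  have han : 3 * a ≤ n * 2 ^ κ := hn3.trans (Nat.le_mul_of_pos_right _ (by positivity))
  have hccn : cc * 3 ≤ n := by
    have h' : (3 : ℝ) * a ≤ n * 2 ^ κ := by exact_mod_cast han
    rw [hcc, div_mul_eq_mul_div, div_le_iff₀ (by positivity)]
    linarith
  have hwt0 : ∀ k, 0 ≤ wt cc n k := fun k => (poissonWeight_ge cc hcc0.le n hn0 hccn k).1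
  -- stage 3
  set F : ℕ → ℝ → ℝ := fun N x => ((D0 * N : ℕ) : ℝ) * (x ^ ((1 : ℝ) / ((D0 * N : ℕ) : ℝ)) - 1)
    with hF
  have hFt : ∀ x : ℝ, 0 < x → Tendsto (fun N => F N x) atTop (𝓝 (Real.log x)) := fun x hx =>
    tendsto_mul_rpow_sub_one hx hD0
  obtain ⟨N, hN0, hN⟩ : ∃ N : ℕ, 0 < N ∧ F N 2 +
      (∑ k ∈ range M, wt cc n k * ((∑ J ∈ range (8 ^ k), (∑ x ∈ range (K ^ (k * 2)),
        F N (SM (K ^ (k * 2)) μ (Gs b K Q r q k J) r x)) / ((K ^ (k * 2) : ℕ) : ℝ)) / 8 ^ k)) +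
      cc * 2 * ((∑ J ∈ range 8, (∑ x ∈ range (K ^ 3),
        F N (SM (K ^ 3) μ (Ge b K Q r q J) r x)⁻¹) / ((K ^ 3 : ℕ) : ℝ)) / 8) < 0 := by
    have h1 : Tendsto (fun N : ℕ => F N 2 +
      (∑ k ∈ range M, wt cc n k * ((∑ J ∈ range (8 ^ k), (∑ x ∈ range (K ^ (k * 2)),
        F N (SM (K ^ (k * 2)) μ (Gs b K Q r q k J) r x)) / ((K ^ (k * 2) : ℕ) : ℝ)) / 8 ^ k)) +
      cc * 2 * ((∑ J ∈ range 8, (∑ x ∈ range (K ^ 3),
        F N (SM (K ^ 3) μ (Ge b K Q r q J) r x)⁻¹) / ((K ^ 3 : ℕ) : ℝ)) / 8)) atTop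
      (𝓝 (Real.log 2 +
      (∑ k ∈ range M, wt cc n k * ((∑ J ∈ range (8 ^ k), (∑ x ∈ range (K ^ (k * 2)),
        Real.log (SM (K ^ (k * 2)) μ (Gs b K Q r q k J) r x)) / ((K ^ (k * 2) : ℕ) : ℝ)) / 8 ^ k)) +
      cc * 2 * ((∑ J ∈ range 8, (∑ x ∈ range (K ^ 3),
        Real.log (SM (K ^ 3) μ (Ge b K Q r q J) r x)⁻¹) / ((K ^ 3 : ℕ) : ℝ)) / 8))) := by
      refine ((hFt 2 (by norm_num)).add ?_).add ?_
      · refine tendsto_finsetSum _ fun k _ => Tendsto.const_mul _ (Tendsto.div_const ?_ _)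
        refine tendsto_finsetSum _ fun J _ => Tendsto.div_const ?_ _
        exact tendsto_finsetSum _ fun x _ => hFt _ (hTs k J x)
      · refine Tendsto.const_mul _ (Tendsto.div_const ?_ _)
        refine tendsto_finsetSum _ fun J _ => Tendsto.div_const ?_ _
        exact tendsto_finsetSum _ fun x _ => hFt _ (inv_pos.2 (hTe J x))
    have h2 : Real.log 2 +
      (∑ k ∈ range M, wt cc n k * ((∑ J ∈ range (8 ^ k), (∑ x ∈ range (K ^ (k * 2)),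
        Real.log (SM (K ^ (k * 2)) μ (Gs b K Q r q k J) r x)) / ((K ^ (k * 2) : ℕ) : ℝ)) / 8 ^ k)) +
      cc * 2 * ((∑ J ∈ range 8, (∑ x ∈ range (K ^ 3),
        Real.log (SM (K ^ 3) μ (Ge b K Q r q J) r x)⁻¹) / ((K ^ 3 : ℕ) : ℝ)) / 8) < 0 := by
      refine lt_of_eq_of_lt ?_ hn
      unfold gSiteAvg gEdgeAvg logAvg
      simp only [Real.log_inv, Finset.sum_neg_distrib, neg_div]
      ring
    exact ((eventually_gt_atTop 0).and (h1.eventually (gt_mem_nhds h2))).exists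
  set D : ℕ := D0 * N with hDdef
  have hD : 0 < D := Nat.mul_pos hD0 hN0
  have hD' : (0 : ℝ) < D := by exact_mod_cast hD
  have hN0' : (0 : ℝ) < N := by exact_mod_cast hN0
  set ε : ℕ → ℕ := fun h => if h < r then e h * N else 1 with hε
  have hεr : ε r = 1 := by simp [hε]
  have hεh : ∀ h < r, ε h = e h * N := fun h hh => by simp [hε, hh]
  have hε0 : ∀ h < r, 0 < ε h := fun h hh => by
    rw [hεh h hh]; exact Nat.mul_pos (he h hh).1 hN0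
  have hμε : ∀ h < r, μ h = (ε h : ℝ) / D := fun h hh => by
    rw [hεh h hh, hμdef, hDdef]
    push_cast
    field_simp
  -- ideal inequality
  have hI : (2 : ℝ) ^ ((1 : ℝ) / D) + 2 * cc * ((∑ J ∈ range 8, ∑ x ∈ range (K ^ 3),
      (SM (K ^ 3) μ (Ge b K Q r q J) r x ^ ((1 : ℝ) / D))⁻¹) / (8 * K ^ 3)) <
      1 + (∑ k ∈ range M, wt cc n k * (1 - (∑ J ∈ range (8 ^ k), ∑ x ∈ range (K ^ (k * 2)),
        SM (K ^ (k * 2)) μ (Gs b K Q r q k J) r x ^ ((1 : ℝ) / D)) / (8 ^ k * K ^ (k * 2)))) +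
      2 * cc := by
    have e1 : ∀ k, ((∑ J ∈ range (8 ^ k), (∑ x ∈ range (K ^ (k * 2)),
        F N (SM (K ^ (k * 2)) μ (Gs b K Q r q k J) r x)) / ((K ^ (k * 2) : ℕ) : ℝ)) / 8 ^ k) =
        -(D * (1 - (∑ J ∈ range (8 ^ k), ∑ x ∈ range (K ^ (k * 2)),
        SM (K ^ (k * 2)) μ (Gs b K Q r q k J) r x ^ ((1 : ℝ) / D)) / (8 ^ k * K ^ (k * 2)))) := by
      intro k
      rw [← Finset.sum_div]
      simp only [hF, ← hDdef, ← Finset.mul_sum, Finset.sum_sub_distrib]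
      simp only [Finset.sum_const, card_range, nsmul_eq_mul, mul_one]
      push_cast
      field_simp
      ring
    have e2 : ((∑ J ∈ range 8, (∑ x ∈ range (K ^ 3),
        F N (SM (K ^ 3) μ (Ge b K Q r q J) r x)⁻¹) / ((K ^ 3 : ℕ) : ℝ)) / 8) =
        D * ((∑ J ∈ range 8, ∑ x ∈ range (K ^ 3),
      (SM (K ^ 3) μ (Ge b K Q r q J) r x ^ ((1 : ℝ) / D))⁻¹) / (8 * K ^ 3) - 1) := by
      rw [← Finset.sum_div]
      have e3 : ∀ J x, ((SM (K ^ 3) μ (Ge b K Q r q J) r x)⁻¹) ^ ((1 : ℝ) / D) =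
          (SM (K ^ 3) μ (Ge b K Q r q J) r x ^ ((1 : ℝ) / D))⁻¹ := fun J x =>
        Real.inv_rpow (hTe J x).le _
      simp only [hF, ← hDdef, e3, ← Finset.mul_sum, Finset.sum_sub_distrib]
      simp only [Finset.sum_const, card_range, nsmul_eq_mul, mul_one]
      push_cast
      field_simp
    simp only [e1] at hN
    rw [e2] at hN
    simp only [hF, ← hDdef] at hN
    have e4 : (D : ℝ) * ((2 : ℝ) ^ ((1 : ℝ) / D) - 1) +
        (∑ k ∈ range M, wt cc n k * -(D * (1 - (∑ J ∈ range (8 ^ k), ∑ x ∈ range (K ^ (k * 2)),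
        SM (K ^ (k * 2)) μ (Gs b K Q r q k J) r x ^ ((1 : ℝ) / D)) / (8 ^ k * K ^ (k * 2))))) +
        cc * 2 * (D * ((∑ J ∈ range 8, ∑ x ∈ range (K ^ 3),
      (SM (K ^ 3) μ (Ge b K Q r q J) r x ^ ((1 : ℝ) / D))⁻¹) / (8 * K ^ 3) - 1)) =
        D * (((2 : ℝ) ^ ((1 : ℝ) / D) + 2 * cc * ((∑ J ∈ range 8, ∑ x ∈ range (K ^ 3),
      (SM (K ^ 3) μ (Ge b K Q r q J) r x ^ ((1 : ℝ) / D))⁻¹) / (8 * K ^ 3))) -
      (1 + (∑ k ∈ range M, wt cc n k * (1 - (∑ J ∈ range (8 ^ k), ∑ x ∈ range (K ^ (k * 2)),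
        SM (K ^ (k * 2)) μ (Gs b K Q r q k J) r x ^ ((1 : ℝ) / D)) / (8 ^ k * K ^ (k * 2)))) +
      2 * cc)) := by
      have e5 : (∑ k ∈ range M, wt cc n k * -(D * (1 - (∑ J ∈ range (8 ^ k),
        ∑ x ∈ range (K ^ (k * 2)), SM (K ^ (k * 2)) μ (Gs b K Q r q k J) r x ^ ((1 : ℝ) / D)) /
          (8 ^ k * K ^ (k * 2))))) =
          -(D * ∑ k ∈ range M, wt cc n k * (1 - (∑ J ∈ range (8 ^ k), ∑ x ∈ range (K ^ (k * 2)),
        SM (K ^ (k * 2)) μ (Gs b K Q r q k J) r x ^ ((1 : ℝ) / D)) / (8 ^ k * K ^ (k * 2)))) := by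
        rw [Finset.mul_sum, ← Finset.sum_neg_distrib]
        exact Finset.sum_congr rfl fun k _ => by ring
      rw [e5]
      ring
    rw [e4] at hN
    have := (pos_iff_neg_of_mul_neg hN).1 hD'
    linarith
  -- stage 4: the tables
  set Y : ℕ → ℕ → ℕ → ℕ → ℕ → ℕ := fun R k J => Yg (K ^ (k * 2)) D R ε
    (fun x => (siteNum b K Q r k q J x : ℝ) / (siteDen b Q k : ℕ)) with hY
  set Z : ℕ → ℕ → ℕ → ℕ → ℕ := fun R J => Zg (K ^ 3) D R ε
    (fun x => (edgeNum b K Q r q J x : ℝ) / (edgeDen b Q : ℕ)) with hZ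
  have hYt : ∀ k J x, Tendsto (fun R : ℕ => (Y R k J r x : ℝ) / R) atTop
      (𝓝 (SM (K ^ (k * 2)) μ (Gs b K Q r q k J) r x ^ ((1 : ℝ) / D))) := by
    intro k J x
    have h1 := tendsto_Yg (Φ := K ^ (k * 2)) (ε := ε)
      (G := fun x => (siteNum b K Q r k q J x : ℝ) / (siteDen b Q k : ℕ)) hD
      (fun x => by positivity) hε0 hμε r le_rfl x
    rw [hεr, Nat.cast_one] at h1
    exact h1
  have hZt : ∀ J x, Tendsto (fun R : ℕ => (Z R J r x : ℝ) / R) atTop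
      (𝓝 (SM (K ^ 3) μ (Ge b K Q r q J) r x ^ ((1 : ℝ) / D))) := by
    intro J x
    have h1 := tendsto_Zg (Φ := K ^ 3) (ε := ε)
      (G := fun x => (edgeNum b K Q r q J x : ℝ) / (edgeDen b Q : ℕ)) hD
      (fun x => by positivity) hε0 hμε r le_rfl x
    rw [hεr, Nat.cast_one] at h1
    exact h1
  have hTe' : ∀ J x, 0 < SM (K ^ 3) μ (Ge b K Q r q J) r x ^ ((1 : ℝ) / D) := fun J x =>
    Real.rpow_pos_of_pos (hTe J x) _
  set zt : ℕ → ℕ → ℕ → ℕ := fun R J x => ⌈(R : ℝ) * ((R : ℝ) / (Z R J r x : ℝ))⌉₊ with hzt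
  have hztt : ∀ J x, Tendsto (fun R : ℕ => (zt R J x : ℝ) / R) atTop
      (𝓝 (SM (K ^ 3) μ (Ge b K Q r q J) r x ^ ((1 : ℝ) / D))⁻¹) := by
    intro J x
    refine tendsto_ceil_div (f := fun R : ℕ => (R : ℝ) / (Z R J r x : ℝ)) ?_ fun R => by positivity
    refine ((hZt J x).inv₀ (hTe' J x).ne').congr fun R => ?_
    rw [inv_div]
  set A : ℕ → ℕ → ℕ := fun R k => ∑ J ∈ range (8 ^ k), ∑ x ∈ range (K ^ (k * 2)), Y R k J r x
    with hA
  have hAle : ∀ R, 0 < R → ∀ k, A R k ≤ (8 ^ k * K ^ (k * 2)) * R := by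
    intro R hR k
    have h1 : ∀ J x, Y R k J r x ≤ R := fun J x =>
      Yg_le (Nat.pow_pos hK) hR (fun x =>
        ⟨(by positivity : (0 : ℝ) ≤ (((2 : ℝ) ^ b)⁻¹) ^ k).trans (Gs_bounds hK hq k J x).1,
          (Gs_bounds hK hq k J x).2⟩) r x
    calc A R k ≤ ∑ J ∈ range (8 ^ k), ∑ x ∈ range (K ^ (k * 2)), R :=
          Finset.sum_le_sum fun J _ => Finset.sum_le_sum fun x _ => h1 J x
      _ = _ := by simp [mul_assoc]
  set v : ℕ → ℕ → ℕ := fun R k => ⌊(R : ℝ) * max 0 (wt cc n k *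
    (1 - (A R k : ℝ) / (((8 ^ k * K ^ (k * 2) : ℕ) : ℝ) * R)))⌋₊ with hv
  have hAt : ∀ k, Tendsto (fun R : ℕ => (A R k : ℝ) / (((8 ^ k * K ^ (k * 2) : ℕ) : ℝ) * R)) atTop
      (𝓝 ((∑ J ∈ range (8 ^ k), ∑ x ∈ range (K ^ (k * 2)),
        SM (K ^ (k * 2)) μ (Gs b K Q r q k J) r x ^ ((1 : ℝ) / D)) / (8 ^ k * K ^ (k * 2)))) := by
    intro k
    have h1 : Tendsto (fun R : ℕ => (∑ J ∈ range (8 ^ k), ∑ x ∈ range (K ^ (k * 2)),
        (Y R k J r x : ℝ) / R) / (8 ^ k * K ^ (k * 2))) atTop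
      (𝓝 ((∑ J ∈ range (8 ^ k), ∑ x ∈ range (K ^ (k * 2)),
        SM (K ^ (k * 2)) μ (Gs b K Q r q k J) r x ^ ((1 : ℝ) / D)) / (8 ^ k * K ^ (k * 2)))) :=
      (tendsto_finsetSum _ fun J _ => tendsto_finsetSum _ fun x _ => hYt k J x).div_const _
    refine h1.congr fun R => ?_
    rw [hA]
    simp only [← Finset.sum_div]
    push_cast
    rw [div_div, mul_comm (R : ℝ)]
  have hvt : ∀ k, Tendsto (fun R : ℕ => (v R k : ℝ) / R) atTop
      (𝓝 (wt cc n k * (1 - (∑ J ∈ range (8 ^ k), ∑ x ∈ range (K ^ (k * 2)),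
        SM (K ^ (k * 2)) μ (Gs b K Q r q k J) r x ^ ((1 : ℝ) / D)) / (8 ^ k * K ^ (k * 2))))) := by
    intro k
    refine tendsto_floor_div ?_ fun R => le_max_left _ _
    have h1 : Tendsto (fun R : ℕ => wt cc n k *
        (1 - (A R k : ℝ) / (((8 ^ k * K ^ (k * 2) : ℕ) : ℝ) * R))) atTop
        (𝓝 (wt cc n k * (1 - (∑ J ∈ range (8 ^ k), ∑ x ∈ range (K ^ (k * 2)),
        SM (K ^ (k * 2)) μ (Gs b K Q r q k J) r x ^ ((1 : ℝ) / D)) / (8 ^ k * K ^ (k * 2))))) :=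
      ((hAt k).const_sub 1).const_mul _
    refine h1.congr' ?_
    filter_upwards [eventually_gt_atTop 0] with R hR
    rw [max_eq_right]
    refine mul_nonneg (hwt0 k) ?_
    have hR' : (0 : ℝ) < R := by exact_mod_cast hR
    have h2 : (A R k : ℝ) ≤ ((8 ^ k * K ^ (k * 2) : ℕ) : ℝ) * R := by exact_mod_cast hAle R hR k
    have h3 : (0 : ℝ) < ((8 ^ k * K ^ (k * 2) : ℕ) : ℝ) * R := by
      have : 0 < 8 ^ k * K ^ (k * 2) := by positivity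
      have : (0 : ℝ) < ((8 ^ k * K ^ (k * 2) : ℕ) : ℝ) := by exact_mod_cast this
      positivity
    rw [sub_nonneg, div_le_one h3]
    exact h2
  set τ : ℕ → ℕ := fun R => ⌈(R : ℝ) * (2 : ℝ) ^ ((1 : ℝ) / D)⌉₊ with hτ
  have hτt : Tendsto (fun R : ℕ => (τ R : ℝ) / R) atTop (𝓝 ((2 : ℝ) ^ ((1 : ℝ) / D))) :=
    tendsto_ceil_div tendsto_const_nhds fun R => by positivity
  -- choose R
  obtain ⟨R, hR, hRZ, hRI⟩ : ∃ R : ℕ, 0 < R ∧
      (∀ J ∈ range 8, ∀ x ∈ range (K ^ 3), 0 < Z R J r x) ∧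
      (τ R : ℝ) / R + 2 * cc * ((∑ J ∈ range 8, ∑ x ∈ range (K ^ 3), (zt R J x : ℝ) / R) /
        (8 * K ^ 3)) < 1 + (∑ k ∈ range M, (v R k : ℝ) / R) + 2 * cc := by
    have h1 : Tendsto (fun R : ℕ => (τ R : ℝ) / R + 2 * cc *
        ((∑ J ∈ range 8, ∑ x ∈ range (K ^ 3), (zt R J x : ℝ) / R) / (8 * K ^ 3))) atTop
        (𝓝 ((2 : ℝ) ^ ((1 : ℝ) / D) + 2 * cc * ((∑ J ∈ range 8, ∑ x ∈ range (K ^ 3),
      (SM (K ^ 3) μ (Ge b K Q r q J) r x ^ ((1 : ℝ) / D))⁻¹) / (8 * K ^ 3)))) :=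
      hτt.add (((tendsto_finsetSum _ fun J _ => tendsto_finsetSum _ fun x _ =>
        hztt J x).div_const _).const_mul _)
    have h2 : Tendsto (fun R : ℕ => 1 + (∑ k ∈ range M, (v R k : ℝ) / R) + 2 * cc) atTop
        (𝓝 (1 + (∑ k ∈ range M, wt cc n k * (1 - (∑ J ∈ range (8 ^ k), ∑ x ∈ range (K ^ (k * 2)),
        SM (K ^ (k * 2)) μ (Gs b K Q r q k J) r x ^ ((1 : ℝ) / D)) / (8 ^ k * K ^ (k * 2)))) +
      2 * cc)) := ((tendsto_finsetSum _ fun k _ => hvt k).const_add _).add_const _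
    have h3 := h1.eventually_lt h2 hI
    have h4 : ∀ᶠ R : ℕ in atTop, ∀ J ∈ range 8, ∀ x ∈ range (K ^ 3), 0 < Z R J r x := by
      rw [eventually_all_finset]
      intro J _
      rw [eventually_all_finset]
      intro x _
      filter_upwards [(hZt J x).eventually (lt_mem_nhds (hTe' J x))] with R hR
      by_contra h0
      have : Z R J r x = 0 := by omega
      rw [this] at hR
      simp at hR
    exact ((eventually_gt_atTop 0).and (h4.and h3)).exists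
  have hR' : (0 : ℝ) < R := by exact_mod_cast hR
  refine ⟨⟨b, r, K, Q, D, R, n, M, τ R, ε, q, v R, Y R, Z R, zt R⟩, ?_⟩
  refine ⟨ha, hK, hD, hR, hn0, han, hεr, fun h hh => ?_, fun h hh => ?_, hq, ?_, ?_, ?_, ?_, ?_, ?_⟩
  · refine ⟨hε0 h hh, ?_⟩
    show ε h < D
    rw [hεh h hh, hDdef]
    exact Nat.mul_lt_mul_of_pos_right (he h hh).2 hN0
  · show ε (h + 1) < ε h
    have hh1 : h < r - 1 := hh
    rw [hεh h (by omega), hεh (h + 1) (by omega)]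
    exact Nat.mul_lt_mul_of_pos_right (he' h hh1) hN0
  · show 2 * R ^ D ≤ τ R ^ D
    have h1 : (2 : ℝ) ^ (((1 : ℕ) : ℝ) / D) ≤ (τ R : ℝ) / R := by
      rw [le_div_iff₀ hR', mul_comm, Nat.cast_one]
      exact Nat.le_ceil _
    rw [rpow_div_le_iff (by norm_num) (by positivity) hD, div_pow, le_div_iff₀ (by positivity),
      pow_one] at h1
    exact_mod_cast h1
  · intro k _ J _
    exact treeUp_Yg hD hR (siteDen_pos hQ k) (Nat.pow_pos hK) hε0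
  · intro J _
    exact treeLo_Zg hD hR (edgeDen_pos hQ) (Nat.pow_pos hK) hε0
  · intro J hJ x hx
    show R * R ≤ zt R J x * Z R J r x
    have hZ0 := hRZ J (mem_range.2 hJ) x (mem_range.2 hx)
    have hZ0' : (0 : ℝ) < Z R J r x := by exact_mod_cast hZ0
    have h1 : (R : ℝ) * ((R : ℝ) / (Z R J r x : ℝ)) ≤ zt R J x := Nat.le_ceil _
    rw [mul_div_assoc', div_le_iff₀ hZ0'] at h1
    exact_mod_cast h1
  · intro k _
    refine hv_of_real (P := 8 ^ k * K ^ (k * 2)) (A := A R k) (by positivity) hR hn0 han ?_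
    show (v R k : ℝ) / R ≤ _
    have h2 : (A R k : ℝ) ≤ ((8 ^ k * K ^ (k * 2) : ℕ) : ℝ) * R := by exact_mod_cast hAle R hR k
    have h3 : (0 : ℝ) < ((8 ^ k * K ^ (k * 2) : ℕ) : ℝ) * R := by
      have : 0 < 8 ^ k * K ^ (k * 2) := by positivity
      have : (0 : ℝ) < ((8 ^ k * K ^ (k * 2) : ℕ) : ℝ) := by exact_mod_cast this
      positivity
    have h4 : 0 ≤ wt cc n k * (1 - (A R k : ℝ) / (((8 ^ k * K ^ (k * 2) : ℕ) : ℝ) * R)) := by
      refine mul_nonneg (hwt0 k) ?_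
      rw [sub_nonneg, div_le_one h3]
      exact h2
    rw [div_le_iff₀ hR', mul_comm]
    have h5 := Nat.floor_le (mul_nonneg hR'.le (le_max_left (0 : ℝ) (wt cc n k *
      (1 - (A R k : ℝ) / (((8 ^ k * K ^ (k * 2) : ℕ) : ℝ) * R)))))
    rw [max_eq_right h4] at h5
    have h6 : v R k = ⌊(R : ℝ) * (wt cc n k *
      (1 - (A R k : ℝ) / (((8 ^ k * K ^ (k * 2) : ℕ) : ℝ) * R)))⌋₊ := by
      rw [hv]
      simp only
      rw [max_eq_right h4]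
    rw [h6]
    exact h5
  · show τ R * (2 ^ κ * (8 * K ^ 3)) + 2 * a * (∑ J ∈ range 8, ∑ x ∈ range (K ^ 3), zt R J x) <
      (R + ∑ k ∈ range M, v R k) * (2 ^ κ * (8 * K ^ 3)) + 2 * a * R * (8 * K ^ 3)
    simp only [← Finset.sum_div] at hRI
    have h1 : (τ R : ℝ) / R + 2 * cc * ((∑ J ∈ range 8, ∑ x ∈ range (K ^ 3), (zt R J x : ℝ)) / R /
        (8 * K ^ 3)) = ((τ R : ℝ) * (2 ^ κ * (8 * K ^ 3)) +
        2 * a * (∑ J ∈ range 8, ∑ x ∈ range (K ^ 3), (zt R J x : ℝ))) /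
        (R * (2 ^ κ * (8 * K ^ 3))) := by
      rw [hcc]
      field_simp
    have h2 : 1 + (∑ k ∈ range M, (v R k : ℝ)) / R + 2 * cc =
        ((R + ∑ k ∈ range M, (v R k : ℝ)) * (2 ^ κ * (8 * K ^ 3)) + 2 * a * R * (8 * K ^ 3)) /
        (R * (2 ^ κ * (8 * K ^ 3))) := by
      rw [hcc]
      field_simp
    rw [h1, h2, div_lt_div_iff_of_pos_right (by positivity)] at hRI
    exact_mod_cast hRI

end Crest.Agent.R153
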