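import Crest.Agent.R153.GridReal
import Crest.Agent.R153.SatTrial

/-!
Row 153, right certificate: the trial functional of a grid trial is `gridB`.
-/

set_option autoImplicit false

namespace Crest.Agent.R153

open MeasureTheory Finset Crest.ProbabilityR.Diluted

theorem finFun_digit {m n : ℕ} (f : Fin n → Fin m) (b : Fin n) :
    (finFunctionFinEquiv f : ℕ) / m ^ (b : ℕ) % m = f b := by
  have h := congrFun (finFunctionFinEquiv.symm_apply_apply f) b
  exact congrArg Fin.val h

section code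

variable {L : Type} [Fintype L] [DecidableEq L] {nL : ℕ} (e : L ≃ Fin nL) {K r : ℕ}

/-- Code of a word indexed by the labels. -/
def lcode (v : L → Fin (K + 1)) : ℕ := (finFunctionFinEquiv (fun i => v (e.symm i)) : Fin _)

omit [Fintype L] [DecidableEq L] in
theorem lcode_lt (v : L → Fin (K + 1)) : lcode e v < (K + 1) ^ nL := Fin.is_lt _

omit [Fintype L] [DecidableEq L] in
theorem lcode_digit (v : L → Fin (K + 1)) (ω : L) :
    lcode e v / (K + 1) ^ (e ω : ℕ) % (K + 1) = v ω := by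
  unfold lcode
  rw [finFun_digit]
  simp

theorem sum_lcode (F : ℕ → ℝ) :
    ∑ v : L → Fin (K + 1), F (lcode e v) = ∑ y ∈ range ((K + 1) ^ nL), F y := by
  rw [Finset.sum_range]
  have := Equiv.sum_comp ((Equiv.arrowCongr e (Equiv.refl (Fin (K + 1)))).trans
    finFunctionFinEquiv) (fun i : Fin ((K + 1) ^ nL) => F i)
  rw [← this]
  rfl

/-- Level code of an array of letters. -/
def lev (c : L → Fin (r + 1) → Fin (K + 1)) (j : ℕ) : ℕ :=
  if h : j < r + 1 then lcode e (fun ω => c ω ⟨j, h⟩) else 0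

/-- Prefix code. -/
def pc (c : L → Fin (r + 1) → Fin (K + 1)) : ℕ → ℕ
  | 0 => lev e c 0
  | j + 1 => (K + 1) ^ nL * pc c j + lev e c (j + 1)

omit [Fintype L] [DecidableEq L] in
theorem lev_lt (c : L → Fin (r + 1) → Fin (K + 1)) (j : ℕ) : lev e c j < (K + 1) ^ nL := by
  unfold lev
  split_ifs
  · exact lcode_lt e _
  · positivity

omit [Fintype L] [DecidableEq L] in
theorem pc_congr (c c' : L → Fin (r + 1) → Fin (K + 1)) (j : ℕ)
    (h : ∀ i : Fin (r + 1), i.val ≤ j → ∀ ω, c ω i = c' ω i) : pc e c j = pc e c' j := by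
  have hl : ∀ i ≤ j, lev e c i = lev e c' i := by
    intro i hi
    unfold lev
    split_ifs with h1
    · have : (fun ω => c ω ⟨i, h1⟩) = (fun ω => c' ω ⟨i, h1⟩) := by
        funext ω; exact h ⟨i, h1⟩ hi ω
      rw [this]
    · rfl
  induction j with
  | zero => exact hl 0 le_rfl
  | succ j ih =>
    simp only [pc]
    rw [ih (fun i hi => h i (by omega)) (fun i hi => hl i (by omega)), hl (j + 1) le_rfl]

omit [Fintype L] [DecidableEq L] in
theorem pc_digit (c : L → Fin (r + 1) → Fin (K + 1)) (j i : ℕ) (hi : i ≤ j) :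
    pc e c j / ((K + 1) ^ nL) ^ i % (K + 1) ^ nL = lev e c (j - i) := by
  have hpos : 0 < (K + 1) ^ nL := by positivity
  induction j generalizing i with
  | zero =>
    have : i = 0 := by omega
    subst this
    simp only [pc, pow_zero, Nat.div_one]
    exact Nat.mod_eq_of_lt (lev_lt e c 0)
  | succ j ih =>
    cases i with
    | zero =>
      simp only [pc, pow_zero, Nat.div_one, Nat.mul_add_mod_self_left, tsub_zero]
      exact Nat.mod_eq_of_lt (lev_lt e c (j + 1))
    | succ i =>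
      rw [pow_succ', ← Nat.div_div_eq_div_mul]
      have h1 : pc e c (j + 1) / (K + 1) ^ nL = pc e c j := by
        simp only [pc]
        rw [Nat.mul_add_div hpos, Nat.div_eq_of_lt (lev_lt e c (j + 1)), add_zero]
      rw [h1, ih i (by omega)]
      congr 1
      omega

/-- Code of the path of one label. -/
def pathIdx (d : Fin (r + 1) → Fin (K + 1)) : ℕ :=
  ∑ i ∈ range (r + 1), (if h : r - i < r + 1 then (d ⟨r - i, h⟩ : ℕ) else 0) * (K + 1) ^ i

theorem pathIdx_lt (d : Fin (r + 1) → Fin (K + 1)) : pathIdx d < (K + 1) ^ (r + 1) := by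
  unfold pathIdx
  refine digits_lt (fun i => if h : r - i < r + 1 then (d ⟨r - i, h⟩ : ℕ) else 0)
    (fun i => ?_) (r + 1)
  split_ifs
  · exact Fin.is_lt _
  · positivity

omit [Fintype L] [DecidableEq L] in
theorem pathN_pc (c : L → Fin (r + 1) → Fin (K + 1)) (ω : L) :
    pathN (K + 1) nL r (pc e c r) (e ω) = pathIdx (c ω) := by
  unfold pathN pathIdx
  refine Finset.sum_congr rfl fun i hi => ?_
  have hi' : i ≤ r := by have := mem_range.1 hi; omega
  congr 1
  rw [pc_digit e c r i hi']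
  unfold lev
  have h : r - i < r + 1 := by omega
  rw [dif_pos h, dif_pos h, lcode_digit]

theorem fPM_eq (μ : ℕ → ℝ) (G : ℕ → ℝ) (g : (L → Fin (r + 1) → Fin (K + 1)) → ℝ)
    (hg : ∀ c, g c = G (pc e c r)) (c : L → Fin (r + 1) → Fin (K + 1)) :
    fPM (fun d : Fin r => μ (r - 1 - d)) g c = SM ((K + 1) ^ nL) μ G r (lev e c 0) := by
  have hcard : Fintype.card L = nL := by rw [Fintype.card_congr e, Fintype.card_fin]
  have key : ∀ n j : ℕ, j + n = r → ∀ c : L → Fin (r + 1) → Fin (K + 1),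
      ((List.finRange r).drop j).foldr
        (fun (d : Fin r) acc => fpmStep (μ (r - 1 - d)) d.succ acc) g c =
      SM ((K + 1) ^ nL) μ G n (pc e c j) := by
    intro n
    induction n with
    | zero =>
      intro j hj c
      have hj' : j = r := by omega
      subst hj'
      rw [List.drop_of_length_le (by simp)]
      simp only [List.foldr_nil, SM]
      exact hg c
    | succ n ih =>
      intro j hj c
      have hjr : j < (List.finRange r).length := by simp; omega
      rw [List.drop_eq_getElem_cons hjr, List.foldr_cons]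
      have hjr' : j < r := by omega
      have hget : (List.finRange r)[j] = ⟨j, hjr'⟩ := by simp
      rw [hget]
      have hμ : r - 1 - j = n := by omega
      simp only [fpmStep, SM, hμ]
      congr 1
      rw [hcard, ← sum_lcode e, inv_mul_eq_div]
      push_cast
      congr 1
      refine Finset.sum_congr rfl fun v _ => ?_
      congr 1
      rw [ih (j + 1) (by omega)]
      congr 1
      simp only [pc]
      congr 1
      · congr 1
        refine pc_congr e _ _ j fun i hi ω => ?_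
        rw [if_neg]
        intro h
        rw [h] at hi
        simp at hi
      · unfold lev
        rw [dif_pos (by omega)]
        simp
  have := key r 0 (by omega) c
  simpa [fPM, pc] using this

/-- Integral of the logarithm of nested power means of a function of the cells. -/
theorem integral_log_powerMeans_grid (μ : ℕ → ℝ) (G : ℕ → ℝ)
    (g : (L → Fin (r + 1) → Fin (K + 1)) → ℝ) (hg : ∀ c, g c = G (pc e c r)) :
    ∫ u, Real.log (powerMeans (fun d : Fin r => μ (r - 1 - d)) (fun u' => g (cells K u')) u)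
      ∂(uniformArrays L r) = logAvg ((K + 1) ^ nL) r μ G := by
  have hcard : Fintype.card L = nL := by rw [Fintype.card_congr e, Fintype.card_fin]
  simp only [powerMeans_cells, fPM_eq e μ G g hg]
  have h1 : ∀ u : L → Fin (r + 1) → unitInterval,
      lev e (cells K u) 0 = lcode e (fun ω => cell K (u ω 0)) := by
    intro u
    unfold lev cells
    rw [dif_pos (by omega)]
    rfl
  simp only [h1]
  have hmp : MeasurePreserving (fun (u : L → Fin (r + 1) → unitInterval) (ω : L) => u ω 0)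
      (uniformArrays L r) (Measure.pi fun _ : L => (volume : Measure unitInterval)) :=
    measurePreserving_pi _ _ (fun _ => measurePreserving_eval _ 0)
  have hmeas : Measurable (fun v : L → unitInterval =>
      Real.log (SM ((K + 1) ^ nL) μ G r (lcode e (fun ω => cell K (v ω))))) := by
    have h2 : Measurable (fun (v : L → unitInterval) (ω : L) => cell K (v ω)) :=
      measurable_pi_lambda _ fun ω => (measurable_cell K).comp (measurable_pi_apply ω)
    exact (measurable_of_finite (fun s : L → Fin (K + 1) =>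
      Real.log (SM ((K + 1) ^ nL) μ G r (lcode e s)))).comp h2
  have h3 := hmp.map_eq ▸ (integral_map hmp.measurable.aemeasurable
    (hmeas.aestronglyMeasurable (μ := Measure.map
      (fun (u : L → Fin (r + 1) → unitInterval) (ω : L) => u ω 0) (uniformArrays L r))))
  rw [← h3]
  rw [integral_cell (ι := L) K
    (fun s => Real.log (SM ((K + 1) ^ nL) μ G r (lcode e s))),
    sum_lcode e (fun y => Real.log (SM ((K + 1) ^ nL) μ G r y)), hcard]
  unfold logAvg
  push_cast
  rw [inv_mul_eq_div]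

end code

/-! ### Patterns -/

/-- Code of a sign pattern. -/
def eB : (Fin 3 → Bool) ≃ Fin 8 :=
  (Equiv.arrowCongr (Equiv.refl (Fin 3)) finTwoEquiv.symm).trans
    (finFunctionFinEquiv (m := 2) (n := 3))

theorem eB_bit (s : Fin 3 → Bool) (l : Fin 3) :
    bitN (eB s : ℕ) l = if s l then 1 else 0 := by
  unfold bitN eB
  have h := finFun_digit (m := 2) (n := 3)
    ((Equiv.arrowCongr (Equiv.refl (Fin 3)) finTwoEquiv.symm) s) l
  refine h.trans ?_
  simp only [Equiv.arrowCongr_apply, Equiv.refl_symm, Equiv.coe_refl, Function.comp_id,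
    Function.comp_apply]
  cases s l <;> rfl

/-- Code of a family of sign patterns. -/
def eJ (k : ℕ) : (Fin k → Fin 3 → Bool) ≃ Fin (8 ^ k) :=
  (Equiv.arrowCongr (Equiv.refl (Fin k)) eB).trans finFunctionFinEquiv

theorem eJ_digit {k : ℕ} (J : Fin k → Fin 3 → Bool) (j : Fin k) :
    (eJ k J : ℕ) / 8 ^ (j : ℕ) % 8 = eB (J j) :=
  finFun_digit (m := 8) (n := k) ((Equiv.arrowCongr (Equiv.refl (Fin k)) eB) J) j

theorem sum_eJ {k : ℕ} (F : ℕ → ℝ) :
    ∑ J : Fin k → Fin 3 → Bool, F (eJ k J : ℕ) = ∑ J ∈ range (8 ^ k), F J := by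
  rw [Finset.sum_range]
  exact Equiv.sum_comp (eJ k) (fun i : Fin (8 ^ k) => F i)

theorem sum_eB (F : ℕ → ℝ) :
    ∑ s : Fin 3 → Bool, F (eB s : ℕ) = ∑ J ∈ range 8, F J := by
  rw [Finset.sum_range]
  exact Equiv.sum_comp eB (fun i : Fin 8 => F i)

/-! ### The grid trial -/

/-- The trial law given by the table `q` with denominator `Q`. -/
noncomputable def gX (r K Q : ℕ) (q : ℕ → ℕ) (u : Fin (r + 1) → unitInterval) : ℝ :=
  msg ((q (pathIdx (fun j => cell K (u j))) : ℝ) / Q)

theorem measurable_gX (r K Q : ℕ) (q : ℕ → ℕ) : Measurable (gX r K Q q) := by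
  have h2 : Measurable (fun (u : Fin (r + 1) → unitInterval) (j : Fin (r + 1)) => cell K (u j)) :=
    measurable_pi_lambda _ fun ω => (measurable_cell K).comp (measurable_pi_apply ω)
  exact (measurable_of_finite (fun s : Fin (r + 1) → Fin (K + 1) =>
    msg ((q (pathIdx s) : ℝ) / Q))).comp h2

theorem tilt_table {Q q : ℕ} (h : 0 < q ∧ q < Q) (s : Bool) (bit : ℕ)
    (hbit : bit = if s then 1 else 0) :
    tilt (msg ((q : ℝ) / Q)) s = (aval Q bit q : ℝ) / Q := by
  have hq : (0 : ℝ) < q := by exact_mod_cast h.1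
  have hqQ : (q : ℝ) < Q := by exact_mod_cast h.2
  have hQ : (0 : ℝ) < Q := hq.trans hqQ
  have h0 : 0 < (q : ℝ) / Q := by positivity
  have h1 : (q : ℝ) / Q < 1 := (div_lt_one hQ).2 hqQ
  cases s with
  | true =>
    rw [tilt_msg_true h0 h1, hbit]
    simp [aval, Good.iteN]
  | false =>
    rw [tilt_msg_false h0 h1, hbit]
    simp only [aval, Good.iteN, Bool.false_eq_true, if_false, if_true]
    rw [Nat.cast_sub h.2.le]
    field_simp

theorem exp_neg_b (b : ℕ) : Real.exp (-((b : ℝ) * Real.log 2)) = ((2 : ℝ) ^ b)⁻¹ := by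
  rw [Real.exp_neg, mul_comm, Real.exp_mul, Real.exp_log (by norm_num), Real.rpow_natCast]

theorem one_sub_exp (b : ℕ) : 1 - Real.exp (-((b : ℝ) * Real.log 2)) =
    ((2 : ℝ) ^ b - 1) / 2 ^ b := by
  rw [exp_neg_b]; field_simp

theorem two_pow_sub_cast (b : ℕ) : ((2 ^ b - 1 : ℕ) : ℝ) = (2 : ℝ) ^ b - 1 := by
  rw [Nat.cast_sub Nat.one_le_two_pow]; push_cast; ring

theorem edgeNum_cast {b K Q r : ℕ} {q : ℕ → ℕ} (hK : 0 < K)
    (hq : ∀ i < K ^ (r + 1), 0 < q i ∧ q i < Q) (J x : ℕ) :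
    (edgeNum b K Q r q J x : ℝ) = 2 ^ b * (Q : ℝ) ^ 3 - ((2 : ℝ) ^ b - 1) *
      ∏ l ∈ range 3, (aval Q (bitN J l) (q (pathN K 3 r x l)) : ℝ) := by
  have h1 : ∏ l ∈ range 3, aval Q (bitN J l) (q (pathN K 3 r x l)) ≤
      ∏ _l ∈ range 3, Q := Finset.prod_le_prod' fun l _ =>
    (aval_bounds (hq _ (pathN_lt hK _ _ _ _))).2.le
  simp only [Finset.prod_const, Finset.card_range] at h1
  have h2 : (2 ^ b - 1) * ∏ l ∈ range 3, aval Q (bitN J l) (q (pathN K 3 r x l)) ≤
      2 ^ b * Q ^ 3 := Nat.mul_le_mul (Nat.sub_le _ _) h1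
  unfold edgeNum
  rw [Nat.cast_sub h2, Nat.cast_mul (2 ^ b - 1), two_pow_sub_cast]
  push_cast
  ring

theorem siteA_cast {b K Q r k : ℕ} {q : ℕ → ℕ} (hK : 0 < K)
    (hq : ∀ i < K ^ (r + 1), 0 < q i ∧ q i < Q) (J x j : ℕ) :
    (siteA b K Q r k q J x j : ℝ) = 2 ^ b * (Q : ℝ) ^ 2 - ((2 : ℝ) ^ b - 1) *
      ∏ l ∈ range 2, (aval Q (bitN (J / 8 ^ j % 8) l)
        (q (pathN K (k * 2) r x (l + 2 * j))) : ℝ) := by
  have h1 : ∏ l ∈ range 2, aval Q (bitN (J / 8 ^ j % 8) l)
      (q (pathN K (k * 2) r x (l + 2 * j))) ≤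
      ∏ _l ∈ range 2, Q := Finset.prod_le_prod' fun l _ =>
    (aval_bounds (hq _ (pathN_lt hK _ _ _ _))).2.le
  simp only [Finset.prod_const, Finset.card_range] at h1
  have h2 : (2 ^ b - 1) * ∏ l ∈ range 2, aval Q (bitN (J / 8 ^ j % 8) l)
      (q (pathN K (k * 2) r x (l + 2 * j))) ≤
      2 ^ b * Q ^ 2 := Nat.mul_le_mul (Nat.sub_le _ _) h1
  unfold siteA
  rw [Nat.cast_sub h2, Nat.cast_mul (2 ^ b - 1), two_pow_sub_cast]
  push_cast
  ring

section eval

variable {b K Q r : ℕ} {q : ℕ → ℕ}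

/-- The edge term in the coded form. -/
theorem edgeTerm_eq (hq : ∀ i < (K + 1) ^ (r + 1), 0 < q i ∧ q i < Q) (s : Fin 3 → Bool)
    (c : Fin 3 → Fin (r + 1) → Fin (K + 1)) :
    edgeTerm (satInter ((b : ℝ) * Real.log 2) s)
      (fun ℓ => msg ((q (pathIdx (c ℓ)) : ℝ) / Q)) =
    Ge b (K + 1) Q r q (eB s) (pc (Equiv.refl (Fin 3)) c r) := by
  have hQ : (0 : ℝ) < Q := by exact_mod_cast Q_pos (Nat.succ_pos K) hq
  rw [edgeTerm_satInter, one_sub_exp]
  unfold Ge edgeDen
  rw [edgeNum_cast (Nat.succ_pos K) hq, Finset.prod_range]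
  have h1 : ∀ l : Fin 3, tilt (msg ((q (pathIdx (c l)) : ℝ) / Q)) (s l) =
      (aval Q (bitN (eB s : ℕ) l) (q (pathN (K + 1) 3 r (pc (Equiv.refl (Fin 3)) c r) l)) : ℝ) /
        Q := by
    intro l
    have h2 : pathN (K + 1) 3 r (pc (Equiv.refl (Fin 3)) c r) l = pathIdx (c l) :=
      pathN_pc (Equiv.refl (Fin 3)) c l
    rw [h2]
    exact tilt_table (hq _ (pathIdx_lt _)) (s l) _ (eB_bit s l)
  simp only [h1]
  rw [Finset.prod_div_distrib]
  simp only [Finset.prod_const, Finset.card_univ, Fintype.card_fin]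
  push_cast
  field_simp

/-- The site term in the coded form. -/
theorem siteTerm_eq (hq : ∀ i < (K + 1) ^ (r + 1), 0 < q i ∧ q i < Q) {k : ℕ}
    (J : Fin k → Fin 3 → Bool) (c : Fin k × Fin 2 → Fin (r + 1) → Fin (K + 1)) :
    siteTerm (p := 3) 0 (fun j => satInter ((b : ℝ) * Real.log 2) (J j))
      (fun j ℓ => msg ((q (pathIdx (c (j, ℓ))) : ℝ) / Q)) =
    Gs b (K + 1) Q r q k (eJ k J) (pc finProdFinEquiv c r) := by
  have hQ : (0 : ℝ) < Q := by exact_mod_cast Q_pos (Nat.succ_pos K) hq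
  have hW : (0 : ℝ) < 2 ^ b * (Q : ℝ) ^ 2 := by positivity
  rw [siteTerm_satInter]
  unfold Gs siteDen siteNum
  have h1 : ∀ (j : Fin k) (l : Fin 2), tilt (msg ((q (pathIdx (c (j, l))) : ℝ) / Q))
      (J j (Fin.castSucc l)) =
      (aval Q (bitN ((eJ k J : ℕ) / 8 ^ (j : ℕ) % 8) l)
        (q (pathN (K + 1) (k * 2) r (pc finProdFinEquiv c r) (l + 2 * j))) : ℝ) / Q := by
    intro j l
    have h2 : pathN (K + 1) (k * 2) r (pc finProdFinEquiv c r) (l + 2 * j) =
        pathIdx (c (j, l)) := pathN_pc finProdFinEquiv c (j, l)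
    rw [h2, eJ_digit]
    exact tilt_table (hq _ (pathIdx_lt _)) (J j (Fin.castSucc l)) _
      (eB_bit (J j) (Fin.castSucc l))
  have h2 : ∀ j : Fin k, 1 - (1 - Real.exp (-((b : ℝ) * Real.log 2))) *
      (tilt (msg ((q (pathIdx (c (j, 0))) : ℝ) / Q)) (J j 0) *
        tilt (msg ((q (pathIdx (c (j, 1))) : ℝ) / Q)) (J j 1)) =
      (siteA b (K + 1) Q r k q (eJ k J) (pc finProdFinEquiv c r) j : ℝ) /
        (2 ^ b * (Q : ℝ) ^ 2) := by
    intro j
    have e0 := h1 j 0
    have e1 := h1 j 1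
    simp only [Fin.castSucc_zero, Fin.castSucc_one] at e0 e1
    rw [siteA_cast (Nat.succ_pos K) hq, one_sub_exp, e0, e1]
    rw [Finset.prod_range_succ, Finset.prod_range_one]
    simp only [Fin.val_zero, Fin.val_one]
    field_simp
  have h3 : ∀ (j : Fin k) (ε : Bool), msgW ((b : ℝ) * Real.log 2) (J j)
      (fun ℓ => msg ((q (pathIdx (c (j, ℓ))) : ℝ) / Q)) ε =
      ((if ε = J j 2 then siteA b (K + 1) Q r k q (eJ k J) (pc finProdFinEquiv c r) j
        else 2 ^ b * Q ^ 2 : ℕ) : ℝ) / (2 ^ b * (Q : ℝ) ^ 2) := by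
    intro j ε
    unfold msgW
    split_ifs with h
    · exact h2 j
    · push_cast
      rw [div_self hW.ne']; ring
  have hbit : ∀ j : Fin k, bitN ((eJ k J : ℕ) / 8 ^ (j : ℕ) % 8) 2 =
      if J j 2 then 1 else 0 := by
    intro j
    rw [eJ_digit]
    exact eB_bit (J j) 2
  have h4 : (∏ j ∈ range k, Good.iteN (bitN ((eJ k J : ℕ) / 8 ^ j % 8) 2)
      (siteA b (K + 1) Q r k q (eJ k J) (pc finProdFinEquiv c r) j) (2 ^ b * Q ^ 2)) =
      ∏ j : Fin k, (if true = J j 2 then siteA b (K + 1) Q r k q (eJ k J)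
        (pc finProdFinEquiv c r) j else 2 ^ b * Q ^ 2) := by
    rw [Finset.prod_range]
    refine Finset.prod_congr rfl fun j _ => ?_
    rw [hbit]
    cases J j 2 <;> simp [Good.iteN]
  have h5 : (∏ j ∈ range k, Good.iteN (bitN ((eJ k J : ℕ) / 8 ^ j % 8) 2) (2 ^ b * Q ^ 2)
      (siteA b (K + 1) Q r k q (eJ k J) (pc finProdFinEquiv c r) j)) =
      ∏ j : Fin k, (if false = J j 2 then siteA b (K + 1) Q r k q (eJ k J)
        (pc finProdFinEquiv c r) j else 2 ^ b * Q ^ 2) := by
    rw [Finset.prod_range]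
    refine Finset.prod_congr rfl fun j _ => ?_
    rw [hbit]
    cases J j 2 <;> simp [Good.iteN]
  rw [h4, h5, Fintype.sum_bool]
  simp only [h3]
  rw [Finset.prod_div_distrib, Finset.prod_div_distrib]
  simp only [Finset.prod_const, Finset.card_univ, Fintype.card_fin]
  push_cast
  field_simp

/-- **Evaluation of the trial functional at a grid trial.** -/
theorem trialFunctional_grid (b K Q r : ℕ) (q : ℕ → ℕ)
    (hq : ∀ i < (K + 1) ^ (r + 1), 0 < q i ∧ q i < Q) (μ : ℕ → ℝ) (c : ℝ) :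
    trialFunctional 3 c (muSAT ((b : ℝ) * Real.log 2)) (Measure.dirac 0) r
      (fun d : Fin r => μ (r - 1 - d)) (gX r K Q q) = gridB b (K + 1) Q r q μ c := by
  rw [trialFunctional_muSAT]
  have hs : ∀ k : ℕ, siteAvg ((b : ℝ) * Real.log 2) r (fun d : Fin r => μ (r - 1 - d))
      (gX r K Q q) k = gSiteAvg b (K + 1) Q r q μ k := by
    intro k
    unfold siteAvg gSiteAvg
    rw [inv_mul_eq_div, ← sum_eJ (fun J => logAvg ((K + 1) ^ (k * 2)) r μ
      (Gs b (K + 1) Q r q k J))]
    congr 1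
    refine Finset.sum_congr rfl fun J _ => ?_
    exact integral_log_powerMeans_grid (L := Fin k × Fin 2) finProdFinEquiv μ
      (Gs b (K + 1) Q r q k (eJ k J))
      (fun c => siteTerm (p := 3) 0 (fun j => satInter ((b : ℝ) * Real.log 2) (J j))
        (fun j ℓ => msg ((q (pathIdx (c (j, ℓ))) : ℝ) / Q)))
      (fun c => siteTerm_eq hq J c)
  have he : edgeAvg ((b : ℝ) * Real.log 2) r (fun d : Fin r => μ (r - 1 - d))
      (gX r K Q q) = gEdgeAvg b (K + 1) Q r q μ := by
    unfold edgeAvg gEdgeAvg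
    rw [one_div, inv_mul_eq_div, ← sum_eB (fun J => logAvg ((K + 1) ^ 3) r μ
      (Ge b (K + 1) Q r q J))]
    congr 1
    refine Finset.sum_congr rfl fun s _ => ?_
    exact integral_log_powerMeans_grid (L := Fin 3) (Equiv.refl (Fin 3)) μ
      (Ge b (K + 1) Q r q (eB s))
      (fun c => edgeTerm (satInter ((b : ℝ) * Real.log 2) s)
        (fun ℓ => msg ((q (pathIdx (c ℓ)) : ℝ) / Q)))
      (fun c => edgeTerm_eq hq s c)
  unfold gridB
  simp only [hs, he]
  ring

end eval

end Crest.Agent.R153
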