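import Crest.Agent.R153.GridComplete
import Crest.Agent.R153.GridEval
import Crest.Agent.R153.FinApprox

/-!
Row 153: the right certificate. `UpCert` is computable, sound and complete for the existence of an
admissible trial with negative value at inverse temperature `b log 2`.
-/

set_option autoImplicit false

namespace Crest.Agent.R153

open MeasureTheory Finset Filter Topology Crest.ProbabilityR.Diluted

/-- Some admissible trial of soft 3-SAT at an inverse temperature `b log 2` has negative value at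
density `c`. -/
def HasNegTrial (c : ℝ) : Prop :=
  ∃ (b r : ℕ) (m : Fin r → ℝ) (X : (Fin (r + 1) → unitInterval) → ℝ),
    AdmissibleExponents m ∧ Measurable X ∧
    trialFunctional 3 c (muSAT ((b : ℝ) * Real.log 2)) (Measure.dirac 0) r m X < 0

theorem Cert.Valid.ε_strictAnti {c : Cert} {a κ : ℕ} (hc : c.Valid a κ) :
    ∀ h' h, h < h' → h' < c.r → c.ε h' < c.ε h := by
  intro h'
  induction h' with
  | zero => intro h hh; omega
  | succ h' ih =>
    intro h hh hr
    have h1 : c.ε (h' + 1) < c.ε h' := hc.ε_anti h' (by omega)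
    rcases Nat.lt_succ_iff_lt_or_eq.1 hh with h2 | h2
    · exact h1.trans (ih h h2 (by omega))
    · rw [h2]; exact h1

theorem Cert.Valid.hasNegTrial {c : Cert} {a κ : ℕ} (hc : c.Valid a κ) :
    HasNegTrial ((a : ℝ) / 2 ^ κ) := by
  obtain ⟨K', hK'⟩ : ∃ K', c.K = K' + 1 := ⟨c.K - 1, by have := hc.hK; omega⟩
  have hD : (0 : ℝ) < c.D := by exact_mod_cast hc.hD
  have hB := hc.gridB_neg
  have hq := hc.hq
  rw [hK'] at hB hq
  refine ⟨c.b, c.r, fun d => c.μ (c.r - 1 - d), gX c.r K' c.Q c.q, ⟨?_, ?_⟩, measurable_gX _ _ _ _,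
    ?_⟩
  · intro d d' hdd
    have h1 : (d : ℕ) < d' := hdd
    have h2 : (d' : ℕ) < c.r := d'.2
    have h3 := hc.ε_strictAnti (c.r - 1 - d) (c.r - 1 - d') (by omega) (by omega)
    have h4 : (c.ε (c.r - 1 - d) : ℝ) < c.ε (c.r - 1 - d') := by exact_mod_cast h3
    exact div_lt_div_of_pos_right h4 hD
  · intro d
    have h2 : (d : ℕ) < c.r := d.2
    obtain ⟨h3, h4⟩ := hc.ε_lt (c.r - 1 - d) (by omega)
    have h3' : (0 : ℝ) < c.ε (c.r - 1 - d) := by exact_mod_cast h3
    have h4' : (c.ε (c.r - 1 - d) : ℝ) < c.D := by exact_mod_cast h4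
    exact ⟨div_pos h3' hD, (div_lt_one hD).2 h4'⟩
  · rw [trialFunctional_grid c.b K' c.Q c.r c.q hq c.μ]
    exact hB

/-- Common denominator of finitely many rationals in `(0,1)`. -/
theorem exists_common_den {ι : Type} [Fintype ι] [DecidableEq ι] (f : ι → ℚ)
    (hf : ∀ i, 0 < f i ∧ f i < 1) :
    ∃ (D : ℕ) (e : ι → ℕ), 0 < D ∧ ∀ i, 0 < e i ∧ e i < D ∧ ((f i : ℚ) : ℝ) = (e i : ℝ) / D := by
  classical
  set D : ℕ := ∏ i, (f i).den with hD
  have hD0 : 0 < D := Finset.prod_pos fun i _ => (f i).den_pos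
  have hD0' : (0 : ℝ) < D := by exact_mod_cast hD0
  have h1 : ∀ i, ∃ e : ℕ, ((f i : ℚ) : ℝ) = (e : ℝ) / D := by
    intro i
    refine ⟨(f i).num.toNat * ∏ j ∈ univ.erase i, (f j).den, ?_⟩
    have hnum : (((f i).num.toNat : ℕ) : ℝ) = ((f i).num : ℝ) := by
      have : (0 : ℤ) ≤ (f i).num := Rat.num_nonneg.2 (hf i).1.le
      have h2 : (((f i).num.toNat : ℕ) : ℤ) = (f i).num := Int.toNat_of_nonneg this
      exact_mod_cast congrArg (fun z : ℤ => (z : ℝ)) h2
    have hprod : (D : ℝ) = ((f i).den : ℝ) * ((∏ j ∈ univ.erase i, (f j).den : ℕ) : ℝ) := by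
      rw [hD, ← Finset.mul_prod_erase univ (fun j => (f j).den) (Finset.mem_univ i)]
      push_cast
      ring
    have hne : ((∏ j ∈ univ.erase i, (f j).den : ℕ) : ℝ) ≠ 0 := by
      have : 0 < ∏ j ∈ univ.erase i, (f j).den := Finset.prod_pos fun j _ => (f j).den_pos
      exact_mod_cast this.ne'
    have hden : ((f i).den : ℝ) ≠ 0 := by exact_mod_cast (f i).den_pos.ne'
    rw [Nat.cast_mul, hnum, hprod, mul_div_mul_right _ _ hne]
    have := Rat.num_div_den (f i)
    calc ((f i : ℚ) : ℝ) = ((((f i).num : ℚ) / ((f i).den : ℚ) : ℚ) : ℝ) := by rw [this]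
      _ = _ := by push_cast; rfl
  choose e he using h1
  refine ⟨D, e, hD0, fun i => ?_⟩
  have h2 : (0 : ℝ) < ((f i : ℚ) : ℝ) := by exact_mod_cast (hf i).1
  have h3 : ((f i : ℚ) : ℝ) < 1 := by exact_mod_cast (hf i).2
  rw [he i] at h2 h3
  refine ⟨?_, ?_, he i⟩
  · by_contra h0
    have : e i = 0 := by omega
    rw [this] at h2
    simp at h2
  · rw [div_lt_one hD0'] at h3
    exact_mod_cast h3

/-- Decoding of a path code. -/
def pathDec (r K : ℕ) (i : ℕ) (j : Fin (r + 1)) : Fin (K + 1) :=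
  ⟨i / (K + 1) ^ (r - j) % (K + 1), Nat.mod_lt _ (Nat.succ_pos K)⟩

theorem pathDec_pathIdx {r K : ℕ} (d : Fin (r + 1) → Fin (K + 1)) :
    pathDec r K (pathIdx d) = d := by
  have h1 : pathIdx d = (finFunctionFinEquiv
      (fun i : Fin (r + 1) => d ⟨r - i, by omega⟩) : Fin ((K + 1) ^ (r + 1))) := by
    rw [finFunctionFinEquiv_apply]
    unfold pathIdx
    rw [Finset.sum_range]
    refine Finset.sum_congr rfl fun i _ => ?_
    rw [dif_pos (by omega)]
  funext j
  refine Fin.ext ?_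
  show pathIdx d / (K + 1) ^ (r - j) % (K + 1) = d j
  rw [h1]
  have h2 := finFun_digit (fun i : Fin (r + 1) => d ⟨r - i, by omega⟩) ⟨r - j, by omega⟩
  refine h2.trans ?_
  congr 2
  refine Fin.ext ?_
  show r - (r - (j : ℕ)) = j
  have := j.2
  omega

theorem HasNegTrial.exists_cert {a κ : ℕ} (ha : 0 < a) (h : HasNegTrial ((a : ℝ) / 2 ^ κ)) :
    ∃ c : Cert, c.Valid a κ := by
  obtain ⟨b, r, m, X, hm, hX, hlt⟩ := h
  have ha' : (0 : ℝ) < a := by exact_mod_cast ha
  obtain ⟨T, hT, -, hTlt⟩ := exists_finTrial_lt (by positivity)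
    (mul_nonneg (Nat.cast_nonneg b) (Real.log_nonneg (by norm_num))) hm hX hlt
  obtain ⟨D0, e, hD0, he⟩ := exists_common_den T.m hT.2.1
  obtain ⟨Q, f, hQ0, hf⟩ := exists_common_den T.q hT.2.2
  have hD0' : (0 : ℝ) < D0 := by exact_mod_cast hD0
  -- the table of messages
  set q : ℕ → ℕ := fun i => f (pathDec T.r T.K i) with hq
  have hqb : ∀ i < (T.K + 1) ^ (T.r + 1), 0 < q i ∧ q i < Q := fun i _ => ⟨(hf _).1, (hf _).2.1⟩
  have hXeq : T.X = gX T.r T.K Q q := by
    funext u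
    unfold FinTrial.X gX
    rw [(hf _).2.2, hq]
    simp only [pathDec_pathIdx]
  -- the exponents
  set e' : ℕ → ℕ := fun h => if hh : h < T.r then e ⟨T.r - 1 - h, by omega⟩ else 0 with he'
  have hmeq : (fun d => ((T.m d : ℚ) : ℝ)) =
      fun d : Fin T.r => (fun h => (e' h : ℝ) / D0) (T.r - 1 - d) := by
    funext d
    have hd : (d : ℕ) < T.r := d.2
    rw [(he d).2.2]
    simp only [he']
    rw [dif_pos (by omega)]
    congr 3
    refine Fin.ext ?_
    show (d : ℕ) = T.r - 1 - (T.r - 1 - d)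
    omega
  rw [hXeq, hmeq, trialFunctional_grid b T.K Q T.r q hqb (fun h => (e' h : ℝ) / D0)] at hTlt
  refine Crest.Agent.R153.exists_cert (Nat.succ_pos T.K) hqb hD0 (e := e') ?_ ?_ ha hTlt
  · intro h hh
    simp only [he']
    rw [dif_pos hh]
    exact ⟨(he _).1, (he _).2.1⟩
  · intro h hh
    simp only [he']
    rw [dif_pos (show h < T.r by omega), dif_pos (show h + 1 < T.r by omega)]
    have h1 : T.m ⟨T.r - 1 - (h + 1), by omega⟩ < T.m ⟨T.r - 1 - h, by omega⟩ := by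
      refine hT.1 ?_
      show T.r - 1 - (h + 1) < T.r - 1 - h
      omega
    have h2 : ((T.m ⟨T.r - 1 - (h + 1), by omega⟩ : ℚ) : ℝ) <
        ((T.m ⟨T.r - 1 - h, by omega⟩ : ℚ) : ℝ) := by exact_mod_cast h1
    rw [(he _).2.2, (he _).2.2, div_lt_div_iff_of_pos_right hD0'] at h2
    exact_mod_cast h2

/-- **The right certificate.** -/
theorem exists_right_certificate : ∃ Up : ℕ × ℕ × ℕ → Bool, Computable Up ∧
    (∀ a κ w : ℕ, Up (a, κ, w) = true → 0 < a ∧ HasNegTrial ((a : ℝ) / 2 ^ κ)) ∧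
    (∀ a κ : ℕ, 0 < a → HasNegTrial ((a : ℝ) / 2 ^ κ) → ∃ w, Up (a, κ, w) = true) := by
  refine ⟨UpCert, computable_UpCert, fun a κ w h => ?_, fun a κ ha h => ?_⟩
  · obtain ⟨c, hc⟩ := UpCert_sound h
    exact ⟨hc.ha, hc.hasNegTrial⟩
  · obtain ⟨c, hc⟩ := h.exists_cert ha
    exact UpCert_complete hc

end Crest.Agent.R153
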