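import Crest.Agent.R153.GridSound

/-!
Row 153, right certificate: greedy tables and their limits (completeness of the certificate).
-/

set_option autoImplicit false

namespace Crest.Agent.R153

open Finset Filter Topology Crest.ProbabilityR.Diluted

theorem tendsto_ceil_div {f : ℕ → ℝ} {l : ℝ} (hf : Tendsto f atTop (𝓝 l)) (hf0 : ∀ R, 0 ≤ f R) :
    Tendsto (fun R : ℕ => (⌈(R : ℝ) * f R⌉₊ : ℝ) / R) atTop (𝓝 l) := by
  have h1 : Tendsto (fun R : ℕ => f R + 1 / (R : ℝ)) atTop (𝓝 l) := by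
    simpa using hf.add tendsto_one_div_atTop_nhds_zero_nat
  refine tendsto_of_tendsto_of_tendsto_of_le_of_le' hf h1 ?_ ?_
  · filter_upwards [eventually_gt_atTop 0] with R hR
    have hR' : (0 : ℝ) < R := by exact_mod_cast hR
    rw [le_div_iff₀ hR', mul_comm]
    exact Nat.le_ceil _
  · filter_upwards [eventually_gt_atTop 0] with R hR
    have hR' : (0 : ℝ) < R := by exact_mod_cast hR
    rw [div_le_iff₀ hR']
    have := (Nat.ceil_lt_add_one (mul_nonneg hR'.le (hf0 R))).le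
    calc (⌈(R : ℝ) * f R⌉₊ : ℝ) ≤ R * f R + 1 := this
      _ = (f R + 1 / R) * R := by field_simp

theorem tendsto_floor_div {f : ℕ → ℝ} {l : ℝ} (hf : Tendsto f atTop (𝓝 l)) (hf0 : ∀ R, 0 ≤ f R) :
    Tendsto (fun R : ℕ => (⌊(R : ℝ) * f R⌋₊ : ℝ) / R) atTop (𝓝 l) := by
  have h1 : Tendsto (fun R : ℕ => f R - 1 / (R : ℝ)) atTop (𝓝 l) := by
    simpa using hf.sub tendsto_one_div_atTop_nhds_zero_nat
  refine tendsto_of_tendsto_of_tendsto_of_le_of_le' h1 hf ?_ ?_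
  · filter_upwards [eventually_gt_atTop 0] with R hR
    have hR' : (0 : ℝ) < R := by exact_mod_cast hR
    rw [le_div_iff₀ hR']
    have := (Nat.lt_floor_add_one ((R : ℝ) * f R)).le
    calc (f R - 1 / R) * R = R * f R - 1 := by field_simp
      _ ≤ _ := by linarith
  · filter_upwards [eventually_gt_atTop 0] with R hR
    have hR' : (0 : ℝ) < R := by exact_mod_cast hR
    rw [div_le_iff₀ hR', mul_comm]
    exact Nat.floor_le (mul_nonneg (hf0 R) hR'.le)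

/-- `D (x^(1/D) - 1) → log x`. -/
theorem tendsto_mul_rpow_sub_one {x : ℝ} (hx : 0 < x) {D0 : ℕ} (hD0 : 0 < D0) :
    Tendsto (fun N : ℕ => ((D0 * N : ℕ) : ℝ) * (x ^ ((1 : ℝ) / ((D0 * N : ℕ) : ℝ)) - 1)) atTop
      (𝓝 (Real.log x)) := by
  have h1 : HasDerivAt (fun t : ℝ => x ^ t) (Real.log x) 0 := by
    have := (Real.hasStrictDerivAt_const_rpow hx 0).hasDerivAt
    simpa using this
  have h2 := hasDerivAt_iff_tendsto_slope_zero.1 h1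
  have h3 : Tendsto (fun N : ℕ => (1 : ℝ) / ((D0 * N : ℕ) : ℝ)) atTop (𝓝[≠] 0) := by
    refine tendsto_nhdsWithin_iff.2 ⟨?_, ?_⟩
    · have : Tendsto (fun N : ℕ => D0 * N) atTop atTop :=
        tendsto_id.const_mul_atTop' hD0
      exact tendsto_one_div_atTop_nhds_zero_nat.comp this
    · filter_upwards [eventually_gt_atTop 0] with N hN
      have : (0 : ℝ) < ((D0 * N : ℕ) : ℝ) := by exact_mod_cast Nat.mul_pos hD0 hN
      exact (one_div_pos.2 this).ne'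
  refine (h2.comp h3).congr fun N => ?_
  simp [smul_eq_mul]

/-- Greedy upper table. -/
noncomputable def Yg (Φ D R : ℕ) (ε : ℕ → ℕ) (G : ℕ → ℝ) : ℕ → ℕ → ℕ
  | 0, x => ⌈(R : ℝ) * G x ^ ((ε 0 : ℝ) / D)⌉₊
  | h + 1, x => ⌈(R : ℝ) * ((∑ y ∈ range Φ, (Yg Φ D R ε G h (Φ * x + y) : ℝ)) / (R * Φ)) ^
      ((ε (h + 1) : ℝ) / (ε h : ℕ))⌉₊

/-- Greedy lower table. -/
noncomputable def Zg (Φ D R : ℕ) (ε : ℕ → ℕ) (G : ℕ → ℝ) : ℕ → ℕ → ℕ
  | 0, x => ⌊(R : ℝ) * G x ^ ((ε 0 : ℝ) / D)⌋₊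
  | h + 1, x => ⌊(R : ℝ) * ((∑ y ∈ range Φ, (Zg Φ D R ε G h (Φ * x + y) : ℝ)) / (R * Φ)) ^
      ((ε (h + 1) : ℝ) / (ε h : ℕ))⌋₊

theorem tendsto_Yg {Φ D r : ℕ} {ε : ℕ → ℕ} {G : ℕ → ℝ} (hD : 0 < D)
    (hG : ∀ x, 0 ≤ G x) (hε : ∀ h < r, 0 < ε h) {μ : ℕ → ℝ}
    (hμ : ∀ h < r, μ h = (ε h : ℝ) / D) :
    ∀ h ≤ r, ∀ x, Tendsto (fun R : ℕ => (Yg Φ D R ε G h x : ℝ) / R) atTop
      (𝓝 (SM Φ μ G h x ^ ((ε h : ℝ) / D))) := by
  intro h
  induction h with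
  | zero =>
    intro _ x
    exact tendsto_ceil_div tendsto_const_nhds fun R => Real.rpow_nonneg (hG x) _
  | succ h ih =>
    intro hh x
    have hh' : h < r := by omega
    rw [SM_succ_rpow h x hD (hε h hh') (hμ h hh') (fun x => SM_nonneg hG h x)]
    refine tendsto_ceil_div ?_ fun R => by positivity
    have h1 : Tendsto (fun R : ℕ => (∑ y ∈ range Φ, (Yg Φ D R ε G h (Φ * x + y) : ℝ) / R) / Φ)
        atTop (𝓝 ((∑ y ∈ range Φ, SM Φ μ G h (Φ * x + y) ^ ((ε h : ℝ) / D)) / Φ)) :=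
      (tendsto_finsetSum _ fun y _ => ih (by omega) (Φ * x + y)).div_const _
    have h2 : Tendsto (fun R : ℕ => (∑ y ∈ range Φ, (Yg Φ D R ε G h (Φ * x + y) : ℝ)) / (R * Φ))
        atTop (𝓝 ((∑ y ∈ range Φ, SM Φ μ G h (Φ * x + y) ^ ((ε h : ℝ) / D)) / Φ)) := by
      refine h1.congr fun R => ?_
      rw [← Finset.sum_div, div_div]
    exact h2.rpow_const (Or.inr (by positivity))

theorem tendsto_Zg {Φ D r : ℕ} {ε : ℕ → ℕ} {G : ℕ → ℝ} (hD : 0 < D)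
    (hG : ∀ x, 0 ≤ G x) (hε : ∀ h < r, 0 < ε h) {μ : ℕ → ℝ}
    (hμ : ∀ h < r, μ h = (ε h : ℝ) / D) :
    ∀ h ≤ r, ∀ x, Tendsto (fun R : ℕ => (Zg Φ D R ε G h x : ℝ) / R) atTop
      (𝓝 (SM Φ μ G h x ^ ((ε h : ℝ) / D))) := by
  intro h
  induction h with
  | zero =>
    intro _ x
    exact tendsto_floor_div tendsto_const_nhds fun R => Real.rpow_nonneg (hG x) _
  | succ h ih =>
    intro hh x
    have hh' : h < r := by omega
    rw [SM_succ_rpow h x hD (hε h hh') (hμ h hh') (fun x => SM_nonneg hG h x)]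
    refine tendsto_floor_div ?_ fun R => by positivity
    have h1 : Tendsto (fun R : ℕ => (∑ y ∈ range Φ, (Zg Φ D R ε G h (Φ * x + y) : ℝ) / R) / Φ)
        atTop (𝓝 ((∑ y ∈ range Φ, SM Φ μ G h (Φ * x + y) ^ ((ε h : ℝ) / D)) / Φ)) :=
      (tendsto_finsetSum _ fun y _ => ih (by omega) (Φ * x + y)).div_const _
    have h2 : Tendsto (fun R : ℕ => (∑ y ∈ range Φ, (Zg Φ D R ε G h (Φ * x + y) : ℝ)) / (R * Φ))
        atTop (𝓝 ((∑ y ∈ range Φ, SM Φ μ G h (Φ * x + y) ^ ((ε h : ℝ) / D)) / Φ)) := by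
      refine h1.congr fun R => ?_
      rw [← Finset.sum_div, div_div]
    exact h2.rpow_const (Or.inr (by positivity))

theorem treeUp_Yg {Φ D R r : ℕ} {ε Vn : ℕ → ℕ} {Vd : ℕ} (hD : 0 < D) (hR : 0 < R) (hVd : 0 < Vd)
    (hΦ : 0 < Φ) (hε : ∀ h < r, 0 < ε h) :
    TreeUp Φ r D R ε Vn Vd (Yg Φ D R ε (fun x => (Vn x : ℝ) / Vd)) := by
  have hR' : (0 : ℝ) < R := by exact_mod_cast hR
  have hVd' : (0 : ℝ) < Vd := by exact_mod_cast hVd
  have hΦ' : (0 : ℝ) < Φ := by exact_mod_cast hΦ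
  constructor
  · intro x _
    have h0 : (0 : ℝ) ≤ (Vn x : ℝ) / Vd := by positivity
    have h1 : ((Vn x : ℝ) / Vd) ^ ((ε 0 : ℝ) / D) ≤
        (Yg Φ D R ε (fun x => (Vn x : ℝ) / Vd) 0 x : ℝ) / R := by
      rw [le_div_iff₀ hR', mul_comm]
      exact Nat.le_ceil _
    rw [rpow_div_le_iff h0 (by positivity) hD, div_pow, div_pow,
      div_le_div_iff₀ (by positivity) (by positivity)] at h1
    have h2 : (Vn x : ℝ) ^ ε 0 * (R : ℝ) ^ D ≤
        (Vd : ℝ) ^ ε 0 * (Yg Φ D R ε (fun x => (Vn x : ℝ) / Vd) 0 x : ℝ) ^ D := by linarith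
    exact_mod_cast h2
  · intro h hh x _
    have h0 : (0 : ℝ) ≤ (∑ y ∈ range Φ, (Yg Φ D R ε (fun x => (Vn x : ℝ) / Vd) h
        (Φ * x + y) : ℝ)) / (R * Φ) := by positivity
    have h1 : ((∑ y ∈ range Φ, (Yg Φ D R ε (fun x => (Vn x : ℝ) / Vd) h
        (Φ * x + y) : ℝ)) / (R * Φ)) ^ ((ε (h + 1) : ℝ) / (ε h : ℕ)) ≤
        (Yg Φ D R ε (fun x => (Vn x : ℝ) / Vd) (h + 1) x : ℝ) / R := by
      rw [le_div_iff₀ hR', mul_comm]
      exact Nat.le_ceil _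
    rw [rpow_div_le_iff h0 (by positivity) (hε h hh), div_pow, div_pow,
      div_le_div_iff₀ (by positivity) (by positivity)] at h1
    exact_mod_cast h1

theorem treeLo_Zg {Φ D R r : ℕ} {ε Vn : ℕ → ℕ} {Vd : ℕ} (hD : 0 < D) (hR : 0 < R) (hVd : 0 < Vd)
    (hΦ : 0 < Φ) (hε : ∀ h < r, 0 < ε h) :
    TreeLo Φ r D R ε Vn Vd (Zg Φ D R ε (fun x => (Vn x : ℝ) / Vd)) := by
  have hR' : (0 : ℝ) < R := by exact_mod_cast hR
  have hVd' : (0 : ℝ) < Vd := by exact_mod_cast hVd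
  have hΦ' : (0 : ℝ) < Φ := by exact_mod_cast hΦ
  constructor
  · intro x _
    have h0 : (0 : ℝ) ≤ (Vn x : ℝ) / Vd := by positivity
    have h1 : (Zg Φ D R ε (fun x => (Vn x : ℝ) / Vd) 0 x : ℝ) / R ≤
        ((Vn x : ℝ) / Vd) ^ ((ε 0 : ℝ) / D) := by
      rw [div_le_iff₀ hR', mul_comm]
      exact Nat.floor_le (by positivity)
    rw [le_rpow_div_iff h0 (by positivity) hD, div_pow, div_pow,
      div_le_div_iff₀ (by positivity) (by positivity)] at h1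
    have h2 : (Vd : ℝ) ^ ε 0 * (Zg Φ D R ε (fun x => (Vn x : ℝ) / Vd) 0 x : ℝ) ^ D ≤
        (Vn x : ℝ) ^ ε 0 * (R : ℝ) ^ D := by linarith
    exact_mod_cast h2
  · intro h hh x _
    have h0 : (0 : ℝ) ≤ (∑ y ∈ range Φ, (Zg Φ D R ε (fun x => (Vn x : ℝ) / Vd) h
        (Φ * x + y) : ℝ)) / (R * Φ) := by positivity
    have h1 : (Zg Φ D R ε (fun x => (Vn x : ℝ) / Vd) (h + 1) x : ℝ) / R ≤
        ((∑ y ∈ range Φ, (Zg Φ D R ε (fun x => (Vn x : ℝ) / Vd) h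
        (Φ * x + y) : ℝ)) / (R * Φ)) ^ ((ε (h + 1) : ℝ) / (ε h : ℕ)) := by
      rw [div_le_iff₀ hR', mul_comm]
      exact Nat.floor_le (by positivity)
    rw [le_rpow_div_iff h0 (by positivity) (hε h hh), div_pow, div_pow,
      div_le_div_iff₀ (by positivity) (by positivity)] at h1
    exact_mod_cast h1

theorem Yg_le {Φ D R : ℕ} {ε : ℕ → ℕ} {G : ℕ → ℝ} (hΦ : 0 < Φ) (hR : 0 < R)
    (hG : ∀ x, 0 ≤ G x ∧ G x ≤ 1) (h x : ℕ) : Yg Φ D R ε G h x ≤ R := by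
  have hR' : (0 : ℝ) < R := by exact_mod_cast hR
  have hΦ' : (0 : ℝ) < Φ := by exact_mod_cast hΦ
  have key : ∀ (t s : ℝ), 0 ≤ t → t ≤ 1 → 0 ≤ s → ⌈(R : ℝ) * t ^ s⌉₊ ≤ R := by
    intro t s h0 h1 hs
    refine Nat.ceil_le.2 ?_
    calc (R : ℝ) * t ^ s ≤ R * 1 :=
          mul_le_mul_of_nonneg_left (Real.rpow_le_one h0 h1 hs) hR'.le
      _ = R := mul_one _
  induction h generalizing x with
  | zero => exact key _ _ (hG x).1 (hG x).2 (by positivity)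
  | succ h ih =>
    refine key _ _ (by positivity) ?_ (by positivity)
    rw [div_le_one (by positivity)]
    calc ∑ y ∈ range Φ, (Yg Φ D R ε G h (Φ * x + y) : ℝ) ≤ ∑ _y ∈ range Φ, (R : ℝ) :=
          Finset.sum_le_sum fun y _ => by exact_mod_cast ih (Φ * x + y)
      _ = R * Φ := by simp [mul_comm]

end Crest.Agent.R153
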