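import Crest.Agent.R153.GridCheck
import Crest.Prelude.Def_DilutedSpinGlass

/-!
Row 153, right certificate: the real functional of a grid trial and the soundness of the
certificate.
-/

set_option autoImplicit false

namespace Crest.Agent.R153

open Finset Crest.ProbabilityR.Diluted

/-- Nested power means on prefix codes: height `0` are the leaves. -/
noncomputable def SM (Φ : ℕ) (μ : ℕ → ℝ) (G : ℕ → ℝ) : ℕ → ℕ → ℝ
  | 0, x => G x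
  | h + 1, x => ((∑ y ∈ range Φ, SM Φ μ G h (Φ * x + y) ^ μ h) / Φ) ^ (1 / μ h)

theorem SM_bounds {Φ : ℕ} (hΦ : 0 < Φ) {μ : ℕ → ℝ} {G : ℕ → ℝ} {r : ℕ} (hμ : ∀ h < r, 0 < μ h)
    {g : ℝ} (hg : 0 < g) (hG : ∀ x, g ≤ G x ∧ G x ≤ 1) :
    ∀ h ≤ r, ∀ x, g ≤ SM Φ μ G h x ∧ SM Φ μ G h x ≤ 1 := by
  intro h
  induction h with
  | zero => intro _ x; exact hG x
  | succ h ih =>
    intro hh x
    have ih' := ih (by omega)
    have hm : 0 < μ h := hμ h (by omega)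
    have hΦ' : (0 : ℝ) < Φ := by exact_mod_cast hΦ
    have h1 : g ^ μ h ≤ (∑ y ∈ range Φ, SM Φ μ G h (Φ * x + y) ^ μ h) / Φ := by
      rw [le_div_iff₀ hΦ']
      calc g ^ μ h * Φ = ∑ _y ∈ range Φ, g ^ μ h := by simp [mul_comm]
        _ ≤ _ := Finset.sum_le_sum fun y _ =>
          Real.rpow_le_rpow hg.le (ih' (Φ * x + y)).1 hm.le
    have h2 : (∑ y ∈ range Φ, SM Φ μ G h (Φ * x + y) ^ μ h) / Φ ≤ 1 := by
      rw [div_le_one hΦ']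
      calc _ ≤ ∑ _y ∈ range Φ, (1 : ℝ) := Finset.sum_le_sum fun y _ =>
            Real.rpow_le_one (hg.le.trans (ih' (Φ * x + y)).1) (ih' (Φ * x + y)).2 hm.le
        _ = Φ := by simp
    have h0 : 0 < g ^ μ h := Real.rpow_pos_of_pos hg _
    constructor
    · calc g = (g ^ μ h) ^ (1 / μ h) := by
            rw [← Real.rpow_mul hg.le, mul_one_div_cancel hm.ne', Real.rpow_one]
        _ ≤ _ := Real.rpow_le_rpow h0.le h1 (by positivity)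
    · exact Real.rpow_le_one (h0.le.trans h1) h2 (by positivity)

theorem rpow_div_le_iff {s t : ℝ} (hs : 0 ≤ s) (ht : 0 ≤ t) {p q : ℕ} (hq : 0 < q) :
    s ^ ((p : ℝ) / q) ≤ t ↔ s ^ p ≤ t ^ q := by
  have hq' : (q : ℝ) ≠ 0 := by positivity
  have h1 : (s ^ ((p : ℝ) / q)) ^ q = s ^ p := by
    rw [← Real.rpow_natCast (s ^ ((p : ℝ) / q)) q, ← Real.rpow_mul hs, div_mul_cancel₀ _ hq',
      Real.rpow_natCast]
  rw [← h1]
  exact (pow_le_pow_iff_left₀ (Real.rpow_nonneg hs _) ht hq.ne').symm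

theorem le_rpow_div_iff {s t : ℝ} (hs : 0 ≤ s) (ht : 0 ≤ t) {p q : ℕ} (hq : 0 < q) :
    t ≤ s ^ ((p : ℝ) / q) ↔ t ^ q ≤ s ^ p := by
  have hq' : (q : ℝ) ≠ 0 := by positivity
  have h1 : (s ^ ((p : ℝ) / q)) ^ q = s ^ p := by
    rw [← Real.rpow_natCast (s ^ ((p : ℝ) / q)) q, ← Real.rpow_mul hs, div_mul_cancel₀ _ hq',
      Real.rpow_natCast]
  rw [← h1]
  exact (pow_le_pow_iff_left₀ ht (Real.rpow_nonneg hs _) hq.ne').symm

/-- The powered nested mean recursion. -/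
theorem SM_succ_rpow {Φ : ℕ} {μ : ℕ → ℝ} {G : ℕ → ℝ} (h x : ℕ) {D : ℕ}
    {ε : ℕ → ℕ} (hD : 0 < D) (hε : 0 < ε h) (hμ : μ h = (ε h : ℝ) / D)
    (hSM : ∀ x, 0 ≤ SM Φ μ G h x) :
    SM Φ μ G (h + 1) x ^ ((ε (h + 1) : ℝ) / D) =
      ((∑ y ∈ range Φ, SM Φ μ G h (Φ * x + y) ^ ((ε h : ℝ) / D)) / Φ) ^
        ((ε (h + 1) : ℝ) / (ε h : ℕ)) := by
  have hD' : (D : ℝ) ≠ 0 := by positivity
  have hε' : (ε h : ℝ) ≠ 0 := by positivity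
  have h0 : 0 ≤ (∑ y ∈ range Φ, SM Φ μ G h (Φ * x + y) ^ ((ε h : ℝ) / D)) / Φ :=
    div_nonneg (Finset.sum_nonneg fun y _ => Real.rpow_nonneg (hSM _) _) (Nat.cast_nonneg _)
  simp only [SM, hμ]
  rw [← Real.rpow_mul h0]
  congr 1
  field_simp

theorem SM_nonneg {Φ : ℕ} {μ : ℕ → ℝ} {G : ℕ → ℝ} (hG : ∀ x, 0 ≤ G x) (h x : ℕ) :
    0 ≤ SM Φ μ G h x := by
  induction h generalizing x with
  | zero => exact hG x
  | succ h ih =>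
    simp only [SM]
    exact Real.rpow_nonneg (div_nonneg (Finset.sum_nonneg fun y _ =>
      Real.rpow_nonneg (ih _) _) (Nat.cast_nonneg _)) _

theorem child_lt {Φ r h x y : ℕ} (hh : h < r) (hx : x < Φ ^ (r - h)) (hy : y < Φ) :
    Φ * x + y < Φ ^ (r + 1 - h) := by
  have h1 : r + 1 - h = (r - h) + 1 := by omega
  rw [h1, pow_succ]
  calc Φ * x + y < Φ * x + Φ := by omega
    _ = (x + 1) * Φ := by ring
    _ ≤ Φ ^ (r - h) * Φ := Nat.mul_le_mul_right _ hx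

theorem TreeUp.sound {Φ r D R : ℕ} {ε Vn : ℕ → ℕ} {Vd : ℕ} {Y : ℕ → ℕ → ℕ}
    (hY : TreeUp Φ r D R ε Vn Vd Y) (hD : 0 < D) (hR : 0 < R) (hVd : 0 < Vd) (hΦ : 0 < Φ)
    (hε : ∀ h < r, 0 < ε h) {μ : ℕ → ℝ} (hμ : ∀ h < r, μ h = (ε h : ℝ) / D) :
    ∀ h ≤ r, ∀ x < Φ ^ (r + 1 - h),
      SM Φ μ (fun x => (Vn x : ℝ) / Vd) h x ^ ((ε h : ℝ) / D) ≤ (Y h x : ℝ) / R := by
  have hG : ∀ x, 0 ≤ (Vn x : ℝ) / Vd := fun x => by positivity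
  have hR' : (0 : ℝ) < R := by exact_mod_cast hR
  have hVd' : (0 : ℝ) < Vd := by exact_mod_cast hVd
  have hΦ' : (0 : ℝ) < Φ := by exact_mod_cast hΦ
  intro h
  induction h with
  | zero =>
    intro _ x hx
    show ((Vn x : ℝ) / Vd) ^ ((ε 0 : ℝ) / D) ≤ _
    rw [rpow_div_le_iff (hG x) (by positivity) hD]
    have h1 := hY.1 x (by simpa using hx)
    have h2 : (Vn x : ℝ) ^ ε 0 * (R : ℝ) ^ D ≤ (Vd : ℝ) ^ ε 0 * (Y 0 x : ℝ) ^ D := by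
      exact_mod_cast h1
    rw [div_pow, div_pow, div_le_div_iff₀ (by positivity) (by positivity)]
    linarith
  | succ h ih =>
    intro hh x hx
    have hh' : h < r := by omega
    have hx' : x < Φ ^ (r - h) := by
      have : r + 1 - (h + 1) = r - h := by omega
      rwa [this] at hx
    rw [SM_succ_rpow h x hD (hε h hh') (hμ h hh') (fun x => SM_nonneg hG h x)]
    have h0 : 0 ≤ (∑ y ∈ range Φ,
        SM Φ μ (fun x => (Vn x : ℝ) / Vd) h (Φ * x + y) ^ ((ε h : ℝ) / D)) / Φ :=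
      div_nonneg (Finset.sum_nonneg fun y _ => Real.rpow_nonneg (SM_nonneg hG _ _) _)
        (Nat.cast_nonneg _)
    rw [rpow_div_le_iff h0 (by positivity) (hε h hh')]
    have h1 : (∑ y ∈ range Φ,
        SM Φ μ (fun x => (Vn x : ℝ) / Vd) h (Φ * x + y) ^ ((ε h : ℝ) / D)) / Φ ≤
        (∑ y ∈ range Φ, (Y h (Φ * x + y) : ℝ)) / (R * Φ) := by
      rw [div_le_div_iff₀ hΦ' (by positivity)]
      have : ∑ y ∈ range Φ,
          SM Φ μ (fun x => (Vn x : ℝ) / Vd) h (Φ * x + y) ^ ((ε h : ℝ) / D) ≤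
          ∑ y ∈ range Φ, (Y h (Φ * x + y) : ℝ) / R :=
        Finset.sum_le_sum fun y hy =>
          ih (by omega) (Φ * x + y) (child_lt hh' hx' (mem_range.1 hy))
      rw [← Finset.sum_div, le_div_iff₀ hR'] at this
      nlinarith
    calc _ ≤ ((∑ y ∈ range Φ, (Y h (Φ * x + y) : ℝ)) / (R * Φ)) ^ ε (h + 1) :=
          pow_le_pow_left₀ h0 h1 _
      _ ≤ ((Y (h + 1) x : ℝ) / R) ^ ε h := by
          have h2 := hY.2 h hh' x hx'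
          have h3 : (∑ y ∈ range Φ, (Y h (Φ * x + y) : ℝ)) ^ ε (h + 1) * (R : ℝ) ^ ε h ≤
              (Y (h + 1) x : ℝ) ^ ε h * ((R : ℝ) * Φ) ^ ε (h + 1) := by exact_mod_cast h2
          rw [div_pow, div_pow, div_le_div_iff₀ (by positivity) (by positivity)]
          exact h3

theorem TreeLo.sound {Φ r D R : ℕ} {ε Vn : ℕ → ℕ} {Vd : ℕ} {Z : ℕ → ℕ → ℕ}
    (hZ : TreeLo Φ r D R ε Vn Vd Z) (hD : 0 < D) (hR : 0 < R) (hVd : 0 < Vd) (hΦ : 0 < Φ)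
    (hε : ∀ h < r, 0 < ε h) {μ : ℕ → ℝ} (hμ : ∀ h < r, μ h = (ε h : ℝ) / D) :
    ∀ h ≤ r, ∀ x < Φ ^ (r + 1 - h),
      (Z h x : ℝ) / R ≤ SM Φ μ (fun x => (Vn x : ℝ) / Vd) h x ^ ((ε h : ℝ) / D) := by
  have hG : ∀ x, 0 ≤ (Vn x : ℝ) / Vd := fun x => by positivity
  have hR' : (0 : ℝ) < R := by exact_mod_cast hR
  have hVd' : (0 : ℝ) < Vd := by exact_mod_cast hVd
  have hΦ' : (0 : ℝ) < Φ := by exact_mod_cast hΦ
  intro h
  induction h with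
  | zero =>
    intro _ x hx
    show _ ≤ ((Vn x : ℝ) / Vd) ^ ((ε 0 : ℝ) / D)
    rw [le_rpow_div_iff (hG x) (by positivity) hD]
    have h1 := hZ.1 x (by simpa using hx)
    have h2 : (Vd : ℝ) ^ ε 0 * (Z 0 x : ℝ) ^ D ≤ (Vn x : ℝ) ^ ε 0 * (R : ℝ) ^ D := by
      exact_mod_cast h1
    rw [div_pow, div_pow, div_le_div_iff₀ (by positivity) (by positivity)]
    linarith
  | succ h ih =>
    intro hh x hx
    have hh' : h < r := by omega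
    have hx' : x < Φ ^ (r - h) := by
      have : r + 1 - (h + 1) = r - h := by omega
      rwa [this] at hx
    rw [SM_succ_rpow h x hD (hε h hh') (hμ h hh') (fun x => SM_nonneg hG h x)]
    have h0 : 0 ≤ (∑ y ∈ range Φ,
        SM Φ μ (fun x => (Vn x : ℝ) / Vd) h (Φ * x + y) ^ ((ε h : ℝ) / D)) / Φ :=
      div_nonneg (Finset.sum_nonneg fun y _ => Real.rpow_nonneg (SM_nonneg hG _ _) _)
        (Nat.cast_nonneg _)
    rw [le_rpow_div_iff h0 (by positivity) (hε h hh')]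
    have h1 : (∑ y ∈ range Φ, (Z h (Φ * x + y) : ℝ)) / (R * Φ) ≤ (∑ y ∈ range Φ,
        SM Φ μ (fun x => (Vn x : ℝ) / Vd) h (Φ * x + y) ^ ((ε h : ℝ) / D)) / Φ := by
      rw [div_le_div_iff₀ (by positivity) hΦ']
      have : ∑ y ∈ range Φ, (Z h (Φ * x + y) : ℝ) / R ≤ ∑ y ∈ range Φ,
          SM Φ μ (fun x => (Vn x : ℝ) / Vd) h (Φ * x + y) ^ ((ε h : ℝ) / D) :=
        Finset.sum_le_sum fun y hy =>
          ih (by omega) (Φ * x + y) (child_lt hh' hx' (mem_range.1 hy))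
      rw [← Finset.sum_div, div_le_iff₀ hR'] at this
      nlinarith
    have h00 : 0 ≤ (∑ y ∈ range Φ, (Z h (Φ * x + y) : ℝ)) / (R * Φ) := by positivity
    calc _ ≤ ((∑ y ∈ range Φ, (Z h (Φ * x + y) : ℝ)) / (R * Φ)) ^ ε (h + 1) := by
          have h2 := hZ.2 h hh' x hx'
          have h3 : (Z (h + 1) x : ℝ) ^ ε h * ((R : ℝ) * Φ) ^ ε (h + 1) ≤
              (∑ y ∈ range Φ, (Z h (Φ * x + y) : ℝ)) ^ ε (h + 1) * (R : ℝ) ^ ε h := by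
            exact_mod_cast h2
          rw [div_pow, div_pow, div_le_div_iff₀ (by positivity) (by positivity)]
          exact h3
      _ ≤ _ := pow_le_pow_left₀ h00 h1 _

/-! ### Bounds of the site and edge numerators -/

theorem digits_lt {K : ℕ} (d : ℕ → ℕ) (hd : ∀ i, d i < K) (n : ℕ) :
    ∑ i ∈ range n, d i * K ^ i < K ^ n := by
  induction n with
  | zero => simp
  | succ n ih =>
    rw [Finset.sum_range_succ, pow_succ]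
    have h1 : d n + 1 ≤ K := hd n
    calc ∑ i ∈ range n, d i * K ^ i + d n * K ^ n < K ^ n + d n * K ^ n := by omega
      _ = (d n + 1) * K ^ n := by ring
      _ ≤ K * K ^ n := Nat.mul_le_mul_right _ h1
      _ = K ^ n * K := by ring

theorem pathN_lt {K : ℕ} (hK : 0 < K) (nL r x l : ℕ) : pathN K nL r x l < K ^ (r + 1) :=
  digits_lt (fun i => x / (K ^ nL) ^ i % K ^ nL / K ^ l % K) (fun _ => Nat.mod_lt _ hK) (r + 1)

theorem aval_bounds {Q bit q : ℕ} (h : 0 < q ∧ q < Q) : 0 < aval Q bit q ∧ aval Q bit q < Q := by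
  unfold aval Good.iteN
  split_ifs <;> omega

theorem siteA_bounds {b K Q r k : ℕ} {q : ℕ → ℕ} (hK : 0 < K)
    (hq : ∀ i < K ^ (r + 1), 0 < q i ∧ q i < Q) (J x j : ℕ) :
    Q ^ 2 ≤ siteA b K Q r k q J x j ∧ siteA b K Q r k q J x j ≤ 2 ^ b * Q ^ 2 := by
  unfold siteA
  refine ⟨?_, Nat.sub_le _ _⟩
  have h1 : ∏ l ∈ range 2, aval Q (bitN (J / 8 ^ j % 8) l) (q (pathN K (k * 2) r x (l + 2 * j))) ≤
      ∏ _l ∈ range 2, Q := Finset.prod_le_prod' fun l _ =>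
    (aval_bounds (hq _ (pathN_lt hK _ _ _ _))).2.le
  simp only [Finset.prod_const, Finset.card_range] at h1
  have h2 : (2 ^ b - 1) * ∏ l ∈ range 2,
      aval Q (bitN (J / 8 ^ j % 8) l) (q (pathN K (k * 2) r x (l + 2 * j))) ≤
      (2 ^ b - 1) * Q ^ 2 := Nat.mul_le_mul_left _ h1
  have h3 : 2 ^ b * Q ^ 2 = (2 ^ b - 1) * Q ^ 2 + Q ^ 2 := by
    have : 0 < 2 ^ b := by positivity
    obtain ⟨t, ht⟩ : ∃ t, 2 ^ b = t + 1 := ⟨2 ^ b - 1, by omega⟩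
    rw [ht]
    simp
    ring
  rw [h3]
  omega

theorem edgeNum_bounds {b K Q r : ℕ} {q : ℕ → ℕ} (hK : 0 < K)
    (hq : ∀ i < K ^ (r + 1), 0 < q i ∧ q i < Q) (J x : ℕ) :
    Q ^ 3 ≤ edgeNum b K Q r q J x ∧ edgeNum b K Q r q J x ≤ 2 ^ b * Q ^ 3 := by
  unfold edgeNum
  refine ⟨?_, Nat.sub_le _ _⟩
  have h1 : ∏ l ∈ range 3, aval Q (bitN J l) (q (pathN K 3 r x l)) ≤
      ∏ _l ∈ range 3, Q := Finset.prod_le_prod' fun l _ =>
    (aval_bounds (hq _ (pathN_lt hK _ _ _ _))).2.le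
  simp only [Finset.prod_const, Finset.card_range] at h1
  have h2 : (2 ^ b - 1) * ∏ l ∈ range 3, aval Q (bitN J l) (q (pathN K 3 r x l)) ≤
      (2 ^ b - 1) * Q ^ 3 := Nat.mul_le_mul_left _ h1
  have h3 : 2 ^ b * Q ^ 3 = (2 ^ b - 1) * Q ^ 3 + Q ^ 3 := by
    have : 0 < 2 ^ b := by positivity
    obtain ⟨t, ht⟩ : ∃ t, 2 ^ b = t + 1 := ⟨2 ^ b - 1, by omega⟩
    rw [ht]
    simp
    ring
  rw [h3]
  omega

theorem siteNum_bounds {b K Q r k : ℕ} {q : ℕ → ℕ} (hK : 0 < K)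
    (hq : ∀ i < K ^ (r + 1), 0 < q i ∧ q i < Q) (J x : ℕ) :
    2 * (Q ^ 2) ^ k ≤ siteNum b K Q r k q J x ∧
      siteNum b K Q r k q J x ≤ 2 * (2 ^ b * Q ^ 2) ^ k := by
  have hW : Q ^ 2 ≤ 2 ^ b * Q ^ 2 := Nat.le_mul_of_pos_left _ (by positivity)
  have h1 : ∀ j, Q ^ 2 ≤ Good.iteN (bitN (J / 8 ^ j % 8) 2) (siteA b K Q r k q J x j)
      (2 ^ b * Q ^ 2) ∧ Good.iteN (bitN (J / 8 ^ j % 8) 2) (siteA b K Q r k q J x j)
      (2 ^ b * Q ^ 2) ≤ 2 ^ b * Q ^ 2 := by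
    intro j
    unfold Good.iteN
    split_ifs
    · exact ⟨hW, le_rfl⟩
    · exact siteA_bounds hK hq J x j
  have h2 : ∀ j, Q ^ 2 ≤ Good.iteN (bitN (J / 8 ^ j % 8) 2) (2 ^ b * Q ^ 2)
      (siteA b K Q r k q J x j) ∧ Good.iteN (bitN (J / 8 ^ j % 8) 2) (2 ^ b * Q ^ 2)
      (siteA b K Q r k q J x j) ≤ 2 ^ b * Q ^ 2 := by
    intro j
    unfold Good.iteN
    split_ifs
    · exact siteA_bounds hK hq J x j
    · exact ⟨hW, le_rfl⟩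
  have e : ∀ c : ℕ, c ^ k = ∏ _j ∈ range k, c := fun c => by simp
  unfold siteNum
  rw [two_mul, two_mul, e (Q ^ 2), e (2 ^ b * Q ^ 2)]
  exact ⟨add_le_add (Finset.prod_le_prod' fun j _ => (h1 j).1)
      (Finset.prod_le_prod' fun j _ => (h2 j).1),
    add_le_add (Finset.prod_le_prod' fun j _ => (h1 j).2)
      (Finset.prod_le_prod' fun j _ => (h2 j).2)⟩

/-- The site term of a leaf. -/
noncomputable def Gs (b K Q r : ℕ) (q : ℕ → ℕ) (k J x : ℕ) : ℝ :=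
  (siteNum b K Q r k q J x : ℝ) / (siteDen b Q k : ℕ)

/-- The edge term of a leaf. -/
noncomputable def Ge (b K Q r : ℕ) (q : ℕ → ℕ) (J x : ℕ) : ℝ :=
  (edgeNum b K Q r q J x : ℝ) / (edgeDen b Q : ℕ)

theorem Q_pos {K Q r : ℕ} {q : ℕ → ℕ} (hK : 0 < K)
    (hq : ∀ i < K ^ (r + 1), 0 < q i ∧ q i < Q) : 0 < Q :=
  (hq 0 (by positivity)).1.trans (hq 0 (by positivity)).2

theorem Gs_bounds {b K Q r : ℕ} {q : ℕ → ℕ} (hK : 0 < K)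
    (hq : ∀ i < K ^ (r + 1), 0 < q i ∧ q i < Q) (k J x : ℕ) :
    (((2 : ℝ) ^ b)⁻¹) ^ k ≤ Gs b K Q r q k J x ∧ Gs b K Q r q k J x ≤ 1 := by
  have hQ : 0 < Q := Q_pos hK hq
  obtain ⟨h1, h2⟩ := siteNum_bounds (b := b) (k := k) hK hq J x
  have h1' : (2 : ℝ) * ((Q : ℝ) ^ 2) ^ k ≤ (siteNum b K Q r k q J x : ℝ) := by exact_mod_cast h1
  have h2' : (siteNum b K Q r k q J x : ℝ) ≤ 2 * ((2 : ℝ) ^ b * (Q : ℝ) ^ 2) ^ k := by
    exact_mod_cast h2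
  have hd : ((siteDen b Q k : ℕ) : ℝ) = 2 * ((2 : ℝ) ^ b * (Q : ℝ) ^ 2) ^ k := by
    unfold siteDen; push_cast; ring
  unfold Gs
  rw [hd]
  have hpos : (0 : ℝ) < 2 * ((2 : ℝ) ^ b * (Q : ℝ) ^ 2) ^ k := by positivity
  refine ⟨?_, (div_le_one hpos).2 h2'⟩
  rw [le_div_iff₀ hpos]
  calc (((2 : ℝ) ^ b)⁻¹) ^ k * (2 * ((2 : ℝ) ^ b * (Q : ℝ) ^ 2) ^ k) =
      2 * ((((2 : ℝ) ^ b)⁻¹) * ((2 : ℝ) ^ b * (Q : ℝ) ^ 2)) ^ k := by rw [mul_pow]; ring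
    _ = 2 * ((Q : ℝ) ^ 2) ^ k := by
      rw [inv_mul_cancel_left₀ (by positivity)]
    _ ≤ _ := h1'

theorem Ge_bounds {b K Q r : ℕ} {q : ℕ → ℕ} (hK : 0 < K)
    (hq : ∀ i < K ^ (r + 1), 0 < q i ∧ q i < Q) (J x : ℕ) :
    ((2 : ℝ) ^ b)⁻¹ ≤ Ge b K Q r q J x ∧ Ge b K Q r q J x ≤ 1 := by
  have hQ : 0 < Q := Q_pos hK hq
  obtain ⟨h1, h2⟩ := edgeNum_bounds (b := b) hK hq J x
  have h1' : ((Q : ℝ) ^ 3) ≤ (edgeNum b K Q r q J x : ℝ) := by exact_mod_cast h1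
  have h2' : (edgeNum b K Q r q J x : ℝ) ≤ (2 : ℝ) ^ b * (Q : ℝ) ^ 3 := by
    exact_mod_cast h2
  have hd : ((edgeDen b Q : ℕ) : ℝ) = (2 : ℝ) ^ b * (Q : ℝ) ^ 3 := by
    unfold edgeDen; push_cast; ring
  unfold Ge
  rw [hd]
  have hpos : (0 : ℝ) < (2 : ℝ) ^ b * (Q : ℝ) ^ 3 := by positivity
  refine ⟨?_, (div_le_one hpos).2 h2'⟩
  rw [le_div_iff₀ hpos, inv_mul_cancel_left₀ (by positivity)]
  exact h1'

/-- Average of `log T_0` over the roots. -/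
noncomputable def logAvg (Φ r : ℕ) (μ : ℕ → ℝ) (G : ℕ → ℝ) : ℝ :=
  (∑ x ∈ range Φ, Real.log (SM Φ μ G r x)) / Φ

/-- Site average for `k` clauses. -/
noncomputable def gSiteAvg (b K Q r : ℕ) (q : ℕ → ℕ) (μ : ℕ → ℝ) (k : ℕ) : ℝ :=
  (∑ J ∈ range (8 ^ k), logAvg (K ^ (k * 2)) r μ (Gs b K Q r q k J)) / 8 ^ k

/-- Edge average. -/
noncomputable def gEdgeAvg (b K Q r : ℕ) (q : ℕ → ℕ) (μ : ℕ → ℝ) : ℝ :=
  (∑ J ∈ range 8, logAvg (K ^ 3) r μ (Ge b K Q r q J)) / 8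

/-- The value of the trial functional at a grid trial, at density `c`. -/
noncomputable def gridB (b K Q r : ℕ) (q : ℕ → ℕ) (μ : ℕ → ℝ) (c : ℝ) : ℝ :=
  Real.log 2 + (∑' k : ℕ, poissonWeight (c * 3) k * gSiteAvg b K Q r q μ k) -
    c * 2 * gEdgeAvg b K Q r q μ

theorem logAvg_bounds {Φ r : ℕ} (hΦ : 0 < Φ) {μ : ℕ → ℝ} (hμ : ∀ h < r, 0 < μ h) {G : ℕ → ℝ}
    {g : ℝ} (hg : 0 < g) (hG : ∀ x, g ≤ G x ∧ G x ≤ 1) :
    Real.log g ≤ logAvg Φ r μ G ∧ logAvg Φ r μ G ≤ 0 := by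
  have hΦ' : (0 : ℝ) < Φ := by exact_mod_cast hΦ
  have hb := SM_bounds hΦ hμ hg hG r le_rfl
  unfold logAvg
  constructor
  · rw [le_div_iff₀ hΦ']
    calc Real.log g * Φ = ∑ _x ∈ range Φ, Real.log g := by simp [mul_comm]
      _ ≤ _ := Finset.sum_le_sum fun x _ => Real.log_le_log hg (hb x).1
  · refine div_nonpos_of_nonpos_of_nonneg (Finset.sum_nonpos fun x _ => ?_) hΦ'.le
    exact Real.log_nonpos (hg.le.trans (hb x).1) (hb x).2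

theorem gSiteAvg_bounds {b K Q r : ℕ} {q : ℕ → ℕ} (hK : 0 < K)
    (hq : ∀ i < K ^ (r + 1), 0 < q i ∧ q i < Q) {μ : ℕ → ℝ} (hμ : ∀ h < r, 0 < μ h) (k : ℕ) :
    -(k * (b * Real.log 2)) ≤ gSiteAvg b K Q r q μ k ∧ gSiteAvg b K Q r q μ k ≤ 0 := by
  have hg : (0 : ℝ) < (((2 : ℝ) ^ b)⁻¹) ^ k := by positivity
  have h1 : ∀ J, Real.log ((((2 : ℝ) ^ b)⁻¹) ^ k) ≤ logAvg (K ^ (k * 2)) r μ (Gs b K Q r q k J) ∧
      logAvg (K ^ (k * 2)) r μ (Gs b K Q r q k J) ≤ 0 := fun J =>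
    logAvg_bounds (by positivity) hμ hg (Gs_bounds hK hq k J)
  have h2 : Real.log ((((2 : ℝ) ^ b)⁻¹) ^ k) = -(k * (b * Real.log 2)) := by
    rw [Real.log_pow, Real.log_inv, Real.log_pow]; ring
  have h8 : (0 : ℝ) < 8 ^ k := by positivity
  unfold gSiteAvg
  constructor
  · rw [le_div_iff₀ h8, ← h2]
    calc Real.log ((((2 : ℝ) ^ b)⁻¹) ^ k) * 8 ^ k =
        ∑ _J ∈ range (8 ^ k), Real.log ((((2 : ℝ) ^ b)⁻¹) ^ k) := by
          simp [mul_comm]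
      _ ≤ _ := Finset.sum_le_sum fun J _ => (h1 J).1
  · exact div_nonpos_of_nonpos_of_nonneg (Finset.sum_nonpos fun J _ => (h1 J).2) h8.le

theorem gEdgeAvg_bounds {b K Q r : ℕ} {q : ℕ → ℕ} (hK : 0 < K)
    (hq : ∀ i < K ^ (r + 1), 0 < q i ∧ q i < Q) {μ : ℕ → ℝ} (hμ : ∀ h < r, 0 < μ h) :
    -(b * Real.log 2) ≤ gEdgeAvg b K Q r q μ ∧ gEdgeAvg b K Q r q μ ≤ 0 := by
  have hg : (0 : ℝ) < ((2 : ℝ) ^ b)⁻¹ := by positivity
  have h1 : ∀ J, Real.log (((2 : ℝ) ^ b)⁻¹) ≤ logAvg (K ^ 3) r μ (Ge b K Q r q J) ∧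
      logAvg (K ^ 3) r μ (Ge b K Q r q J) ≤ 0 := fun J =>
    logAvg_bounds (by positivity) hμ hg (Ge_bounds hK hq J)
  have h2 : Real.log (((2 : ℝ) ^ b)⁻¹) = -(b * Real.log 2) := by
    rw [Real.log_inv, Real.log_pow]
  unfold gEdgeAvg
  constructor
  · rw [le_div_iff₀ (by norm_num), ← h2]
    calc Real.log (((2 : ℝ) ^ b)⁻¹) * 8 = ∑ _J ∈ range 8, Real.log (((2 : ℝ) ^ b)⁻¹) := by
          simp [mul_comm]
      _ ≤ _ := Finset.sum_le_sum fun J _ => (h1 J).1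
  · exact div_nonpos_of_nonpos_of_nonneg (Finset.sum_nonpos fun J _ => (h1 J).2) (by norm_num)

end Crest.Agent.R153
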