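import Crest.Agent.R153.GridReal

/-!
Row 153, right certificate: soundness of the certificate (the grid functional is negative).
-/

set_option autoImplicit false

namespace Crest.Agent.R153

open Finset Crest.ProbabilityR.Diluted

theorem log_le_of_rpow_le {T : ℝ} (hT : 0 < T) {D : ℕ} (hD : 0 < D) {y : ℝ}
    (h : T ^ ((1 : ℝ) / D) ≤ y) : Real.log T ≤ D * (y - 1) := by
  have hD' : (0 : ℝ) < D := by exact_mod_cast hD
  have hp : 0 < T ^ ((1 : ℝ) / D) := Real.rpow_pos_of_pos hT _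
  have h1 : Real.log T = D * Real.log (T ^ ((1 : ℝ) / D)) := by
    rw [Real.log_rpow hT]; field_simp
  rw [h1]
  have h2 := Real.log_le_sub_one_of_pos hp
  exact mul_le_mul_of_nonneg_left (by linarith) hD'.le

theorem neg_log_le_of_le_rpow {T : ℝ} (hT : 0 < T) {D : ℕ} (hD : 0 < D) {z zt R : ℝ}
    (hR : 0 < R) (hzt : 0 ≤ zt) (h : z / R ≤ T ^ ((1 : ℝ) / D)) (hz : R * R ≤ zt * z) :
    -Real.log T ≤ D * (zt / R - 1) := by
  have hD' : (0 : ℝ) < D := by exact_mod_cast hD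
  have hp : 0 < T ^ ((1 : ℝ) / D) := Real.rpow_pos_of_pos hT _
  have h1 : -Real.log T = D * Real.log ((T ^ ((1 : ℝ) / D))⁻¹) := by
    rw [Real.log_inv, Real.log_rpow hT]; field_simp
  rw [h1]
  have h2 := Real.log_le_sub_one_of_pos (inv_pos.2 hp)
  have h3 : (T ^ ((1 : ℝ) / D))⁻¹ ≤ zt / R := by
    rw [inv_le_iff_one_le_mul₀ hp]
    calc (1 : ℝ) ≤ (zt * z) / (R * R) := by rw [le_div_iff₀ (by positivity)]; linarith
      _ = zt / R * (z / R) := by field_simp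
      _ ≤ zt / R * T ^ ((1 : ℝ) / D) := mul_le_mul_of_nonneg_left h (by positivity)
  exact mul_le_mul_of_nonneg_left (by linarith) hD'.le

theorem summable_poisson_mul_nat (lam : ℝ) (hlam : 0 ≤ lam) (C : ℝ) :
    Summable (fun k : ℕ => poissonWeight lam k * (k * C)) := by
  have h1 : Summable (fun k : ℕ => Real.exp (-lam) * |C| * ((2 * lam) ^ k / (k.factorial : ℝ))) :=
    (Real.summable_pow_div_factorial (2 * lam)).mul_left _
  refine Summable.of_norm_bounded h1 fun k => ?_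
  unfold poissonWeight
  rw [Real.norm_eq_abs, abs_mul, abs_mul, Nat.abs_cast,
    abs_of_nonneg (by positivity : 0 ≤ Real.exp (-lam) * lam ^ k / (k.factorial : ℝ))]
  have h2 : (k : ℝ) ≤ 2 ^ k := by exact_mod_cast Nat.lt_two_pow_self.le
  rw [mul_pow]
  calc Real.exp (-lam) * lam ^ k / (k.factorial : ℝ) * (k * |C|) ≤
      Real.exp (-lam) * lam ^ k / (k.factorial : ℝ) * (2 ^ k * |C|) := by
        refine mul_le_mul_of_nonneg_left ?_ (by positivity)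
        exact mul_le_mul_of_nonneg_right h2 (abs_nonneg _)
    _ = _ := by ring

theorem summable_gSiteAvg {b K Q r : ℕ} {q : ℕ → ℕ} (hK : 0 < K)
    (hq : ∀ i < K ^ (r + 1), 0 < q i ∧ q i < Q) {μ : ℕ → ℝ} (hμ : ∀ h < r, 0 < μ h)
    {lam : ℝ} (hlam : 0 ≤ lam) :
    Summable (fun k : ℕ => poissonWeight lam k * gSiteAvg b K Q r q μ k) := by
  refine Summable.of_norm_bounded (summable_poisson_mul_nat lam hlam (b * Real.log 2)) fun k => ?_
  have h := gSiteAvg_bounds (b := b) hK hq hμ k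
  have hw : 0 ≤ poissonWeight lam k := by unfold poissonWeight; positivity
  rw [Real.norm_eq_abs, abs_mul, abs_of_nonneg hw]
  refine mul_le_mul_of_nonneg_left ?_ hw
  rw [abs_le]
  have h2 : 0 ≤ (k : ℝ) * (b * Real.log 2) := by positivity
  constructor <;> linarith [h.1, h.2]

/-- Lower bound for the Poisson weight. -/
theorem poissonWeight_ge (c : ℝ) (hc : 0 ≤ c) (n : ℕ) (hn : 0 < n) (hcn : c * 3 ≤ n) (k : ℕ) :
    0 ≤ (c * 3) ^ k / (k.factorial : ℝ) * (1 - c * 3 / n) ^ n ∧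
    (c * 3) ^ k / (k.factorial : ℝ) * (1 - c * 3 / n) ^ n ≤ poissonWeight (c * 3) k := by
  have hn' : (0 : ℝ) < n := by exact_mod_cast hn
  have h0 : 0 ≤ 1 - c * 3 / n := by
    rw [sub_nonneg, div_le_one hn']; exact hcn
  refine ⟨by positivity, ?_⟩
  have h1 := Real.one_sub_div_pow_le_exp_neg hcn
  unfold poissonWeight
  calc (c * 3) ^ k / (k.factorial : ℝ) * (1 - c * 3 / n) ^ n ≤
      (c * 3) ^ k / (k.factorial : ℝ) * Real.exp (-(c * 3)) :=
        mul_le_mul_of_nonneg_left h1 (by positivity)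
    _ = _ := by ring

theorem siteDen_pos {b Q : ℕ} (hQ : 0 < Q) (k : ℕ) : 0 < siteDen b Q k := by
  unfold siteDen; positivity

theorem edgeDen_pos {b Q : ℕ} (hQ : 0 < Q) : 0 < edgeDen b Q := by
  unfold edgeDen; positivity

section

variable {c : Cert} {a κ : ℕ}

/-- exponents of the certificate -/
noncomputable def Cert.μ (c : Cert) (h : ℕ) : ℝ := (c.ε h : ℝ) / c.D

theorem Cert.Valid.μ_pos (hc : c.Valid a κ) : ∀ h < c.r, 0 < c.μ h := by
  intro h hh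
  have h1 : (0 : ℝ) < c.ε h := by exact_mod_cast (hc.ε_lt h hh).1
  have h2 : (0 : ℝ) < c.D := by exact_mod_cast hc.hD
  exact div_pos h1 h2

theorem Cert.Valid.Q_pos (hc : c.Valid a κ) : 0 < c.Q := Crest.Agent.R153.Q_pos hc.hK hc.hq

theorem Cert.Valid.logAvg_site_le (hc : c.Valid a κ) {k : ℕ} (hk : k < c.M) {J : ℕ}
    (hJ : J < 8 ^ k) :
    logAvg (c.K ^ (k * 2)) c.r c.μ (Gs c.b c.K c.Q c.r c.q k J) ≤
      c.D * ((∑ x ∈ range (c.K ^ (k * 2)), (c.Y k J c.r x : ℝ)) / (c.K ^ (k * 2) * c.R) - 1) := by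
  have hK : (0 : ℝ) < (c.K : ℝ) ^ (k * 2) := by
    have : (0 : ℝ) < c.K := by exact_mod_cast hc.hK
    positivity
  have hR : (0 : ℝ) < c.R := by exact_mod_cast hc.hR
  have hg : (0 : ℝ) < (((2 : ℝ) ^ c.b)⁻¹) ^ k := by positivity
  have hΦ : 0 < c.K ^ (k * 2) := Nat.pow_pos hc.hK
  have hb := SM_bounds hΦ hc.μ_pos hg (Gs_bounds (b := c.b) hc.hK hc.hq k J) c.r le_rfl
  have h1 : ∀ x ∈ range (c.K ^ (k * 2)),
      Real.log (SM (c.K ^ (k * 2)) c.μ (Gs c.b c.K c.Q c.r c.q k J) c.r x) ≤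
        c.D * ((c.Y k J c.r x : ℝ) / c.R - 1) := by
    intro x hx
    refine log_le_of_rpow_le (hg.trans_le (hb x).1) hc.hD ?_
    have h2 := (hc.site k hk J hJ).sound hc.hD hc.hR (siteDen_pos hc.Q_pos k) hΦ
      (fun h hh => (hc.ε_lt h hh).1) (μ := c.μ) (fun h _ => rfl) c.r le_rfl x (by
        simpa using hx)
    have h3 : SM (c.K ^ (k * 2)) c.μ (Gs c.b c.K c.Q c.r c.q k J) c.r x ^ ((c.ε c.r : ℝ) / c.D) ≤
        (c.Y k J c.r x : ℝ) / c.R := h2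
    rw [hc.εr] at h3
    simpa using h3
  unfold logAvg
  push_cast
  rw [div_le_iff₀ hK]
  calc _ ≤ ∑ x ∈ range (c.K ^ (k * 2)), c.D * ((c.Y k J c.r x : ℝ) / c.R - 1) :=
        Finset.sum_le_sum h1
    _ = _ := by
        rw [← Finset.mul_sum, Finset.sum_sub_distrib, ← Finset.sum_div]
        simp only [Finset.sum_const, card_range, nsmul_eq_mul, mul_one]
        push_cast
        field_simp

theorem Cert.Valid.gSiteAvg_le (hc : c.Valid a κ) {k : ℕ} (hk : k < c.M) :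
    gSiteAvg c.b c.K c.Q c.r c.q c.μ k ≤
      c.D * ((c.A k : ℝ) / ((8 ^ k * c.K ^ (k * 2)) * c.R) - 1) := by
  have hK : (0 : ℝ) < (c.K : ℝ) ^ (k * 2) := by
    have : (0 : ℝ) < c.K := by exact_mod_cast hc.hK
    positivity
  have hR : (0 : ℝ) < c.R := by exact_mod_cast hc.hR
  have h8 : (0 : ℝ) < 8 ^ k := by positivity
  unfold gSiteAvg
  rw [div_le_iff₀ h8]
  calc _ ≤ ∑ J ∈ range (8 ^ k), c.D * ((∑ x ∈ range (c.K ^ (k * 2)), (c.Y k J c.r x : ℝ)) /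
        (c.K ^ (k * 2) * c.R) - 1) :=
        Finset.sum_le_sum fun J hJ => hc.logAvg_site_le hk (mem_range.1 hJ)
    _ = _ := by
        rw [← Finset.mul_sum, Finset.sum_sub_distrib, ← Finset.sum_div]
        simp only [Finset.sum_const, card_range, nsmul_eq_mul, mul_one]
        unfold Cert.A
        push_cast
        field_simp

theorem Cert.Valid.neg_gEdgeAvg_le (hc : c.Valid a κ) :
    -gEdgeAvg c.b c.K c.Q c.r c.q c.μ ≤
      c.D * ((∑ J ∈ range 8, ∑ x ∈ range (c.K ^ 3), (c.zt J x : ℝ)) / (8 * c.K ^ 3 * c.R) - 1) := by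
  have hK0 : (0 : ℝ) < c.K := by exact_mod_cast hc.hK
  have hK : (0 : ℝ) < (c.K : ℝ) ^ 3 := by positivity
  have hR : (0 : ℝ) < c.R := by exact_mod_cast hc.hR
  have hg : (0 : ℝ) < ((2 : ℝ) ^ c.b)⁻¹ := by positivity
  have hΦ : 0 < c.K ^ 3 := Nat.pow_pos hc.hK
  have h1 : ∀ J ∈ range 8, ∀ x ∈ range (c.K ^ 3),
      -Real.log (SM (c.K ^ 3) c.μ (Ge c.b c.K c.Q c.r c.q J) c.r x) ≤
        c.D * ((c.zt J x : ℝ) / c.R - 1) := by
    intro J hJ x hx
    have hb := SM_bounds hΦ hc.μ_pos hg (Ge_bounds (b := c.b) hc.hK hc.hq J) c.r le_rfl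
    refine neg_log_le_of_le_rpow (z := (c.Z J c.r x : ℝ)) (hg.trans_le (hb x).1) hc.hD hR
      (Nat.cast_nonneg _) ?_ ?_
    · have h2 := (hc.edge J (mem_range.1 hJ)).sound hc.hD hc.hR (edgeDen_pos hc.Q_pos) hΦ
        (fun h hh => (hc.ε_lt h hh).1) (μ := c.μ) (fun h _ => rfl) c.r le_rfl x (by
          simpa using hx)
      have h3 : (c.Z J c.r x : ℝ) / c.R ≤
          SM (c.K ^ 3) c.μ (Ge c.b c.K c.Q c.r c.q J) c.r x ^ ((c.ε c.r : ℝ) / c.D) := h2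
      rw [hc.εr] at h3
      simpa using h3
    · exact_mod_cast hc.hzt J (mem_range.1 hJ) x (mem_range.1 hx)
  unfold gEdgeAvg logAvg
  push_cast
  have h2 : -(∑ J ∈ range 8, (∑ x ∈ range (c.K ^ 3),
      Real.log (SM (c.K ^ 3) c.μ (Ge c.b c.K c.Q c.r c.q J) c.r x)) / (c.K : ℝ) ^ 3) / 8 =
      (∑ J ∈ range 8, ∑ x ∈ range (c.K ^ 3),
        -Real.log (SM (c.K ^ 3) c.μ (Ge c.b c.K c.Q c.r c.q J) c.r x)) / (8 * c.K ^ 3) := by
    rw [← Finset.sum_div]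
    simp only [Finset.sum_neg_distrib]
    field_simp
  rw [← neg_div, h2, div_le_iff₀ (by positivity)]
  calc _ ≤ ∑ J ∈ range 8, ∑ x ∈ range (c.K ^ 3), c.D * ((c.zt J x : ℝ) / c.R - 1) :=
        Finset.sum_le_sum fun J hJ => Finset.sum_le_sum fun x hx => h1 J hJ x hx
    _ = _ := by
        simp only [← Finset.mul_sum, Finset.sum_sub_distrib, ← Finset.sum_div]
        simp only [Finset.sum_const, card_range, nsmul_eq_mul, mul_one]
        push_cast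
        field_simp

/-- **Soundness**: the value of the grid trial of a valid certificate is negative. -/
theorem Cert.Valid.gridB_neg (hc : c.Valid a κ) :
    gridB c.b c.K c.Q c.r c.q c.μ ((a : ℝ) / 2 ^ κ) < 0 := by
  have hD : (0 : ℝ) < c.D := by exact_mod_cast hc.hD
  have hR : (0 : ℝ) < c.R := by exact_mod_cast hc.hR
  have hK : (0 : ℝ) < c.K := by exact_mod_cast hc.hK
  have hn : (0 : ℝ) < c.n := by exact_mod_cast hc.hn
  have h2κ : (0 : ℝ) < 2 ^ κ := by positivity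
  set cc : ℝ := (a : ℝ) / 2 ^ κ with hcc
  have hcc0 : 0 ≤ cc := by positivity
  have han : cc * 3 ≤ c.n := by
    have h := hc.han
    have h' : (3 : ℝ) * a ≤ c.n * 2 ^ κ := by exact_mod_cast h
    rw [hcc, div_mul_eq_mul_div, div_le_iff₀ h2κ]
    linarith
  -- log 2
  have e1 : Real.log 2 ≤ c.D * ((c.τ : ℝ) / c.R - 1) := by
    refine log_le_of_rpow_le (by norm_num) hc.hD ?_
    have h : (2 : ℝ) ^ 1 ≤ ((c.τ : ℝ) / c.R) ^ c.D := by
      rw [div_pow, le_div_iff₀ (by positivity), pow_one]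
      exact_mod_cast hc.hτ
    have := (rpow_div_le_iff (by norm_num : (0 : ℝ) ≤ 2) (by positivity) hc.hD).2 h
    simpa using this
  -- site
  have e2 : ∀ k ∈ range c.M, poissonWeight (cc * 3) k * gSiteAvg c.b c.K c.Q c.r c.q c.μ k ≤
      -(c.D * ((c.v k : ℝ) / c.R)) := by
    intro k hk
    have hk' := mem_range.1 hk
    obtain ⟨w0, w1⟩ := poissonWeight_ge cc hcc0 c.n hc.hn han k
    set w : ℝ := (cc * 3) ^ k / (k.factorial : ℝ) * (1 - cc * 3 / c.n) ^ c.n with hw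
    have hs0 := (gSiteAvg_bounds (b := c.b) hc.hK hc.hq hc.μ_pos k).2
    have hs1 := hc.gSiteAvg_le hk'
    have hv := hc.hv k hk'
    have hw' : w = ((3 * a) ^ k * (c.n * 2 ^ κ - 3 * a) ^ c.n : ℝ) /
        (k.factorial * (2 ^ κ) ^ k * (c.n * 2 ^ κ) ^ c.n) := by
      rw [hw, hcc]
      have h1 : (1 - (a : ℝ) / 2 ^ κ * 3 / c.n) = (c.n * 2 ^ κ - 3 * a) / (c.n * 2 ^ κ) := by
        field_simp
      have h2 : ((a : ℝ) / 2 ^ κ * 3) ^ k = (3 * a) ^ k / (2 ^ κ) ^ k := by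
        rw [div_mul_eq_mul_div, div_pow, mul_comm (a : ℝ) 3]
      rw [h1, h2, div_pow]
      field_simp
    have hv' : (c.v k : ℝ) / c.R ≤ w * (1 - (c.A k : ℝ) / ((8 ^ k * c.K ^ (k * 2)) * c.R)) := by
      have h1 : ((c.v k * ((8 ^ k * c.K ^ (k * 2)) * (k.factorial * (2 ^ κ) ^ k *
          (c.n * 2 ^ κ) ^ c.n)) + (3 * a) ^ k * (c.n * 2 ^ κ - 3 * a) ^ c.n * c.A k : ℕ) : ℝ) ≤
          (((3 * a) ^ k * (c.n * 2 ^ κ - 3 * a) ^ c.n * ((8 ^ k * c.K ^ (k * 2)) * c.R) : ℕ) : ℝ) :=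
        by exact_mod_cast hv
      have h2 : ((c.n * 2 ^ κ - 3 * a : ℕ) : ℝ) = (c.n : ℝ) * 2 ^ κ - 3 * a := by
        rw [Nat.cast_sub hc.han]; push_cast; ring
      push_cast [h2] at h1
      rw [hw', div_le_iff₀ hR]
      have h3 : ((3 * a) ^ k * (c.n * 2 ^ κ - 3 * a) ^ c.n : ℝ) /
          (k.factorial * (2 ^ κ) ^ k * (c.n * 2 ^ κ) ^ c.n) *
          (1 - (c.A k : ℝ) / ((8 ^ k * c.K ^ (k * 2)) * c.R)) * c.R =
          (((3 * a) ^ k * (c.n * 2 ^ κ - 3 * a) ^ c.n : ℝ) * ((8 ^ k * c.K ^ (k * 2)) * c.R) -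
          ((3 * a) ^ k * (c.n * 2 ^ κ - 3 * a) ^ c.n : ℝ) * c.A k) /
          ((8 ^ k * c.K ^ (k * 2)) * (k.factorial * (2 ^ κ) ^ k * (c.n * 2 ^ κ) ^ c.n)) := by
        field_simp
      rw [h3, le_div_iff₀ (by positivity)]
      linarith
    calc poissonWeight (cc * 3) k * gSiteAvg c.b c.K c.Q c.r c.q c.μ k ≤
        w * gSiteAvg c.b c.K c.Q c.r c.q c.μ k := mul_le_mul_of_nonpos_right w1 hs0
      _ ≤ w * (c.D * ((c.A k : ℝ) / ((8 ^ k * c.K ^ (k * 2)) * c.R) - 1)) :=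
          mul_le_mul_of_nonneg_left hs1 w0
      _ = -(c.D * (w * (1 - (c.A k : ℝ) / ((8 ^ k * c.K ^ (k * 2)) * c.R)))) := by ring
      _ ≤ _ := by
          rw [neg_le_neg_iff]
          exact mul_le_mul_of_nonneg_left hv' hD.le
  have e3 : (∑' k : ℕ, poissonWeight (cc * 3) k * gSiteAvg c.b c.K c.Q c.r c.q c.μ k) ≤
      -(c.D * ((∑ k ∈ range c.M, (c.v k : ℝ)) / c.R)) := by
    have hsum := summable_gSiteAvg (b := c.b) hc.hK hc.hq hc.μ_pos (lam := cc * 3) (by positivity)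
    have h1 := hsum.neg.sum_le_tsum (range c.M) (fun k _ => by
      have hw : 0 ≤ poissonWeight (cc * 3) k := by unfold poissonWeight; positivity
      have hs0 := (gSiteAvg_bounds (b := c.b) hc.hK hc.hq hc.μ_pos k).2
      have := mul_nonpos_of_nonneg_of_nonpos hw hs0
      simpa using this)
    rw [tsum_neg, Finset.sum_neg_distrib, neg_le_neg_iff] at h1
    refine h1.trans ((Finset.sum_le_sum e2).trans_eq ?_)
    rw [Finset.sum_neg_distrib, ← Finset.mul_sum, ← Finset.sum_div]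
  have e4 := hc.neg_gEdgeAvg_le
  have e5 : (c.τ : ℝ) + 2 * cc * ((∑ J ∈ range 8, ∑ x ∈ range (c.K ^ 3), (c.zt J x : ℝ)) /
      (8 * c.K ^ 3)) < c.R + (∑ k ∈ range c.M, (c.v k : ℝ)) + 2 * cc * c.R := by
    have h := hc.final
    have h' : (c.τ : ℝ) * (2 ^ κ * (8 * c.K ^ 3)) +
      2 * a * (∑ J ∈ range 8, ∑ x ∈ range (c.K ^ 3), (c.zt J x : ℝ)) <
      (c.R + ∑ k ∈ range c.M, (c.v k : ℝ)) * (2 ^ κ * (8 * c.K ^ 3)) +
        2 * a * c.R * (8 * c.K ^ 3) := by exact_mod_cast h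
    have hpos : (0 : ℝ) < 2 ^ κ * (8 * c.K ^ 3) := by positivity
    rw [hcc]
    have h1 : (c.τ : ℝ) + 2 * ((a : ℝ) / 2 ^ κ) *
        ((∑ J ∈ range 8, ∑ x ∈ range (c.K ^ 3), (c.zt J x : ℝ)) / (8 * c.K ^ 3)) =
        (c.τ * (2 ^ κ * (8 * c.K ^ 3)) +
          2 * a * (∑ J ∈ range 8, ∑ x ∈ range (c.K ^ 3), (c.zt J x : ℝ))) /
          (2 ^ κ * (8 * c.K ^ 3)) := by
      field_simp
    have h2 : (c.R : ℝ) + (∑ k ∈ range c.M, (c.v k : ℝ)) + 2 * ((a : ℝ) / 2 ^ κ) * c.R =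
        ((c.R + ∑ k ∈ range c.M, (c.v k : ℝ)) * (2 ^ κ * (8 * c.K ^ 3)) +
        2 * a * c.R * (8 * c.K ^ 3)) / (2 ^ κ * (8 * c.K ^ 3)) := by
      field_simp
    rw [h1, h2]
    exact div_lt_div_of_pos_right h' hpos
  unfold gridB
  have e6 : -(cc * 2 * gEdgeAvg c.b c.K c.Q c.r c.q c.μ) ≤
      cc * 2 * (c.D * ((∑ J ∈ range 8, ∑ x ∈ range (c.K ^ 3), (c.zt J x : ℝ)) /
        (8 * c.K ^ 3 * c.R) - 1)) := by
    rw [← mul_neg]
    exact mul_le_mul_of_nonneg_left e4 (by positivity)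
  have e7 : c.D * ((c.τ : ℝ) / c.R - 1) + -(c.D * ((∑ k ∈ range c.M, (c.v k : ℝ)) / c.R)) +
      cc * 2 * (c.D * ((∑ J ∈ range 8, ∑ x ∈ range (c.K ^ 3), (c.zt J x : ℝ)) /
        (8 * c.K ^ 3 * c.R) - 1)) =
      c.D / c.R * ((c.τ : ℝ) + 2 * cc * ((∑ J ∈ range 8, ∑ x ∈ range (c.K ^ 3),
        (c.zt J x : ℝ)) / (8 * c.K ^ 3)) -
        (c.R + (∑ k ∈ range c.M, (c.v k : ℝ)) + 2 * cc * c.R)) := by
    field_simp
    ring
  have e8 : c.D / c.R * ((c.τ : ℝ) + 2 * cc * ((∑ J ∈ range 8, ∑ x ∈ range (c.K ^ 3),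
        (c.zt J x : ℝ)) / (8 * c.K ^ 3)) -
        (c.R + (∑ k ∈ range c.M, (c.v k : ℝ)) + 2 * cc * c.R)) < 0 :=
    mul_neg_of_pos_of_neg (by positivity) (by linarith)
  linarith

end

end Crest.Agent.R153
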