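import Crest.Agent.R153.SeqLoss
import Crest.Agent.R153.Pattern

/-! Row 153 (S0217): the three terms of the recursion and the two-level pattern bound
(helper852). -/

set_option autoImplicit false

open Crest.ProbabilityR.RandomSAT

namespace Crest.Agent.R153

variable {j n : ℕ}

/-- term of the `(j+2)`-clauses coming from the `(j+3)`-clauses -/
noncomputable def T1 (E0 : List (Clause (j + 2) n)) (_ : List (Clause (j + 1) n))
    (F0 : List (Clause (j + 3) n)) (F1 : List (Clause (j + 2) n)) : ℝ :=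
  (F1.length + 1) * SQ (cutL Finset.univ E0) F1 F0

/-- term of a single `(j+1)`-clause coming from the environment -/
noncomputable def T2 (E0 : List (Clause (j + 2) n)) :
    List (Clause (j + 1) n) → List (Clause (j + 3) n) → List (Clause (j + 2) n) → ℝ
  | [s], F0, F1 => (F1.length + 1) * (hit (cutL (cutL Finset.univ E0) F1) F0 -
      hit (cut (cutL (cutL Finset.univ E0) F1) s) F0) ^ 2
  | [], _, _ => 0
  | _ :: _ :: _, _, _ => 0

/-- term of at least two `(j+1)`-clauses -/
noncomputable def T3 (K : ℝ) (_ : List (Clause (j + 2) n)) (E1 : List (Clause (j + 1) n))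
    (_ : List (Clause (j + 3) n)) (_ : List (Clause (j + 2) n)) : ℝ :=
  if 2 ≤ E1.length then K else 0

theorem T1_nonneg (E0 : List (Clause (j + 2) n)) (E1 : List (Clause (j + 1) n))
    (F0 : List (Clause (j + 3) n)) (F1 : List (Clause (j + 2) n)) : 0 ≤ T1 E0 E1 F0 F1 :=
  mul_nonneg (by positivity) (SQ_nonneg _ _ _)

theorem T2_nonneg (E0 : List (Clause (j + 2) n)) (E1 : List (Clause (j + 1) n))
    (F0 : List (Clause (j + 3) n)) (F1 : List (Clause (j + 2) n)) : 0 ≤ T2 E0 E1 F0 F1 := by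
  match E1 with
  | [] => exact le_rfl
  | [s] => exact mul_nonneg (by positivity) (sq_nonneg _)
  | _ :: _ :: _ => exact le_rfl

theorem sq_loss_le_T (E0 : List (Clause (j + 2) n)) (E1 : List (Clause (j + 1) n))
    (F0 : List (Clause (j + 3) n)) (F1 : List (Clause (j + 2) n)) (K : ℝ)
    (hK : ((F0.length : ℝ) + 1) ^ 2 ≤ K) :
    (hit (cutL Finset.univ E0) F0 -
      hit (cutL (cutL (cutL Finset.univ E0) E1) F1) F0) ^ 2 ≤
      T1 E0 E1 F0 F1 + T2 E0 E1 F0 F1 + T3 K E0 E1 F0 F1 := by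
  have hT1 := T1_nonneg E0 E1 F0 F1
  match E1 with
  | [] =>
    have h := sq_add_loss_le F0 0 F1 (cutL Finset.univ E0)
    rw [cutL_nil]
    simp only [T1, T2, T3, List.length_nil] at *
    simp only [add_zero, ne_eq, OfNat.ofNat_ne_zero, not_false_eq_true, zero_pow] at h
    simpa using h
  | [s] =>
    have h := sq_add_loss_le F0 (hit (cutL (cutL Finset.univ E0) F1) F0 -
      hit (cut (cutL (cutL Finset.univ E0) F1) s) F0) F1 (cutL Finset.univ E0)
    rw [cutL_cons, cutL_nil, cutL_cut_comm]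
    simp only [T1, T2, T3, List.length_singleton] at *
    have e : (if 2 ≤ 1 then K else 0) = 0 := by norm_num
    rw [e, add_zero, ← mul_add]
    refine le_trans (le_of_eq ?_) h
    ring
  | s :: s' :: E2 =>
    have h0 : 0 ≤ hit (cutL Finset.univ E0) F0 -
      hit (cutL (cutL (cutL Finset.univ E0) (s :: s' :: E2)) F1) F0 := by
      have := hit_mono (F := F0) ((cutL_subset (cutL (cutL Finset.univ E0) (s :: s' :: E2)) F1).trans
        (cutL_subset (cutL Finset.univ E0) (s :: s' :: E2)))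
      linarith
    have h1 : hit (cutL Finset.univ E0) F0 -
      hit (cutL (cutL (cutL Finset.univ E0) (s :: s' :: E2)) F1) F0 ≤ F0.length + 1 := by
      have h2 := hit_le_length (cutL Finset.univ E0) F0
      have h3 := hit_nonneg (cutL (cutL (cutL Finset.univ E0) (s :: s' :: E2)) F1) F0
      linarith
    have h4 := pow_le_pow_left₀ h0 h1 2
    have h5 : T3 K E0 (s :: s' :: E2) F0 F1 = K := by simp [T3]
    have h6 : T2 E0 (s :: s' :: E2) F0 F1 = 0 := rfl
    rw [h5, h6]
    linarith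

theorem EL_T1_le (ε A Cε : ℝ) (hε : 0 < ε) (hε1 : ε ≤ 1) (hA : 0 ≤ A)
    (hDD : ∀ i M : ℕ, DD j n i M ≤ A * 2 ^ i) (hCε : 0 ≤ Cε)
    (hT : ∀ (M : ℕ) (X : Finset (Asg n)),
      EL M (fun F : List (Clause (j + 3) n) => (Teps ε X F) ^ 2) ≤ Cε) (i e a b : ℕ) :
    EL i (fun E0 => EL e (fun E1 => EL a (fun F0 => EL b (fun F1 => T1 (j := j) (n := n) E0 E1 F0 F1)))) ≤
      (ε ^ (j + 1) * A + Cε) * 2 ^ i * 1 ^ e * 4 ^ b := by
  have h1 : EL i (fun E0 => EL e (fun E1 => EL a (fun F0 => EL b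
      (fun F1 => T1 (j := j) (n := n) E0 E1 F0 F1)))) ≤
      EL i (fun E0 : List (Clause (j + 2) n) => EL a (fun F0 : List (Clause (j + 3) n) =>
        EL b (fun F1 : List (Clause (j + 2) n) =>
          ((b : ℝ) + 1) * SQ (cutL Finset.univ E0) F1 F0))) := by
    refine EL_mono fun E0 => ?_
    have h2 : ∀ E1 : List (Clause (j + 1) n), EL a (fun F0 => EL b
      (fun F1 => T1 (j := j) (n := n) E0 E1 F0 F1)) = EL a (fun F0 : List (Clause (j + 3) n) =>
        EL b (fun F1 : List (Clause (j + 2) n) =>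
          ((b : ℝ) + 1) * SQ (cutL Finset.univ E0) F1 F0)) := by
      intro E1
      refine EL_congr fun F0 => EL_congr' fun F1 hF1 => ?_
      unfold T1
      rw [hF1]
    rw [EL_congr h2]
    refine EL_const_le (EL_nonneg fun F0 => EL_nonneg fun F1 => ?_)
    exact mul_nonneg (by positivity) (SQ_nonneg _ _ _)
  refine h1.trans ?_
  have h3 : EL i (fun E0 : List (Clause (j + 2) n) => EL a (fun F0 : List (Clause (j + 3) n) =>
        EL b (fun F1 : List (Clause (j + 2) n) =>
          ((b : ℝ) + 1) * SQ (cutL Finset.univ E0) F1 F0))) =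
      ((b : ℝ) + 1) * EL i (fun E0 : List (Clause (j + 2) n) =>
        EL b (fun F1 : List (Clause (j + 2) n) => EL a (fun F0 : List (Clause (j + 3) n) =>
          SQ (cutL Finset.univ E0) F1 F0))) := by
    rw [← EL_const_mul]
    refine EL_congr fun E0 => ?_
    rw [EL_comm, ← EL_const_mul]
    refine EL_congr fun F1 => ?_
    rw [← EL_const_mul]
  rw [h3]
  have h4 := EL_SQ_le ε A Cε hε hε1 hDD hCε hT a b i
  have h5 := mul_le_mul_of_nonneg_left h4 (by positivity : (0 : ℝ) ≤ (b : ℝ) + 1)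
  refine h5.trans ?_
  have hb : ((b : ℝ) + 1) ≤ 2 ^ b := by
    have : b + 1 ≤ 2 ^ b := Nat.lt_two_pow_self
    exact_mod_cast this
  have h2i : (1 : ℝ) ≤ 2 ^ i := one_le_pow₀ (by norm_num)
  have h2b : (1 : ℝ) ≤ 2 ^ b := one_le_pow₀ (by norm_num)
  have h4b : (4 : ℝ) ^ b = 2 ^ b * 2 ^ b := by rw [← mul_pow]; norm_num
  have hb0 : (0 : ℝ) ≤ b := Nat.cast_nonneg b
  rw [h4b, one_pow, mul_one]
  have hεA : 0 ≤ ε ^ (j + 1) * A := by positivity
  set x := ε ^ (j + 1) * A with hx
  set p : ℝ := 2 ^ b with hp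
  set r : ℝ := 2 ^ i with hr
  have t1 : ((b : ℝ) + 1) * (x * r * (p - 1)) ≤ x * r * (p * p) := by
    have : ((b : ℝ) + 1) * (p - 1) ≤ p * p := by nlinarith
    have h0 : 0 ≤ x * r := by positivity
    nlinarith [mul_le_mul_of_nonneg_left this h0]
  have t2 : ((b : ℝ) + 1) * (b * Cε) ≤ Cε * r * (p * p) := by
    have h6 : ((b : ℝ) + 1) * b ≤ p * p := by nlinarith
    have h7 : ((b : ℝ) + 1) * b ≤ r * (p * p) := by
      have : p * p ≤ r * (p * p) := by nlinarith [mul_pos (by linarith : (0:ℝ) < p) (by linarith : (0:ℝ) < p)]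
      linarith
    nlinarith [mul_le_mul_of_nonneg_left h7 hCε]
  nlinarith [t1, t2]

theorem EL_T2_le (hn : j + 1 ≤ n) (A t : ℝ) (hA : 0 ≤ A) (ht : 1 ≤ t)
    (hDD : ∀ i M : ℕ, DD j n i M ≤ A * 2 ^ i) (i e a b : ℕ) :
    EL i (fun E0 => EL e (fun E1 => EL a (fun F0 => EL b (fun F1 => T2 (j := j) (n := n) E0 E1 F0 F1)))) ≤
      (A / t) * 2 ^ i * t ^ e * 4 ^ b := by
  have ht0 : 0 < t := by linarith
  have hpos : 0 ≤ (A / t) * 2 ^ i * t ^ e * 4 ^ b := by positivity
  match e with
  | 0 =>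
    refine le_trans (le_of_eq ?_) hpos
    have : (fun E0 : List (Clause (j + 2) n) => EL 0 (fun E1 : List (Clause (j + 1) n) =>
        EL a (fun F0 => EL b (fun F1 => T2 (j := j) (n := n) E0 E1 F0 F1)))) = fun _ => 0 := by
      funext E0
      show EL a (fun F0 => EL b (fun F1 => (0 : ℝ))) = 0
      rw [EL_congr (fun _ => EL_zero_fun b), EL_zero_fun]
    rw [this, EL_zero_fun]
  | 1 =>
    have h1 := EL_last_le hn A hDD a b i
    have h2 : EL i (fun E0 => EL 1 (fun E1 => EL a (fun F0 => EL b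
        (fun F1 => T2 (j := j) (n := n) E0 E1 F0 F1)))) =
        ((b : ℝ) + 1) * EL i (fun E : List (Clause (j + 2) n) => avg (fun s : Clause (j + 1) n =>
      EL b (fun Q : List (Clause (j + 2) n) => EL a (fun F : List (Clause (j + 3) n) =>
        (hit (cutL (cutL Finset.univ E) Q) F - hit (cut (cutL (cutL Finset.univ E) Q) s) F) ^ 2)))) := by
      rw [← EL_const_mul]
      refine EL_congr fun E0 => ?_
      rw [EL_one, ← avg_const_mul]
      refine avg_congr fun s => ?_
      rw [EL_comm, ← EL_const_mul]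
      refine EL_congr' fun F1 hF1 => ?_
      rw [← EL_const_mul]
      refine EL_congr fun F0 => ?_
      show ((F1.length : ℝ) + 1) * _ = _
      rw [hF1]
    rw [h2]
    have h3 := mul_le_mul_of_nonneg_left h1 (by positivity : (0 : ℝ) ≤ (b : ℝ) + 1)
    refine h3.trans ?_
    have hb : ((b : ℝ) + 1) ≤ 2 ^ b := by
      have : b + 1 ≤ 2 ^ b := Nat.lt_two_pow_self
      exact_mod_cast this
    have h4b : (4 : ℝ) ^ b = 2 ^ b * 2 ^ b := by rw [← mul_pow]; norm_num
    have e1 : A / t * 2 ^ i * t ^ 1 * 4 ^ b = A * 2 ^ i * (2 ^ b * 2 ^ b) := by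
      rw [h4b]; field_simp
    rw [e1, pow_add]
    have h0 : (0 : ℝ) ≤ A * 2 ^ i * 2 ^ b := by positivity
    nlinarith [mul_le_mul_of_nonneg_left hb h0]
  | e + 2 =>
    refine le_trans (le_of_eq ?_) hpos
    have : (fun E0 : List (Clause (j + 2) n) => EL (e + 2) (fun E1 : List (Clause (j + 1) n) =>
        EL a (fun F0 => EL b (fun F1 => T2 (j := j) (n := n) E0 E1 F0 F1)))) = fun _ => 0 := by
      funext E0
      have h3 : EL (e + 2) (fun E1 : List (Clause (j + 1) n) =>
        EL a (fun F0 => EL b (fun F1 => T2 (j := j) (n := n) E0 E1 F0 F1))) =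
        EL (e + 2) (fun _ : List (Clause (j + 1) n) => (0 : ℝ)) := by
        refine EL_congr' fun E1 hE1 => ?_
        match E1, hE1 with
        | s :: s' :: E2, _ =>
          show EL a (fun F0 => EL b (fun F1 => (0 : ℝ))) = 0
          rw [EL_congr (fun _ => EL_zero_fun b), EL_zero_fun]
      rw [h3, EL_zero_fun]
    rw [this, EL_zero_fun]

theorem EL_T3_le (K t : ℝ) (hK : 0 ≤ K) (ht : 1 ≤ t) (i e a b : ℕ) :
    EL i (fun E0 => EL e (fun E1 => EL a (fun F0 => EL b
      (fun F1 => T3 (j := j) (n := n) K E0 E1 F0 F1)))) ≤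
      (K / t ^ 2) * 1 ^ i * t ^ e * 4 ^ b := by
  have ht0 : 0 < t := by linarith
  have h4 : (1 : ℝ) ≤ 4 ^ b := one_le_pow₀ (by norm_num)
  have h1 : ∀ (E0 : List (Clause (j + 2) n)) (E1 : List (Clause (j + 1) n)), E1.length = e →
      EL a (fun F0 => EL b (fun F1 => T3 (j := j) (n := n) K E0 E1 F0 F1)) ≤
      (K / t ^ 2) * t ^ e := by
    intro E0 E1 hE1
    have h2 : (if 2 ≤ E1.length then K else 0) ≤ (K / t ^ 2) * t ^ e := by
      split_ifs with h
      · rw [hE1] at h
        rw [div_mul_eq_mul_div, le_div_iff₀ (by positivity)]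
        exact mul_le_mul_of_nonneg_left (pow_le_pow_right₀ ht h) hK
      · positivity
    have h3 : 0 ≤ (K / t ^ 2) * t ^ e := by positivity
    calc EL a (fun F0 => EL b (fun F1 => T3 (j := j) (n := n) K E0 E1 F0 F1))
        ≤ EL a (fun F0 : List (Clause (j + 3) n) => EL b
          (fun F1 : List (Clause (j + 2) n) => (K / t ^ 2) * t ^ e)) :=
          EL_mono fun F0 => EL_mono fun F1 => h2
      _ ≤ EL a (fun F0 : List (Clause (j + 3) n) => (K / t ^ 2) * t ^ e) :=
          EL_mono fun F0 => EL_const_le h3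
      _ ≤ (K / t ^ 2) * t ^ e := EL_const_le h3
  have h3 : 0 ≤ (K / t ^ 2) * t ^ e := by positivity
  calc EL i (fun E0 => EL e (fun E1 => EL a (fun F0 => EL b
      (fun F1 => T3 (j := j) (n := n) K E0 E1 F0 F1))))
      ≤ EL i (fun E0 : List (Clause (j + 2) n) => EL e
        (fun E1 : List (Clause (j + 1) n) => (K / t ^ 2) * t ^ e)) :=
        EL_mono fun E0 => EL_mono' fun E1 hE1 => h1 E0 E1 hE1
    _ ≤ EL i (fun E0 : List (Clause (j + 2) n) => (K / t ^ 2) * t ^ e) :=
        EL_mono fun E0 => EL_const_le h3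
    _ ≤ (K / t ^ 2) * t ^ e := EL_const_le h3
    _ ≤ (K / t ^ 2) * 1 ^ i * t ^ e * 4 ^ b := by
        rw [one_pow, mul_one]
        nlinarith

/-- two-level pattern bound -/
theorem EL_pattern2 (hn : j + 2 ≤ n) (v : Fin (n + 1)) (b : Bool) (S u t : ℝ)
    (hS : 0 ≤ S) (hu : 0 ≤ u) (ht : 0 ≤ t) (i M : ℕ)
    (T : List (Clause (j + 2) n) → List (Clause (j + 1) n) → List (Clause (j + 3) n) →
      List (Clause (j + 2) n) → ℝ)
    (hT : ∀ i0 e a c : ℕ, EL i0 (fun E0 => EL e (fun E1 => EL a (fun F0 => EL c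
      (fun F1 => T E0 E1 F0 F1)))) ≤ S * u ^ i0 * t ^ e * 4 ^ c) :
    EL i (fun E : List (Clause (j + 2) (n + 1)) =>
      EL M (fun F : List (Clause (j + 3) (n + 1)) =>
        4 ^ (cnt v F) * T (pureL v E) (redL v b E) (pureL v F) (redL v b F))) ≤
      S * ((1 - 2 * theta (j + 1) n) * u + theta (j + 1) n * t + theta (j + 1) n) ^ i *
        (1 + 18 * theta (j + 2) n) ^ M := by
  rw [EL_comm]
  have hθ : 0 ≤ theta (j + 1) n := by unfold theta; positivity
  have hθ' : 2 * theta (j + 1) n ≤ 1 := by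
    unfold theta
    rw [← mul_div_assoc, div_le_one (by positivity)]
    have : (j : ℝ) + 2 ≤ n := by exact_mod_cast hn
    push_cast
    linarith
  have hbase : 0 ≤ (1 - 2 * theta (j + 1) n) * u + theta (j + 1) n * t + theta (j + 1) n := by
    have : 0 ≤ (1 - 2 * theta (j + 1) n) * u := mul_nonneg (by linarith) hu
    positivity
  have h1 : ∀ F : List (Clause (j + 3) (n + 1)),
      EL i (fun E : List (Clause (j + 2) (n + 1)) =>
        (4 : ℝ) ^ (cnt v F) * T (pureL v E) (redL v b E) (pureL v F) (redL v b F)) =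
      (4 : ℝ) ^ (cnt v F) * (fun (F0 : List (Clause (j + 3) n)) (F1 : List (Clause (j + 2) n)) =>
        EL i (fun E : List (Clause (j + 2) (n + 1)) =>
          T (pureL v E) (redL v b E) F0 F1)) (pureL v F) (redL v b F) := by
    intro F
    rw [EL_const_mul]
  rw [EL_congr h1]
  have h2 := EL_pattern hn v b 4 1 4 (by norm_num) (by norm_num) (by norm_num) M
    (S * ((1 - 2 * theta (j + 1) n) * u + theta (j + 1) n * t + theta (j + 1) n) ^ i)
    (fun (F0 : List (Clause (j + 3) n)) (F1 : List (Clause (j + 2) n)) =>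
        EL i (fun E : List (Clause (j + 2) (n + 1)) =>
          T (pureL v E) (redL v b E) F0 F1)) (by positivity) ?_
  · refine h2.trans (le_of_eq ?_)
    congr 2
    ring
  · intro a c
    have h3 : EL a (fun F0 : List (Clause (j + 3) n) => EL c (fun F1 : List (Clause (j + 2) n) =>
        EL i (fun E : List (Clause (j + 2) (n + 1)) =>
          T (pureL v E) (redL v b E) F0 F1))) =
        EL i (fun E : List (Clause (j + 2) (n + 1)) => (1 : ℝ) ^ (cnt v E) *
          (fun (E0 : List (Clause (j + 2) n)) (E1 : List (Clause (j + 1) n)) =>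
            EL a (fun F0 : List (Clause (j + 3) n) => EL c (fun F1 : List (Clause (j + 2) n) =>
              T E0 E1 F0 F1))) (pureL v E) (redL v b E)) := by
      have e1 : ∀ F0 : List (Clause (j + 3) n), EL c (fun F1 : List (Clause (j + 2) n) =>
        EL i (fun E : List (Clause (j + 2) (n + 1)) =>
          T (pureL v E) (redL v b E) F0 F1)) = EL i (fun E : List (Clause (j + 2) (n + 1)) =>
            EL c (fun F1 : List (Clause (j + 2) n) =>
          T (pureL v E) (redL v b E) F0 F1)) := fun F0 => EL_comm c i _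
      rw [EL_congr e1, EL_comm]
      refine EL_congr fun E => ?_
      rw [one_pow, one_mul]
    rw [h3]
    have h4 := EL_pattern (m := j + 1) (by omega) v b 1 u t (by norm_num) hu ht i (S * 4 ^ c)
      (fun (E0 : List (Clause (j + 2) n)) (E1 : List (Clause (j + 1) n)) =>
            EL a (fun F0 : List (Clause (j + 3) n) => EL c (fun F1 : List (Clause (j + 2) n) =>
              T E0 E1 F0 F1))) (by positivity) ?_
    · refine h4.trans (le_of_eq ?_)
      rw [one_pow, one_mul, mul_one]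
      ring
    · intro i0 e
      refine (hT i0 e a c).trans (le_of_eq ?_)
      ring

end Crest.Agent.R153
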