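import Crest.Agent.R153.Elim
import Crest.Agent.R153.Pattern
import Crest.Agent.R153.Geom
import Crest.Agent.R153.LossSq
import Crest.Agent.R153.Tail
import Crest.Agent.R153.Terms

/-! Row 153 (S0217), task INDUCT: `DD j n i M ≤ A 2^i`. -/

set_option autoImplicit false

open Crest.ProbabilityR.RandomSAT

namespace Crest.Agent.R153

variable {j n : ℕ}

theorem loss_nonneg {k n : ℕ} (X : Finset (Asg n)) (l : Fin n × Bool) (F : List (Clause k n)) :
    0 ≤ hit X F - hit (cutLit X l) F := by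
  have := hit_mono (cutLit_subset X l) F
  linarith

/-- pointwise bound of the squared loss -/
theorem loss_sq_pointwise (v : Fin (n + 1)) (b : Bool) (K : ℝ)
    (E : List (Clause (j + 2) (n + 1))) (F : List (Clause (j + 3) (n + 1)))
    (hK : ((F.length : ℝ) + 1) ^ 2 ≤ K) :
    (hit (cutL Finset.univ E) F - hit (cutLit (cutL Finset.univ E) (v, b)) F) ^ 2 ≤
      4 ^ (cnt v F) * T1 (pureL v E) (redL v b E) (pureL v F) (redL v b F) +
      4 ^ (cnt v F) * T2 (pureL v E) (redL v b E) (pureL v F) (redL v b F) +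
      4 ^ (cnt v F) * T3 K (pureL v E) (redL v b E) (pureL v F) (redL v b F) := by
  have h1 := loss_elim v b (cutL Finset.univ E) (cutL Finset.univ (pureL v E))
    (cutL (cutL Finset.univ (pureL v E)) (redL v b E)) (proj_cutL v E)
    (subset_slice_cutL v b E) F
  have hlen : (pureL v F).length ≤ F.length := List.length_filterMap_le _ _
  have hlen' : ((pureL v F).length : ℝ) ≤ F.length := by exact_mod_cast hlen
  have hK' : (((pureL v F).length : ℝ) + 1) ^ 2 ≤ K := by
    refine le_trans ?_ hK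
    have : (0 : ℝ) ≤ (pureL v F).length := Nat.cast_nonneg _
    nlinarith
  have h2 := sq_loss_le_T (pureL v E) (redL v b E) (pureL v F) (redL v b F) K hK'
  have h3 := pow_le_pow_left₀ (loss_nonneg _ _ _) h1 2
  refine h3.trans ?_
  rw [mul_pow]
  have h4 : (1 + (cnt v F : ℝ)) ^ 2 ≤ 4 ^ (cnt v F) := by
    have h5 : (cnt v F : ℝ) + 1 ≤ 2 ^ (cnt v F) := by
      have : cnt v F + 1 ≤ 2 ^ (cnt v F) := Nat.lt_two_pow_self
      exact_mod_cast this
    have h6 : (4 : ℝ) ^ (cnt v F) = (2 ^ (cnt v F)) ^ 2 := by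
      rw [← pow_mul, mul_comm, pow_mul]; norm_num
    rw [h6]
    exact pow_le_pow_left₀ (by positivity) (by linarith) 2
  have h7 : (0 : ℝ) ≤ (hit (cutL Finset.univ (pureL v E)) (pureL v F) -
    hit (cutL (cutL (cutL Finset.univ (pureL v E)) (redL v b E)) (redL v b F)) (pureL v F)) ^ 2 :=
    sq_nonneg _
  calc _ ≤ (4 : ℝ) ^ (cnt v F) * (hit (cutL Finset.univ (pureL v E)) (pureL v F) -
    hit (cutL (cutL (cutL Finset.univ (pureL v E)) (redL v b E)) (redL v b F)) (pureL v F)) ^ 2 :=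
        mul_le_mul_of_nonneg_right h4 h7
    _ ≤ (4 : ℝ) ^ (cnt v F) * (T1 (pureL v E) (redL v b E) (pureL v F) (redL v b F) +
      T2 (pureL v E) (redL v b E) (pureL v F) (redL v b F) +
      T3 K (pureL v E) (redL v b E) (pureL v F) (redL v b F)) :=
        mul_le_mul_of_nonneg_left h2 (by positivity)
    _ = _ := by ring

/-- second moment of the loss of one literal, from the bound for one variable less -/
theorem EL_loss_le (hn : j + 2 ≤ n) (v : Fin (n + 1)) (b : Bool) (i M : ℕ)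
    (ε A Cε K t : ℝ) (hε : 0 < ε) (hε1 : ε ≤ 1) (hA : 0 ≤ A) (hCε : 0 ≤ Cε) (ht : 1 ≤ t)
    (hDD : ∀ i M : ℕ, DD j n i M ≤ A * 2 ^ i)
    (hT : ∀ (M : ℕ) (X : Finset (Asg n)),
      EL M (fun F : List (Clause (j + 3) n) => (Teps ε X F) ^ 2) ≤ Cε)
    (hK : ((M : ℝ) + 1) ^ 2 ≤ K) :
    EL i (fun E : List (Clause (j + 2) (n + 1)) => EL M
      (fun F : List (Clause (j + 3) (n + 1)) =>
        (hit (cutL Finset.univ E) F - hit (cutLit (cutL Finset.univ E) (v, b)) F) ^ 2)) ≤
      ((ε ^ (j + 1) * A + Cε) *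
          ((1 - 2 * theta (j + 1) n) * 2 + theta (j + 1) n * 1 + theta (j + 1) n) ^ i +
        (A / t) * ((1 - 2 * theta (j + 1) n) * 2 + theta (j + 1) n * t + theta (j + 1) n) ^ i +
        (K / t ^ 2) * ((1 - 2 * theta (j + 1) n) * 1 + theta (j + 1) n * t + theta (j + 1) n) ^ i) *
        (1 + 18 * theta (j + 2) n) ^ M := by
  have hK0 : 0 ≤ K := le_trans (by positivity) hK
  have ht0 : 0 < t := by linarith
  have h0 : EL i (fun E : List (Clause (j + 2) (n + 1)) => EL M
      (fun F : List (Clause (j + 3) (n + 1)) =>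
        (hit (cutL Finset.univ E) F - hit (cutLit (cutL Finset.univ E) (v, b)) F) ^ 2)) ≤
      EL i (fun E : List (Clause (j + 2) (n + 1)) => EL M
        (fun F : List (Clause (j + 3) (n + 1)) =>
        4 ^ (cnt v F) * T1 (pureL v E) (redL v b E) (pureL v F) (redL v b F))) +
      EL i (fun E : List (Clause (j + 2) (n + 1)) => EL M
        (fun F : List (Clause (j + 3) (n + 1)) =>
        4 ^ (cnt v F) * T2 (pureL v E) (redL v b E) (pureL v F) (redL v b F))) +
      EL i (fun E : List (Clause (j + 2) (n + 1)) => EL M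
        (fun F : List (Clause (j + 3) (n + 1)) =>
        4 ^ (cnt v F) * T3 K (pureL v E) (redL v b E) (pureL v F) (redL v b F))) := by
    rw [← EL_add, ← EL_add]
    refine EL_mono fun E => ?_
    rw [← EL_add, ← EL_add]
    refine EL_mono' fun F hF => ?_
    exact loss_sq_pointwise v b K E F (by rw [hF]; exact hK)
  have h1 := EL_pattern2 hn v b (ε ^ (j + 1) * A + Cε) 2 1 (by positivity) (by norm_num)
    (by norm_num) i M T1 (fun i0 e a c => EL_T1_le ε A Cε hε hε1 hA hDD hCε hT i0 e a c)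
  have h2 := EL_pattern2 hn v b (A / t) 2 t (by positivity) (by norm_num)
    ht0.le i M T2 (fun i0 e a c => EL_T2_le (by omega) A t hA ht hDD i0 e a c)
  have h3 := EL_pattern2 hn v b (K / t ^ 2) 1 t (by positivity) (by norm_num)
    ht0.le i M (T3 K) (fun i0 e a c => EL_T3_le K t hK0 ht i0 e a c)
  rw [add_mul, add_mul]
  linarith

theorem exp_half_le : Real.exp (1 / 2) ≤ 2 := by
  have h1 : Real.exp (1 / 2) ^ 2 = Real.exp 1 := by
    rw [← Real.exp_nat_mul]; norm_num
  have h2 := Real.exp_one_lt_d9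
  have h3 := Real.exp_pos (1 / 2)
  nlinarith

theorem one_add_pow_le_exp (x : ℝ) (hx : 0 ≤ x) (m : ℕ) : (1 + x) ^ m ≤ Real.exp (m * x) := by
  rw [Real.exp_nat_mul]
  exact pow_le_pow_left₀ (by linarith) (by linarith [Real.add_one_le_exp x]) m

theorem sq_succ_le (i : ℕ) : ((i : ℝ) + 1) ^ 2 ≤ 4 * 2 ^ i := by
  have h : ∀ m : ℕ, (m + 1) ^ 2 ≤ 4 * 2 ^ m := by
    intro m
    induction m with
    | zero => norm_num
    | succ m ih =>
      rcases m with _ | _ | m
      · norm_num
      · norm_num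
      · have e : 2 ^ (m + 1 + 1 + 1) = 2 * 2 ^ (m + 1 + 1) := by ring
        rw [e]
        have e2 : (m + 1 + 1 + 1 + 1) ^ 2 ≤ 2 * (m + 1 + 1 + 1) ^ 2 := by
          have e3 : 2 * (m + 1 + 1 + 1) ^ 2 = (m + 1 + 1 + 1 + 1) ^ 2 + (m * m + 4 * m + 2) := by
            ring
          rw [e3]
          exact Nat.le_add_right _ _
        omega
  exact_mod_cast h i

/-- one step of the recursion for `M ≤ C0 (n+1)` -/
theorem step_le (hn : j + 2 ≤ n) (v : Fin (n + 1)) (b : Bool) (i M C0 : ℕ) (hC0 : 1 ≤ C0)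
    (hM : M ≤ C0 * (n + 1)) (ε A Cε δ Γ : ℝ) (hε : 0 < ε) (hε1 : ε ≤ 1)
    (hA : 0 ≤ A) (hCε : 0 ≤ Cε) (hδ : 0 < δ)
    (hΓ : Γ = Real.exp (9 * (j + 3) * C0)) (hεΓ : Γ * ε ≤ 1 / 8)
    (hδΓ : Γ * ((j + 2) * δ) ≤ 1 / 16) (hi : (i : ℝ) ≤ δ * (n + 1)) (hδn : 1 ≤ δ * (n + 1))
    (hDD : ∀ i M : ℕ, DD j n i M ≤ A * 2 ^ i)
    (hT : ∀ (M : ℕ) (X : Finset (Asg n)),
      EL M (fun F : List (Clause (j + 3) n) => (Teps ε X F) ^ 2) ≤ Cε) :
    EL i (fun E : List (Clause (j + 2) (n + 1)) => EL M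
      (fun F : List (Clause (j + 3) (n + 1)) =>
        (hit (cutL Finset.univ E) F - hit (cutLit (cutL Finset.univ E) (v, b)) F) ^ 2)) ≤
      2 ^ i * (A / 4 + Γ * Cε + 12 * Γ * ((j + 2) * C0) ^ 2) := by
  have hn1 : (0 : ℝ) < (n : ℝ) + 1 := by positivity
  have hΓ1 : 1 ≤ Γ := by
    rw [hΓ]; exact Real.one_le_exp (by positivity)
  set θ := theta (j + 1) n with hθdef
  have hθ : θ = ((j : ℝ) + 2) / (2 * (n + 1)) := by
    rw [hθdef]; unfold theta; push_cast; ring
  have hθ0 : 0 < θ := by rw [hθ]; positivity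
  have hi1 : (0 : ℝ) < (i : ℝ) + 1 := by positivity
  have hθi : θ * (i + 1) ≤ (j + 2) * δ := by
    rw [hθ, div_mul_eq_mul_div, div_le_iff₀ (by positivity)]
    have : (i : ℝ) + 1 ≤ 2 * (δ * (n + 1)) := by linarith
    have hj : (0 : ℝ) ≤ (j : ℝ) + 2 := by positivity
    nlinarith [mul_le_mul_of_nonneg_left this hj]
  have hθi1 : θ * (i + 1) ≤ 1 := by
    have h1 : 0 ≤ ((j : ℝ) + 2) * δ := by positivity
    nlinarith
  set t := 1 / (θ * (i + 1)) with ht
  have hθi0 : 0 < θ * (i + 1) := by positivity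
  have ht1 : 1 ≤ t := by rw [ht, le_div_iff₀ hθi0]; linarith
  have hθt : θ * t = 1 / (i + 1) := by rw [ht]; field_simp
  have hAt : A / t = A * (θ * (i + 1)) := by rw [ht]; field_simp
  set M0 : ℝ := (C0 : ℝ) * (n + 1) with hM0
  have hMM0 : (M : ℝ) ≤ M0 := by rw [hM0]; exact_mod_cast hM
  set K := (M0 + 1) ^ 2 with hKdef
  have hK : ((M : ℝ) + 1) ^ 2 ≤ K := pow_le_pow_left₀ (by positivity) (by linarith) 2
  have hKt : K / t ^ 2 = ((M0 + 1) * (θ * (i + 1))) ^ 2 := by rw [hKdef, ht]; field_simp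
  have hC0' : (1 : ℝ) ≤ C0 := by exact_mod_cast hC0
  have hMθ : (M0 + 1) * θ ≤ (j + 2) * C0 := by
    have h1 : M0 + 1 ≤ 2 * C0 * (n + 1) := by
      rw [hM0]
      have : (1 : ℝ) ≤ C0 * (n + 1) := by
        have : (0 : ℝ) ≤ n := Nat.cast_nonneg n
        nlinarith
      linarith
    calc (M0 + 1) * θ ≤ (2 * C0 * (n + 1)) * θ := mul_le_mul_of_nonneg_right h1 hθ0.le
      _ = (j + 2) * C0 := by rw [hθ]; field_simp
  have hMθ0 : 0 ≤ (M0 + 1) * θ := by rw [hM0]; positivity
  have hKt' : K / t ^ 2 ≤ 4 * ((j + 2) * C0) ^ 2 * 2 ^ i := by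
    rw [hKt]
    have c1 : ((M0 + 1) * (θ * ((i : ℝ) + 1))) ^ 2 = ((M0 + 1) * θ) ^ 2 * ((i : ℝ) + 1) ^ 2 := by
      ring
    have c2 : ((M0 + 1) * θ) ^ 2 * ((i : ℝ) + 1) ^ 2 ≤
        (((j : ℝ) + 2) * C0) ^ 2 * (4 * 2 ^ i) :=
      mul_le_mul (pow_le_pow_left₀ hMθ0 hMθ 2) (sq_succ_le i) (by positivity) (by positivity)
    rw [c1]
    refine c2.trans (le_of_eq ?_)
    ring
  have hmain := EL_loss_le hn v b i M ε A Cε K t hε hε1 hA hCε ht1 hDD hT hK
  refine hmain.trans ?_
  rw [← hθdef, hθt, hAt]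
  -- the powers
  have hθ2 : 2 * θ ≤ 1 := by
    rw [hθ, ← mul_div_assoc, div_le_one (by positivity)]
    have : (j : ℝ) + 2 ≤ n := by exact_mod_cast hn
    linarith
  have p1 : ((1 - 2 * θ) * 2 + θ * 1 + θ) ^ i ≤ 2 ^ i :=
    pow_le_pow_left₀ (by linarith) (by linarith) i
  have hinv : (0 : ℝ) < 1 / ((i : ℝ) + 1) := by positivity
  have p2 : ((1 - 2 * θ) * 2 + 1 / ((i : ℝ) + 1) + θ) ^ i ≤ 2 ^ i * 2 := by
    have h1 : ((1 - 2 * θ) * 2 + 1 / ((i : ℝ) + 1) + θ) ^ i ≤
        (2 * (1 + 1 / ((i : ℝ) + 1) / 2)) ^ i :=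
      pow_le_pow_left₀ (by linarith) (by linarith) i
    rw [mul_pow] at h1
    have h2 := one_add_pow_le_exp (1 / ((i : ℝ) + 1) / 2) (by positivity) i
    have h3 : (i : ℝ) * (1 / ((i : ℝ) + 1) / 2) ≤ 1 / 2 := by
      rw [← mul_div_assoc, mul_one_div]
      have : (i : ℝ) / (i + 1) ≤ 1 := by rw [div_le_one hi1]; linarith
      linarith
    have h4 : Real.exp ((i : ℝ) * (1 / ((i : ℝ) + 1) / 2)) ≤ 2 :=
      (Real.exp_le_exp.2 h3).trans exp_half_le
    refine h1.trans (mul_le_mul_of_nonneg_left (h2.trans h4) (by positivity))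
  have p3 : ((1 - 2 * θ) * 1 + 1 / ((i : ℝ) + 1) + θ) ^ i ≤ 3 := by
    have h1 : ((1 - 2 * θ) * 1 + 1 / ((i : ℝ) + 1) + θ) ^ i ≤
        (1 + 1 / ((i : ℝ) + 1)) ^ i :=
      pow_le_pow_left₀ (by linarith) (by linarith) i
    have h2 := one_add_pow_le_exp (1 / ((i : ℝ) + 1)) (by positivity) i
    have h3 : (i : ℝ) * (1 / ((i : ℝ) + 1)) ≤ 1 := by
      rw [mul_one_div, div_le_one hi1]; linarith
    have h4 : Real.exp ((i : ℝ) * (1 / ((i : ℝ) + 1))) ≤ 3 :=
      (Real.exp_le_exp.2 h3).trans (by linarith [Real.exp_one_lt_d9])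
    exact h1.trans (h2.trans h4)
  have pΓ : (1 + 18 * theta (j + 2) n) ^ M ≤ Γ := by
    have hth : 0 ≤ theta (j + 2) n := by unfold theta; positivity
    refine (one_add_pow_le_exp _ (by positivity) M).trans ?_
    rw [hΓ]
    refine Real.exp_le_exp.2 ?_
    have e1 : theta (j + 2) n * (n + 1) = ((j : ℝ) + 3) / 2 := by
      unfold theta; push_cast; field_simp; ring
    calc (M : ℝ) * (18 * theta (j + 2) n) ≤ M0 * (18 * theta (j + 2) n) :=
          mul_le_mul_of_nonneg_right hMM0 (by positivity)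
      _ = 18 * C0 * (theta (j + 2) n * (n + 1)) := by rw [hM0]; ring
      _ = 9 * (j + 3) * C0 := by rw [e1]; ring
  have hpow : ε ^ (j + 1) ≤ ε := by
    calc ε ^ (j + 1) ≤ ε ^ 1 := pow_le_pow_of_le_one hε.le hε1 (by omega)
      _ = ε := pow_one ε
  have h2i : (0 : ℝ) < 2 ^ i := by positivity
  -- the bracket
  have hbr : (ε ^ (j + 1) * A + Cε) * ((1 - 2 * θ) * 2 + θ * 1 + θ) ^ i +
      A * (θ * (i + 1)) * ((1 - 2 * θ) * 2 + 1 / ((i : ℝ) + 1) + θ) ^ i +
      K / t ^ 2 * ((1 - 2 * θ) * 1 + 1 / ((i : ℝ) + 1) + θ) ^ i ≤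
      (ε * A + Cε) * 2 ^ i + A * ((j + 2) * δ) * (2 ^ i * 2) +
        (4 * ((j + 2) * C0) ^ 2 * 2 ^ i) * 3 := by
    have q1 : (ε ^ (j + 1) * A + Cε) * ((1 - 2 * θ) * 2 + θ * 1 + θ) ^ i ≤
        (ε * A + Cε) * 2 ^ i := by
      refine mul_le_mul ?_ p1 (pow_nonneg (by linarith) i) (by positivity)
      have := mul_le_mul_of_nonneg_right hpow hA
      linarith
    have q2 : A * (θ * (i + 1)) * ((1 - 2 * θ) * 2 + 1 / ((i : ℝ) + 1) + θ) ^ i ≤
        A * ((j + 2) * δ) * (2 ^ i * 2) :=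
      mul_le_mul (mul_le_mul_of_nonneg_left hθi hA) p2 (pow_nonneg (by linarith) i) (by positivity)
    have q3 : K / t ^ 2 * ((1 - 2 * θ) * 1 + 1 / ((i : ℝ) + 1) + θ) ^ i ≤
        (4 * ((j + 2) * C0) ^ 2 * 2 ^ i) * 3 :=
      mul_le_mul hKt' p3 (pow_nonneg (by linarith) i) (by positivity)
    linarith
  have hbr0 : 0 ≤ (ε * A + Cε) * 2 ^ i + A * ((j + 2) * δ) * (2 ^ i * 2) +
        (4 * ((j + 2) * C0) ^ 2 * 2 ^ i) * 3 := by positivity
  have hth : 0 ≤ theta (j + 2) n := by unfold theta; positivity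
  calc _ ≤ ((ε * A + Cε) * 2 ^ i + A * ((j + 2) * δ) * (2 ^ i * 2) +
        (4 * ((j + 2) * C0) ^ 2 * 2 ^ i) * 3) * Γ :=
        mul_le_mul hbr pΓ (by positivity) hbr0
    _ = 2 ^ i * ((Γ * ε) * A + Γ * Cε + 2 * (Γ * ((j + 2) * δ)) * A +
          12 * Γ * ((j + 2) * C0) ^ 2) := by ring
    _ ≤ 2 ^ i * (A / 4 + Γ * Cε + 12 * Γ * ((j + 2) * C0) ^ 2) := by
        refine mul_le_mul_of_nonneg_left ?_ h2i.le
        have r1 := mul_le_mul_of_nonneg_right hεΓ hA
        have r2 := mul_le_mul_of_nonneg_right hδΓ hA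
        linarith

theorem EL_take_le {α : Type*} [Fintype α] {s M : ℕ} (hs : s ≤ M) (f : List α → ℝ)
    (hf : ∀ F, 0 ≤ f F) : EL M (fun F => f (F.take s)) ≤ EL s f := by
  obtain ⟨r, rfl⟩ := Nat.exists_eq_add_of_le hs
  rw [EL_append]
  refine EL_mono' fun F hF => ?_
  have : (fun G : List α => f ((F ++ G).take s)) = fun _ => f F := by
    funext G
    rw [List.take_append_of_le_length hF.ge, List.take_of_length_le hF.le]
  rw [this]
  exact EL_const_le (hf F)

/-- trivial bound -/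
theorem DD_le_triv (C1 : ℝ)
    (h : ∀ (M : ℕ) (X : Finset (Asg n)),
      EL M (fun F : List (Clause (j + 3) n) => (hit X F) ^ 2) ≤ C1 * (n : ℝ) ^ 2)
    (hC1 : 0 ≤ C1) (i M : ℕ) : DD j n i M ≤ C1 * (n : ℝ) ^ 2 := by
  unfold DD
  have h0 : 0 ≤ C1 * (n : ℝ) ^ 2 := by positivity
  calc _ ≤ EL i (fun _ : List (Clause (j + 2) n) => C1 * (n : ℝ) ^ 2) := by
        refine EL_mono fun E => ?_
        refine le_trans (EL_mono fun F => ?_) (h M (cutL Finset.univ E))
        have h1 : ∀ l : Fin n × Bool,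
            (hit (cutL Finset.univ E) F - hit (cutLit (cutL Finset.univ E) l) F) ^ 2 ≤
              (hit (cutL Finset.univ E) F) ^ 2 := by
          intro l
          have a1 := loss_nonneg (cutL Finset.univ E) l F
          have a2 := hit_nonneg (cutLit (cutL Finset.univ E) l) F
          exact pow_le_pow_left₀ a1 (by linarith) 2
        exact (avg_mono h1).trans (avg_const_le (sq_nonneg _))
    _ ≤ _ := EL_const_le h0

theorem exists_DD_le (j : ℕ) : ∃ A : ℝ, ∀ n : ℕ, j + 3 ≤ n → ∀ i M : ℕ,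
    DD j n i M ≤ A * 2 ^ i := by
  obtain ⟨C0, CT, hC0, hCT, htail⟩ := exists_tail (j + 3) (by omega)
  obtain ⟨C1, hC1, htriv⟩ := exists_hit_sq_le (j + 3) (by omega)
  set Γ : ℝ := Real.exp (9 * (j + 3) * C0) with hΓ
  have hΓ1 : 1 ≤ Γ := by rw [hΓ]; exact Real.one_le_exp (by positivity)
  have hΓ0 : 0 < Γ := by linarith
  set ε : ℝ := 1 / (8 * Γ) with hεdef
  have hε : 0 < ε := by positivity
  have hε1 : ε ≤ 1 := by rw [hεdef, div_le_one (by positivity)]; linarith
  have hεΓ : Γ * ε ≤ 1 / 8 := by rw [hεdef]; apply le_of_eq; field_simp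
  set Cε : ℝ := 2 / ((ε / 2) ^ (j + 3)) ^ 2 with hCεdef
  have hCε : 0 ≤ Cε := by positivity
  set δ : ℝ := 1 / (16 * (j + 2) * Γ) with hδdef
  have hδ : 0 < δ := by positivity
  have hδΓ : Γ * ((j + 2) * δ) ≤ 1 / 16 := by rw [hδdef]; apply le_of_eq; field_simp
  obtain ⟨n0, hn0⟩ := exists_nat_ge (((j : ℝ) + 3) / ε + 1 + 1 / δ + j + 4)
  set A : ℝ := C1 * n0 ^ 2 + 4 * C1 / δ ^ 2 +
    2 * (2 * CT + 2 * Γ * Cε + 24 * Γ * ((j + 2) * C0) ^ 2) with hAdef
  have hA : 0 ≤ A := by positivity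
  refine ⟨A, fun n hn => ?_⟩
  induction n, hn using Nat.le_induction with
  | base =>
    intro i M
    have h1 := DD_le_triv C1 (htriv (j + 3) le_rfl) hC1 i M
    refine h1.trans ?_
    have h2i : (1 : ℝ) ≤ 2 ^ i := one_le_pow₀ (by norm_num)
    have h3 : ((j + 3 : ℕ) : ℝ) ≤ n0 := by
      push_cast
      have : 0 ≤ ((j : ℝ) + 3) / ε := by positivity
      have : 0 ≤ 1 / δ := by positivity
      linarith
    have h4 : C1 * ((j + 3 : ℕ) : ℝ) ^ 2 ≤ C1 * (n0 : ℝ) ^ 2 :=
      mul_le_mul_of_nonneg_left (pow_le_pow_left₀ (by positivity) h3 2) hC1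
    have h5 : 0 ≤ 4 * C1 / δ ^ 2 := by positivity
    have h6 : 0 ≤ 2 * (2 * CT + 2 * Γ * Cε + 24 * Γ * ((j + 2) * C0) ^ 2) := by positivity
    nlinarith
  | succ n hn ih =>
    intro i M
    have h2i : (1 : ℝ) ≤ 2 ^ i := one_le_pow₀ (by norm_num)
    have h5 : 0 ≤ 4 * C1 / δ ^ 2 := by positivity
    have h5' : 0 ≤ C1 * (n0 : ℝ) ^ 2 := by positivity
    have h6 : 0 ≤ 2 * (2 * CT + 2 * Γ * Cε + 24 * Γ * ((j + 2) * C0) ^ 2) := by positivity
    by_cases hsmall : n + 1 < n0
    · have h1 := DD_le_triv (n := n + 1) C1 (htriv (n + 1) (by omega)) hC1 i M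
      refine h1.trans ?_
      have h3 : ((n + 1 : ℕ) : ℝ) ≤ n0 := by exact_mod_cast hsmall.le
      have h4 : C1 * ((n + 1 : ℕ) : ℝ) ^ 2 ≤ C1 * (n0 : ℝ) ^ 2 :=
        mul_le_mul_of_nonneg_left (pow_le_pow_left₀ (by positivity) h3 2) hC1
      nlinarith
    · push Not at hsmall
      have hnR : (n0 : ℝ) ≤ (n : ℝ) + 1 := by exact_mod_cast hsmall
      by_cases hi : (i : ℝ) ≤ δ * (n + 1)
      · -- main case
        have hpos1 : 0 ≤ ((j : ℝ) + 3) / ε := by positivity
        have hpos2 : 0 ≤ 1 / δ := by positivity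
        have hδn : 1 ≤ δ * (n + 1) := by
          have : 1 / δ ≤ n + 1 := by linarith
          rw [div_le_iff₀ hδ] at this
          linarith
        have hkn : ((j + 3 : ℕ) : ℝ) ≤ ε * n := by
          have : ((j : ℝ) + 3) / ε ≤ n := by linarith
          rw [div_le_iff₀ hε] at this
          push_cast
          linarith
        have hT : ∀ (M : ℕ) (X : Finset (Asg n)),
            EL M (fun F : List (Clause (j + 3) n) => (Teps ε X F) ^ 2) ≤ Cε := fun M X =>
          EL_Teps_sq_le (j + 3) ε hε hε1 hkn M X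
        have hstep : ∀ (v : Fin (n + 1)) (b : Bool) (M' : ℕ), M' ≤ C0 * (n + 1) → _ :=
          fun v b M' hM' => step_le (j := j) (n := n) (by omega) v b i M' C0 hC0 hM' ε A Cε δ Γ
            hε hε1 hA hCε hδ hΓ hεΓ hδΓ hi hδn ih hT
        -- for every literal
        have hlit : ∀ l : Fin (n + 1) × Bool,
            EL i (fun E : List (Clause (j + 2) (n + 1)) => EL M
              (fun F : List (Clause (j + 3) (n + 1)) =>
              (hit (cutL Finset.univ E) F - hit (cutLit (cutL Finset.univ E) l) F) ^ 2)) ≤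
              A * 2 ^ i := by
          rintro ⟨v, b⟩
          by_cases hM : M ≤ C0 * (n + 1)
          · refine (hstep v b M hM).trans ?_
            have : 0 ≤ 2 * CT + Γ * Cε + 12 * Γ * ((j + 2) * C0) ^ 2 := by positivity
            rw [mul_comm A]
            refine mul_le_mul_of_nonneg_left ?_ (by positivity)
            rw [hAdef] at *
            nlinarith
          · push Not at hM
            have h7 : ∀ E : List (Clause (j + 2) (n + 1)), EL M
              (fun F : List (Clause (j + 3) (n + 1)) =>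
              (hit (cutL Finset.univ E) F - hit (cutLit (cutL Finset.univ E) (v, b)) F) ^ 2) ≤
              2 * CT + 2 * EL (C0 * (n + 1)) (fun F : List (Clause (j + 3) (n + 1)) =>
              (hit (cutL Finset.univ E) F - hit (cutLit (cutL Finset.univ E) (v, b)) F) ^ 2) := by
              intro E
              have h8 : ∀ F : List (Clause (j + 3) (n + 1)),
                (hit (cutL Finset.univ E) F - hit (cutLit (cutL Finset.univ E) (v, b)) F) ^ 2 ≤
                2 * (hit (cutL Finset.univ E) F -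
                  hit (cutL Finset.univ E) (F.take (C0 * (n + 1)))) ^ 2 +
                2 * (hit (cutL Finset.univ E) (F.take (C0 * (n + 1))) -
                  hit (cutLit (cutL Finset.univ E) (v, b)) (F.take (C0 * (n + 1)))) ^ 2 := by
                intro F
                have b1 := hit_take_le (cutLit (cutL Finset.univ E) (v, b)) F (C0 * (n + 1))
                have b2 := hit_take_le (cutL Finset.univ E) F (C0 * (n + 1))
                have b3 := loss_nonneg (cutL Finset.univ E) (v, b) F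
                have b4 := loss_nonneg (cutL Finset.univ E) (v, b) (F.take (C0 * (n + 1)))
                set x := hit (cutL Finset.univ E) F
                set y := hit (cutL Finset.univ E) (F.take (C0 * (n + 1)))
                set x' := hit (cutLit (cutL Finset.univ E) (v, b)) F
                set y' := hit (cutLit (cutL Finset.univ E) (v, b)) (F.take (C0 * (n + 1)))
                have b5 : x - x' ≤ (x - y) + (y - y') := by linarith
                have b6 := pow_le_pow_left₀ b3 b5 2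
                nlinarith [sq_nonneg ((x - y) - (y - y'))]
              refine (EL_mono h8).trans ?_
              rw [EL_add, EL_const_mul, EL_const_mul]
              have h9 := htail (n + 1) (by omega) M (cutL Finset.univ E)
              have h10 := EL_take_le hM.le (fun F : List (Clause (j + 3) (n + 1)) =>
                (hit (cutL Finset.univ E) F -
                  hit (cutLit (cutL Finset.univ E) (v, b)) F) ^ 2) (fun F => sq_nonneg _)
              linarith
            refine (EL_mono h7).trans ?_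
            rw [EL_add, EL_const_mul i 2 (fun E : List (Clause (j + 2) (n + 1)) =>
              EL (C0 * (n + 1)) (fun F : List (Clause (j + 3) (n + 1)) =>
              (hit (cutL Finset.univ E) F - hit (cutLit (cutL Finset.univ E) (v, b)) F) ^ 2))]
            have h11 := hstep v b (C0 * (n + 1)) le_rfl
            have h12 : EL i (fun _ : List (Clause (j + 2) (n + 1)) => 2 * CT) ≤ 2 * CT :=
              EL_const_le (by positivity)
            have h13 : 2 * CT ≤ 2 ^ i * (2 * CT) := by nlinarith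
            have h14 : 2 ^ i * (2 * CT + 2 * (A / 4 + Γ * Cε + 12 * Γ * ((j + 2) * C0) ^ 2)) ≤
                A * 2 ^ i := by
              rw [mul_comm A]
              refine mul_le_mul_of_nonneg_left ?_ (by positivity)
              linarith
            linarith
        unfold DD
        have h15 : ∀ E : List (Clause (j + 2) (n + 1)), EL M
              (fun F : List (Clause (j + 3) (n + 1)) => avg (fun l : Fin (n + 1) × Bool =>
              (hit (cutL Finset.univ E) F - hit (cutLit (cutL Finset.univ E) l) F) ^ 2)) =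
              avg (fun l : Fin (n + 1) × Bool => EL M
              (fun F : List (Clause (j + 3) (n + 1)) =>
              (hit (cutL Finset.univ E) F - hit (cutLit (cutL Finset.univ E) l) F) ^ 2)) :=
          fun E => EL_avg_comm M _
        rw [EL_congr h15, EL_avg_comm]
        exact (avg_mono hlit).trans (avg_const_le (by positivity))
      · -- many clauses in the environment
        push Not at hi
        have h1 := DD_le_triv (n := n + 1) C1 (htriv (n + 1) (by omega)) hC1 i M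
        refine h1.trans ?_
        have h3 : ((n : ℝ) + 1) ≤ i / δ := by
          rw [le_div_iff₀ hδ]; linarith
        have h4 : ((n + 1 : ℕ) : ℝ) ^ 2 ≤ (i / δ) ^ 2 := by
          push_cast
          exact pow_le_pow_left₀ (by positivity) h3 2
        have h7 : (i : ℝ) ^ 2 ≤ 4 * 2 ^ i := by
          refine le_trans ?_ (sq_succ_le i)
          exact pow_le_pow_left₀ (by positivity) (by linarith) 2
        have h8 : C1 * ((n + 1 : ℕ) : ℝ) ^ 2 ≤ 4 * C1 / δ ^ 2 * 2 ^ i := by
          calc C1 * ((n + 1 : ℕ) : ℝ) ^ 2 ≤ C1 * (i / δ) ^ 2 := mul_le_mul_of_nonneg_left h4 hC1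
            _ = C1 / δ ^ 2 * (i : ℝ) ^ 2 := by rw [div_pow]; ring
            _ ≤ C1 / δ ^ 2 * (4 * 2 ^ i) := mul_le_mul_of_nonneg_left h7 (by positivity)
            _ = _ := by ring
        refine h8.trans ?_
        refine mul_le_mul_of_nonneg_right ?_ (by positivity)
        rw [hAdef]
        linarith

end Crest.Agent.R153
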