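import Mathlib
import Crest.Agent.R153.CutTools

/-!
The left cut: from the variance bound of S0217 (k = 3) and supermultiplicativity,
`satProb 3 n m ≥ 1/2` implies `m / n ≤ α + C / √n`.
-/

set_option autoImplicit false
set_option linter.unusedVariables false

namespace Crest.Agent.R153.Wr

open Finset Crest.ProbabilityR.RandomSAT

/-- mean hitting time -/
noncomputable def hh (n : ℕ) : ℝ := ∑' m, satProb 3 n m

/-- variance hypothesis in a convenient form -/
structure HVar (C : ℝ) : Prop where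
  one_le : 1 ≤ C
  s1 : ∀ n : ℕ, 3 ≤ n → Summable fun m : ℕ => satProb 3 n m
  s2 : ∀ n : ℕ, 3 ≤ n → Summable fun m : ℕ => (2 * (m : ℝ) + 1) * satProb 3 n m
  var : ∀ n : ℕ, 3 ≤ n → (∑' m : ℕ, (2 * (m : ℝ) + 1) * satProb 3 n m) - (hh n) ^ 2 ≤ C * n

variable {C : ℝ}

theorem hh_nonneg (n : ℕ) : 0 ≤ hh n := tsum_nonneg fun m => satProb_nonneg 3 n m

theorem dev_up (hv : HVar C) {n m : ℕ} (hn : 3 ≤ n) {p0 : ℝ} (hp0 : 0 < p0)
    (h : p0 ≤ satProb 3 n m) : (m : ℝ) ≤ hh n + Real.sqrt (C * n / p0) := by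
  have hsq := Real.sqrt_nonneg (C * n / p0)
  by_cases hm : hh n ≤ (m : ℝ) + 1
  · have h1 := cheb_upper (satProb_antitone 3 n) (satProb_nonneg 3 n) (satProb_le_one 3 n 0)
      (hv.s1 n hn) (hv.s2 n hn) m hm
    have h2 : satProb 3 n m * ((m : ℝ) + 1 - hh n) ^ 2 ≤ C * n := h1.trans (hv.var n hn)
    have h3 : p0 * ((m : ℝ) + 1 - hh n) ^ 2 ≤ C * n :=
      (mul_le_mul_of_nonneg_right h (sq_nonneg _)).trans h2
    have h4 : ((m : ℝ) + 1 - hh n) ^ 2 ≤ C * n / p0 := by
      rw [le_div_iff₀ hp0]; linarith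
    have h5 := Real.le_sqrt_of_sq_le h4
    linarith
  · push Not at hm
    linarith

theorem dev_low (hv : HVar C) {n m : ℕ} (hn : 3 ≤ n) (hm : (m : ℝ) ≤ hh n) :
    (1 - satProb 3 n m) * (hh n - m) ^ 2 ≤ C * n :=
  (cheb_lower (satProb_antitone 3 n) (satProb_nonneg 3 n) (satProb_le_one 3 n 0)
      (hv.s1 n hn) (hv.s2 n hn) m hm).trans (hv.var n hn)

theorem qd_three (n : ℕ) (hn : 3 ≤ n) : qd 3 n = (1 - 1 / (n : ℝ)) * (1 - 2 / (n : ℝ)) := by
  unfold qd
  obtain ⟨k, rfl⟩ := Nat.exists_eq_add_of_le hn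
  have h1 : (3 + k).descFactorial 3 = (3 + k) * (2 + k) * (1 + k) := by
    simp only [Nat.descFactorial_succ, Nat.descFactorial_zero]
    have e1 : 3 + k - 2 = 1 + k := by omega
    have e2 : 3 + k - 1 = 2 + k := by omega
    rw [e1, e2, Nat.sub_zero]
    ring
  rw [h1]
  push_cast
  have : (3:ℝ) + k ≠ 0 := by positivity
  field_simp
  ring

theorem qd_three_ge (n : ℕ) (hn : 3 ≤ n) : 1 - 3 / (n : ℝ) ≤ qd 3 n := by
  rw [qd_three n hn]
  have h3 : (3:ℝ) ≤ n := by exact_mod_cast hn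
  have : (1 - 1 / (n : ℝ)) * (1 - 2 / (n : ℝ)) = 1 - 3 / n + 2 / n ^ 2 := by
    field_simp; ring
  rw [this]
  have : (0:ℝ) ≤ 2 / (n : ℝ) ^ 2 := by positivity
  linarith

theorem qd_three_pow (n m : ℕ) (hn : 3 ≤ n) (hm : m ≤ 9 * n) :
    Real.exp (-68) ≤ (qd 3 n) ^ m := by
  have h3 : (3:ℝ) ≤ n := by exact_mod_cast hn
  have hpos1 : (0:ℝ) < 1 - 1 / (n : ℝ) := by
    rw [sub_pos, div_lt_one (by linarith)]; linarith
  have hpos2 : (0:ℝ) < 1 - 2 / (n : ℝ) := by
    rw [sub_pos, div_lt_one (by linarith)]; linarith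
  have hq : 0 < qd 3 n := by rw [qd_three n hn]; positivity
  have hlog : -(7.5 / (n : ℝ)) ≤ Real.log (qd 3 n) := by
    rw [qd_three n hn, Real.log_mul hpos1.ne' hpos2.ne']
    have l1 := Real.one_sub_inv_le_log_of_pos hpos1
    have l2 := Real.one_sub_inv_le_log_of_pos hpos2
    have e1 : 1 - (1 - 1 / (n : ℝ))⁻¹ = -(1 / ((n : ℝ) - 1)) := by
      have : (n : ℝ) - 1 ≠ 0 := by linarith
      have : (n : ℝ) ≠ 0 := by linarith
      field_simp
      ring
    have e2 : 1 - (1 - 2 / (n : ℝ))⁻¹ = -(2 / ((n : ℝ) - 2)) := by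
      have : (n : ℝ) - 2 ≠ 0 := by linarith
      have : (n : ℝ) ≠ 0 := by linarith
      field_simp
      ring
    rw [e1] at l1
    rw [e2] at l2
    have b1 : 1 / ((n : ℝ) - 1) ≤ 1.5 / n := by
      rw [div_le_div_iff₀ (by linarith) (by linarith)]; linarith
    have b2 : 2 / ((n : ℝ) - 2) ≤ 6 / n := by
      rw [div_le_div_iff₀ (by linarith) (by linarith)]; linarith
    have : 7.5 / (n : ℝ) = 1.5 / n + 6 / n := by ring
    linarith
  have : Real.exp (-68) ≤ Real.exp (Real.log (qd 3 n) * m) := by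
    refine Real.exp_le_exp.2 ?_
    have hm' : (m : ℝ) ≤ 9 * n := by exact_mod_cast hm
    have h0 : (0:ℝ) ≤ m := by positivity
    have h1 : -(7.5 / (n : ℝ)) * m ≤ Real.log (qd 3 n) * m := mul_le_mul_of_nonneg_right hlog h0
    have h2 : -(7.5 / (n : ℝ)) * m ≥ -67.5 := by
      have : 7.5 / (n : ℝ) * m ≤ 67.5 := by
        rw [div_mul_eq_mul_div, div_le_iff₀ (by linarith)]; linarith
      linarith
    linarith
  rw [Real.exp_mul, Real.exp_log hq, Real.rpow_natCast] at this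
  exact this

set_option maxHeartbeats 2000000 in
/-- doubling -/
theorem doubling (hv : HVar C) : ∃ K : ℝ, 0 ≤ K ∧ ∀ n : ℕ, 3 ≤ n →
    2 * hh n - K * Real.sqrt n ≤ hh (2 * n) := by
  set c1 := Real.exp (-68) with hc1
  have hc1pos : 0 < c1 := Real.exp_pos _
  have hc1le : c1 ≤ 1 := by rw [hc1]; exact Real.exp_le_one_iff.2 (by norm_num)
  set c3 := (c1 / 4) ^ 2 with hc3
  have hc3pos : 0 < c3 := by positivity
  have hC1 := hv.one_le
  set rC := Real.sqrt C with hrC
  have hrCsq : rC ^ 2 = C := Real.sq_sqrt (by linarith)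
  have hrC0 : 0 ≤ rC := Real.sqrt_nonneg _
  have hrC1 : 1 ≤ rC := by
    rw [hrC]; exact Real.one_le_sqrt.2 hC1
  set s2 := Real.sqrt (36 / c3) with hs2
  have hs2sq : s2 ^ 2 = 36 / c3 := Real.sq_sqrt (by positivity)
  have hs2pos : 0 < s2 := Real.sqrt_pos.2 (by positivity)
  set D := Real.sqrt (4 * C / c3) with hD
  have hD0 : 0 ≤ D := Real.sqrt_nonneg _
  refine ⟨4 * rC + 40 + s2 + D, by positivity, fun n hn => ?_⟩
  have hn3 : (3:ℝ) ≤ n := by exact_mod_cast hn
  set s := Real.sqrt n with hs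
  have hssq : s ^ 2 = n := Real.sq_sqrt (by linarith)
  have hs1 : 1 ≤ s := by rw [hs]; exact Real.one_le_sqrt.2 (by linarith)
  have hs0 : 0 < s := by linarith
  have h2n0 := hh_nonneg (2 * n)
  have hle9 : hh n ≤ 9 * n := tsum_satProb_le n hn
  by_cases hcase : hh n < (2 * rC + 7) * s
  · nlinarith
  push Not at hcase
  set t := 2 * rC * s with ht
  have hht : 7 * s ≤ hh n - t := by rw [ht]; nlinarith
  set m1 := ⌊hh n - t⌋₊ with hm1
  have hm1le : (m1 : ℝ) ≤ hh n - t := Nat.floor_le (by linarith)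
  have hm1ge : hh n - t - 1 < m1 := by
    have := Nat.lt_floor_add_one (hh n - t)
    rw [← hm1] at this
    linarith
  have ht0 : 0 < t := by rw [ht]; positivity
  have hm19 : m1 ≤ 9 * n := by
    have : (m1 : ℝ) ≤ 9 * n := by linarith
    exact_mod_cast this
  -- P n m1 ≥ 1/2
  have hP1 : 1 / 2 ≤ satProb 3 n m1 := by
    have h1 := dev_low hv hn (m := m1) (by linarith)
    have h2 : t ^ 2 ≤ (hh n - m1) ^ 2 := by
      apply pow_le_pow_left₀ ht0.le; linarith
    have h3 : t ^ 2 = 4 * C * n := by rw [ht, mul_pow, mul_pow, hrCsq, hssq]; ring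
    have h4 : 0 ≤ 1 - satProb 3 n m1 := by linarith [satProb_le_one 3 n m1]
    have h5 : (1 - satProb 3 n m1) * (4 * C * n) ≤ C * n := by
      rw [← h3]; exact (mul_le_mul_of_nonneg_left h2 h4).trans h1
    have h6 : 0 < C * n := by positivity
    by_contra hcon
    push Not at hcon
    nlinarith
  have hW1 : c1 / 2 ≤ satWr 3 n m1 := by
    have h1 := satWr_ge 3 n m1 hn (by omega)
    have h2 := qd_three_pow n m1 hn hm19
    have : c1 * (1 / 2) ≤ qd 3 n ^ m1 * satProb 3 n m1 := by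
      apply mul_le_mul h2 hP1 (by norm_num)
      exact pow_nonneg (qd_nonneg _ _) _
    linarith
  set lam := (m1 : ℝ) - 5 * s with hlam
  have hlam0 : 0 < lam := by rw [hlam]; nlinarith
  have hlam9 : lam ≤ 9 * n := by rw [hlam]; nlinarith
  have hPw : c1 / 4 ≤ poiWr 3 n lam := by
    have h1 := poi_ge hlam0.le (satWr_nonneg 3 n) (satWr_le_one 3 n) (satWr_antitone 3 n) m1
      (t := 5 * s) (by positivity) (by rw [hlam]; linarith)
    have h2 : lam / (5 * s) ^ 2 ≤ 9 / 25 := by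
      rw [mul_pow, hssq, div_le_div_iff₀ (by positivity) (by norm_num)]
      linarith
    have h3 : (1 / 2) * satWr 3 n m1 ≤ (1 - lam / (5 * s) ^ 2) * satWr 3 n m1 :=
      mul_le_mul_of_nonneg_right (by linarith) (satWr_nonneg _ _ _)
    unfold poiWr
    linarith
  have hnn : (0:ℝ) < n := by linarith
  have hmul := poiWr_mul 3 n n (by omega) (by omega) (c := lam / n) (by positivity)
  have e1 : lam / n * n = lam := by field_simp
  have e2 : lam / n * ((n:ℝ) + n) = 2 * lam := by field_simp; ring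
  rw [e1, e2] at hmul
  have hc3le : c3 ≤ poiWr 3 (n + n) (2 * lam) := by
    refine le_trans ?_ hmul
    rw [hc3, pow_two]
    exact mul_le_mul hPw hPw (by positivity) (poiWr_nonneg _ _ hlam0.le)
  have hthin := poiWr_le_poiD 3 (n + n) (by omega) (by omega) (lam := 2 * lam) (by positivity)
  set mu := qd 3 (n + n) * (2 * lam) with hmu
  have hmu0 : 0 ≤ mu := mul_nonneg (qd_nonneg _ _) (by positivity)
  have hmu_le : mu ≤ 2 * lam := by
    rw [hmu]; exact mul_le_of_le_one_left (by positivity) (qd_le_one _ _)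
  have hmu_ge : 2 * lam - 27 ≤ mu := by
    have h1 := qd_three_ge (n + n) (by omega)
    have h2 : (1 - 3 / ((n + n : ℕ) : ℝ)) * (2 * lam) ≤ mu := by
      rw [hmu]; exact mul_le_mul_of_nonneg_right h1 (by positivity)
    push_cast at h2
    have h3 : 3 / ((n:ℝ) + n) * (2 * lam) ≤ 27 := by
      rw [div_mul_eq_mul_div, div_le_iff₀ (by linarith)]
      nlinarith
    nlinarith
  by_cases hcase2 : mu < s2 * s
  · nlinarith
  push Not at hcase2
  set m2 := ⌊mu - s2 * s⌋₊ with hm2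
  have hm2le : (m2 : ℝ) ≤ mu - s2 * s := Nat.floor_le (by linarith)
  have hm2ge : mu - s2 * s - 1 < m2 := by
    have := Nat.lt_floor_add_one (mu - s2 * s)
    rw [← hm2] at this
    linarith
  have hP2 : c3 / 2 ≤ satProb 3 (2 * n) m2 := by
    have h1 := poi_le hmu0 (satProb_nonneg 3 (n + n)) (satProb_le_one 3 (n + n))
      (satProb_antitone 3 (n + n)) m2 (t := s2 * s) (by positivity) (by linarith)
    have h2 : mu / (s2 * s) ^ 2 ≤ c3 / 2 := by
      rw [mul_pow, hs2sq, hssq, div_le_iff₀ (by positivity)]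
      have : c3 / 2 * (36 / c3 * n) = 18 * n := by field_simp; ring
      rw [this]; linarith
    unfold poiD at hthin
    have e3 : n + n = 2 * n := by ring
    rw [e3] at h1 hthin hc3le
    linarith
  have h7 := dev_up hv (n := 2 * n) (by omega) (p0 := c3 / 2) (by positivity) hP2
  have e4 : Real.sqrt (C * ((2 * n : ℕ) : ℝ) / (c3 / 2)) = D * s := by
    rw [hD, hs, ← Real.sqrt_mul (by positivity)]
    congr 1
    push_cast
    field_simp
    ring
  rw [e4] at h7
  rw [hlam] at hmu_ge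
  have : t = 2 * rC * s := ht
  nlinarith

/-- iterated doubling -/
theorem doubling_iter {K : ℝ} (hK : 0 ≤ K)
    (h : ∀ n : ℕ, 3 ≤ n → 2 * hh n - K * Real.sqrt n ≤ hh (2 * n)) (n : ℕ) (hn : 3 ≤ n) (j : ℕ) :
    hh n / n - 2 * K / Real.sqrt n + 2 * K / Real.sqrt ((2 ^ j * n : ℕ) : ℝ) ≤
      hh (2 ^ j * n) / ((2 ^ j * n : ℕ) : ℝ) := by
  induction j with
  | zero => simp
  | succ j ih =>
    set N := 2 ^ j * n with hN
    have hN3 : 3 ≤ N := by
      have : 1 ≤ 2 ^ j := Nat.one_le_two_pow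
      nlinarith
    have hNr : (3:ℝ) ≤ N := by exact_mod_cast hN3
    have e : 2 ^ (j + 1) * n = 2 * N := by rw [hN, pow_succ]; ring
    rw [e]
    have h1 := h N hN3
    set s := Real.sqrt N with hs
    have hssq : s ^ 2 = N := Real.sq_sqrt (by linarith)
    have hs0 : 0 < s := Real.sqrt_pos.2 (by linarith)
    have h2 : hh N / N - K / (2 * s) ≤ hh (2 * N) / ((2 * N : ℕ) : ℝ) := by
      push_cast
      rw [le_div_iff₀ (by positivity)]
      have : (hh N / N - K / (2 * s)) * (2 * N) = 2 * hh N - K * s := by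
        rw [← hssq]; field_simp
      rw [this]; exact h1
    have h3 : 2 * K / Real.sqrt ((2 * N : ℕ) : ℝ) ≤ 2 * K / s - K / (2 * s) := by
      push_cast
      rw [Real.sqrt_mul (by norm_num), ← hs]
      have hr2 : (4:ℝ) / 3 ≤ Real.sqrt 2 := by
        rw [show (4:ℝ) / 3 = Real.sqrt ((4 / 3) ^ 2) by rw [Real.sqrt_sq]; norm_num]
        exact Real.sqrt_le_sqrt (by norm_num)
      have h4 : 2 * K / (Real.sqrt 2 * s) ≤ 2 * K / ((4 / 3) * s) := by
        apply div_le_div_of_nonneg_left (by positivity) (by positivity)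
        exact mul_le_mul_of_nonneg_right hr2 hs0.le
      refine h4.trans (le_of_eq ?_)
      field_simp
      ring
    linarith

theorem left_cut_aux {α : ℝ} (hα : IsSharpThreshold (satProb 3) α) (hv : HVar C) {K : ℝ}
    (hK : 0 ≤ K) (h : ∀ n : ℕ, 3 ≤ n → 2 * hh n - K * Real.sqrt n ≤ hh (2 * n))
    (n : ℕ) (hn : 3 ≤ n) : hh n / n - 2 * K / Real.sqrt n ≤ α := by
  by_contra hcon
  push Not at hcon
  have hα0 : 0 ≤ α := by
    by_contra h0
    push Not at h0
    have h1 := (hα 0 le_rfl).2 h0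
    simp only [zero_mul, Nat.floor_zero, satProb_zero] at h1
    exact absurd (tendsto_nhds_unique h1 tendsto_const_nhds) (by norm_num)
  set L := hh n / n - 2 * K / Real.sqrt n with hL
  obtain ⟨a, ha1, ha2⟩ := exists_between hcon
  have ha0 : 0 ≤ a := by linarith
  have ht := (hα a ha0).2 ha1
  have hN : Filter.Tendsto (fun j : ℕ => 2 ^ j * n) Filter.atTop Filter.atTop := by
    refine Filter.tendsto_atTop_mono (fun j => ?_) Filter.tendsto_id
    have : j ≤ 2 ^ j := (Nat.lt_two_pow_self).le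
    simp only [id]
    nlinarith
  have ht2 := ht.comp hN
  -- lower bound for the probability
  have hlow : ∀ j : ℕ, 1 - C / ((L - a) ^ 2 * ((2 ^ j * n : ℕ) : ℝ)) ≤
      satProb 3 (2 ^ j * n) ⌊a * ((2 ^ j * n : ℕ) : ℝ)⌋₊ := by
    intro j
    set N := 2 ^ j * n with hNdef
    have hN3 : 3 ≤ N := by
      have : 1 ≤ 2 ^ j := Nat.one_le_two_pow
      nlinarith
    have hNr : (3:ℝ) ≤ N := by exact_mod_cast hN3
    have h1 := doubling_iter hK h n hn j
    rw [← hNdef] at h1
    have h2 : 0 ≤ 2 * K / Real.sqrt (N : ℝ) := by positivity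
    have h3 : L * N ≤ hh N := by
      have : L ≤ hh N / N := by rw [hL]; linarith
      rwa [le_div_iff₀ (by linarith)] at this
    set m := ⌊a * (N : ℝ)⌋₊ with hm
    have hmle : (m : ℝ) ≤ a * N := Nat.floor_le (by positivity)
    have h4 : (L - a) * N ≤ hh N - m := by nlinarith
    have hLa : 0 < L - a := by linarith
    have h5 := dev_low hv hN3 (m := m) (by nlinarith)
    have h6 : ((L - a) * N) ^ 2 ≤ (hh N - m) ^ 2 := pow_le_pow_left₀ (by positivity) h4 2
    have h7 : 0 ≤ 1 - satProb 3 N m := by linarith [satProb_le_one 3 N m]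
    have h8 : (1 - satProb 3 N m) * ((L - a) * N) ^ 2 ≤ C * N :=
      (mul_le_mul_of_nonneg_left h6 h7).trans h5
    have h9 : 1 - satProb 3 N m ≤ C / ((L - a) ^ 2 * (N : ℝ)) := by
      rw [le_div_iff₀ (by positivity)]
      have : (1 - satProb 3 N m) * ((L - a) * N) ^ 2 =
        ((1 - satProb 3 N m) * ((L - a) ^ 2 * N)) * N := by ring
      rw [this] at h8
      exact le_of_mul_le_mul_right h8 (by linarith)
    linarith
  have hlim : Filter.Tendsto (fun j : ℕ => 1 - C / ((L - a) ^ 2 * ((2 ^ j * n : ℕ) : ℝ)))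
      Filter.atTop (nhds (1 - 0)) := by
    refine Filter.Tendsto.sub tendsto_const_nhds ?_
    have h1 : Filter.Tendsto (fun j : ℕ => (L - a) ^ 2 * ((2 ^ j * n : ℕ) : ℝ)) Filter.atTop
        Filter.atTop :=
      (tendsto_natCast_atTop_atTop.comp hN).const_mul_atTop (by
        have : 0 < L - a := by linarith
        positivity)
    exact h1.const_div_atTop C
  have := le_of_tendsto_of_tendsto' hlim ht2 hlow
  norm_num at this

/-- **Left cut.** -/
theorem left_cut {α : ℝ} (hα : IsSharpThreshold (satProb 3) α)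
    (hvar : ∃ C : ℝ, ∀ n : ℕ, 3 ≤ n →
      Summable (fun m : ℕ => satProb 3 n m) ∧
      Summable (fun m : ℕ => (2 * (m : ℝ) + 1) * satProb 3 n m) ∧
      (∑' m : ℕ, (2 * (m : ℝ) + 1) * satProb 3 n m)
          - (∑' m : ℕ, satProb 3 n m) ^ 2 ≤ C * n) :
    ∃ C : ℝ, 0 ≤ C ∧ ∀ n m : ℕ, 3 ≤ n → (1 : ℝ) / 2 ≤ satProb 3 n m →
      (m : ℝ) / n ≤ α + C / Real.sqrt n := by
  obtain ⟨C0, hC0⟩ := hvar
  have hv : HVar (max C0 1) :=
    { one_le := le_max_right _ _
      s1 := fun n hn => (hC0 n hn).1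
      s2 := fun n hn => (hC0 n hn).2.1
      var := fun n hn => ((hC0 n hn).2.2).trans
        (mul_le_mul_of_nonneg_right (le_max_left _ _) (by positivity)) }
  set C := max C0 1
  obtain ⟨K, hK, hd⟩ := doubling hv
  refine ⟨2 * K + Real.sqrt (2 * C), by positivity, fun n m hn hP => ?_⟩
  have h1 := left_cut_aux hα hv hK hd n hn
  have h2 := dev_up hv hn (p0 := 1 / 2) (by norm_num) hP
  have hn3 : (3:ℝ) ≤ n := by exact_mod_cast hn
  have hs0 : 0 < Real.sqrt n := Real.sqrt_pos.2 (by linarith)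
  have hssq : Real.sqrt n ^ 2 = n := Real.sq_sqrt (by linarith)
  have e1 : Real.sqrt (C * n / (1 / 2)) = Real.sqrt (2 * C) * Real.sqrt n := by
    have hC1 : 1 ≤ C := le_max_right _ _
    rw [← Real.sqrt_mul (by positivity)]
    congr 1; ring
  rw [e1] at h2
  have h3 : (m : ℝ) / n ≤ hh n / n + Real.sqrt (2 * C) / Real.sqrt n := by
    rw [div_le_iff₀ (by linarith)]
    have : (hh n / n + Real.sqrt (2 * C) / Real.sqrt n) * n =
        hh n + Real.sqrt (2 * C) * Real.sqrt n := by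
      have hne : (n:ℝ) ≠ 0 := by linarith
      rw [add_mul, div_mul_cancel₀ _ hne]
      congr 1
      rw [div_mul_eq_mul_div, div_eq_iff hs0.ne', mul_assoc, ← pow_two, hssq]
    rw [this]; exact h2
  have h4 : (2 * K + Real.sqrt (2 * C)) / Real.sqrt n =
      2 * K / Real.sqrt n + Real.sqrt (2 * C) / Real.sqrt n := by ring
  linarith

end Crest.Agent.R153.Wr
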