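import Crest.Agent.R153.Basic

/-! Row 153: violated clauses, minimal cost, levels (helper211). Independent of the state type used in
`Defs`. -/

set_option autoImplicit false

open Crest.ProbabilityR.RandomSAT

namespace Crest.Agent.R153

variable {k n : ℕ}

open Classical in
/-- `1` if the clause is violated by `σ`, else `0` -/
noncomputable def viol (σ : Asg n) (c : Clause k n) : ℕ := if ClauseSat σ c then 0 else 1

/-- number of clauses of the list `F` violated by `σ` -/
noncomputable def vc (σ : Asg n) (F : List (Clause k n)) : ℕ := (F.map (viol σ)).sum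

/-- minimal number of violated clauses of the list `F` -/
noncomputable def mc (F : List (Clause k n)) : ℕ :=
  Finset.univ.inf' Finset.univ_nonempty (fun σ : Asg n => vc σ F)

/-- minimal number of violated clauses of the formula `F : Fin m → Clause k n` -/
noncomputable def minUnsat {m : ℕ} (F : Fin m → Clause k n) : ℕ :=
  Finset.univ.inf' Finset.univ_nonempty (fun σ : Asg n => ∑ i, viol σ (F i))

theorem viol_le_one (σ : Asg n) (c : Clause k n) : viol σ c ≤ 1 := by
  unfold viol; split_ifs <;> norm_num

theorem viol_eq_zero {σ : Asg n} {c : Clause k n} : viol σ c = 0 ↔ ClauseSat σ c := by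
  unfold viol; split_ifs with h <;> simp [h]

theorem viol_eq_one {σ : Asg n} {c : Clause k n} : viol σ c = 1 ↔ ¬ ClauseSat σ c := by
  unfold viol; split_ifs with h <;> simp [h]

@[simp] theorem vc_nil (σ : Asg n) : vc σ ([] : List (Clause k n)) = 0 := rfl

@[simp] theorem vc_cons (σ : Asg n) (c : Clause k n) (F : List (Clause k n)) :
    vc σ (c :: F) = viol σ c + vc σ F := rfl

@[simp] theorem vc_append (σ : Asg n) (F G : List (Clause k n)) :
    vc σ (F ++ G) = vc σ F + vc σ G := by
  simp [vc]

theorem vc_perm (σ : Asg n) {F G : List (Clause k n)} (h : F.Perm G) : vc σ F = vc σ G :=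
  (h.map _).sum_eq

theorem vc_le_length (σ : Asg n) (F : List (Clause k n)) : vc σ F ≤ F.length := by
  induction F with
  | nil => simp
  | cons c F ih =>
    have := viol_le_one σ c
    simp only [vc_cons, List.length_cons]; omega

theorem vc_sublist (σ : Asg n) {F G : List (Clause k n)} (h : F.Sublist G) : vc σ F ≤ vc σ G := by
  induction h with
  | slnil => simp
  | cons a _ ih => simp only [vc_cons]; omega
  | cons_cons a _ ih => simp only [vc_cons]; omega

theorem vc_ofFn {m : ℕ} (σ : Asg n) (F : Fin m → Clause k n) :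
    vc σ (List.ofFn F) = ∑ i, viol σ (F i) := by
  unfold vc
  rw [List.map_ofFn, List.sum_ofFn]
  rfl

theorem mc_le (σ : Asg n) (F : List (Clause k n)) : mc F ≤ vc σ F :=
  Finset.inf'_le _ (Finset.mem_univ σ)

theorem exists_mc (F : List (Clause k n)) : ∃ σ : Asg n, vc σ F = mc F := by
  obtain ⟨σ, _, h⟩ := Finset.exists_mem_eq_inf' (Finset.univ_nonempty (α := Asg n))
    (fun σ => vc σ F)
  exact ⟨σ, h.symm⟩

theorem mc_le_iff {F : List (Clause k n)} {J : ℕ} : mc F ≤ J ↔ ∃ σ : Asg n, vc σ F ≤ J := by
  constructor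
  · intro h
    obtain ⟨σ, hσ⟩ := exists_mc F
    exact ⟨σ, hσ.trans_le h⟩
  · rintro ⟨σ, hσ⟩
    exact (mc_le σ F).trans hσ

theorem mc_perm {F G : List (Clause k n)} (h : F.Perm G) : mc F = mc G := by
  unfold mc
  congr 1
  funext σ
  exact vc_perm σ h

theorem mc_sublist {F G : List (Clause k n)} (h : F.Sublist G) : mc F ≤ mc G := by
  obtain ⟨σ, hσ⟩ := exists_mc G
  exact (mc_le σ F).trans ((vc_sublist σ h).trans hσ.le)

theorem mc_le_length (F : List (Clause k n)) : mc F ≤ F.length :=
  (mc_le (fun _ => true) F).trans (vc_le_length _ F)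

@[simp] theorem mc_nil : mc ([] : List (Clause k n)) = 0 := by
  have := mc_le_length ([] : List (Clause k n))
  simpa using this

theorem mc_ofFn {m : ℕ} (F : Fin m → Clause k n) : mc (List.ofFn F) = minUnsat F := by
  unfold mc minUnsat
  congr 1
  funext σ
  exact vc_ofFn σ F

theorem satisfiable_iff_minUnsat {m : ℕ} (F : Fin m → Clause k n) :
    Satisfiable F ↔ minUnsat F = 0 := by
  rw [← mc_ofFn, ← Nat.le_zero, mc_le_iff]
  refine exists_congr fun σ => ?_
  rw [Nat.le_zero, vc_ofFn, Finset.sum_eq_zero_iff]
  simp only [Finset.mem_univ, true_implies, viol_eq_zero]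

end Crest.Agent.R153
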