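import Mathlib
import Crest.Agent.R153.SatTrial
import Crest.Agent.R153.CutTools
import Crest.Agent.R153.LevelDefs

/-! Row 153: the pressure of soft 3-SAT as a Poisson sum of finite averages (helper888). -/

set_option autoImplicit false

open MeasureTheory Crest.ProbabilityR.Diluted Crest.ProbabilityR.RandomSAT
open Crest.Agent.R153.Wr

namespace Crest.Agent.R153.Br

/-- `1` if the with-repetition clause `c` is violated by `σ`, else `0` -/
def wv {N : ℕ} (σ : Fin N → Bool) (c : WClause 3 (Fin N)) : ℕ :=
  if ∀ i, σ (c i).1 = !(c i).2 then 1 else 0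

/-- `log Z` of a with-repetition formula -/
noncomputable def logZ (β : ℝ) {N M : ℕ} (F : Fin M → WClause 3 (Fin N)) : ℝ :=
  Real.log (∑ σ : Fin N → Bool, Real.exp (-β * ∑ j, (wv σ (F j) : ℝ)))

theorem logPartition_eq (β : ℝ) {N M : ℕ} (J : Fin M → Fin 3 → Bool)
    (idx : Fin M → Fin 3 → Fin N) :
    logPartition N (fun j => satInter β (J j)) idx (fun _ => 0) =
      logZ β (fun j i => (idx j i, !(J j i))) := by
  unfold logPartition logZ
  congr 1
  refine Finset.sum_congr rfl fun σ _ => ?_
  congr 1
  rw [Finset.mul_sum]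
  simp only [zero_mul, Finset.sum_const_zero, add_zero]
  refine Finset.sum_congr rfl fun j _ => ?_
  unfold satInter wv
  by_cases h : (fun ℓ => σ (idx j ℓ)) = J j
  · rw [if_pos h, if_pos (fun i => by have := congrFun h i; simpa using this)]
    simp
  · rw [if_neg h, if_neg (fun h' => h (funext fun i => by simpa using h' i))]
    simp

theorem pi_dirac_zero (N : ℕ) : (Measure.pi fun _ : Fin N => Measure.dirac (0 : ℝ)) =
    Measure.dirac (fun _ : Fin N => (0 : ℝ)) := by
  refine (Measure.pi_eq fun s hs => ?_)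
  rw [Measure.dirac_apply' _ (.univ_pi hs)]
  by_cases h : ∀ i, (0 : ℝ) ∈ s i
  · rw [Set.indicator_of_mem (by simpa [Set.mem_univ_pi] using h)]
    refine (Finset.prod_eq_one fun i _ => ?_).symm
    rw [Measure.dirac_apply' _ (hs i), Set.indicator_of_mem (h i)]; rfl
  · rw [Set.indicator_of_notMem (by simpa [Set.mem_univ_pi] using h)]
    push Not at h
    obtain ⟨i, hi⟩ := h
    refine (Finset.prod_eq_zero (Finset.mem_univ i) ?_).symm
    rw [Measure.dirac_apply' _ (hs i), Set.indicator_of_notMem hi]

/-- the reparametrisation of clauses -/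
def clEquiv (N M : ℕ) : ((Fin M → Fin 3 → Bool) × (Fin M → Fin 3 → Fin N)) ≃
    (Fin M → WClause 3 (Fin N)) where
  toFun p := fun j i => (p.2 j i, !(p.1 j i))
  invFun F := (fun j i => !(F j i).2, fun j i => (F j i).1)
  left_inv p := by simp
  right_inv F := by simp

theorem pressure_muSAT (a β : ℝ) (N : ℕ) :
    pressure 3 a (muSAT β) (Measure.dirac 0) N =
      (1 / (N : ℝ)) * ∑' M : ℕ, pw (a * N) M *
        avg (fun F : Fin M → WClause 3 (Fin N) => logZ β F) := by
  unfold pressure
  congr 1
  refine tsum_congr fun M => ?_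
  have e0 : poissonWeight (a * N) M = pw (a * N) M := rfl
  rw [e0]
  congr 1
  rw [integral_pi_muSAT]
  have hd : (Measure.pi fun _ : Fin N => Measure.dirac (0 : ℝ)) =
      Measure.dirac (fun _ : Fin N => (0 : ℝ)) := by
    exact pi_dirac_zero N
  simp only [hd, integral_dirac, logPartition_eq]
  unfold avg
  rw [← (clEquiv N M).sum_comp, Fintype.sum_prod_type, Fintype.card_congr (clEquiv N M).symm,
    Fintype.card_prod]
  simp only [clEquiv, Equiv.coe_fn_mk]
  rw [← Finset.mul_sum]
  have h8 : (Fintype.card (Fin M → Fin 3 → Bool) : ℝ) = 8 ^ M := by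
    simp only [Fintype.card_fun, Fintype.card_bool, Fintype.card_fin]
    push_cast
    norm_num
  push_cast
  rw [h8, div_eq_mul_inv, mul_inv]
  ring

end Crest.Agent.R153.Br
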