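import Mathlib
import Crest.Prelude.Def_RandomSAT
import Crest.Prelude.Def_DilutedSpinGlass
import Crest.Agent.R141.RedP
import Crest.Agent.R153.SatTrial
import Crest.Agent.R153.InterpDist
import Crest.Agent.R153.CutTools
import Crest.Agent.R153.LeftCut

/-!
Row 153, RC1 (helper776): below the threshold the pressure of the soft 3-SAT model (with
repetitions, Poisson number of clauses) is eventually at least `-ε`, for every inverse
temperature.
-/

set_option autoImplicit false
set_option linter.unusedVariables false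

namespace Crest.Agent.R153.Wr

open Finset MeasureTheory Filter Topology Crest.ProbabilityR.RandomSAT Crest.ProbabilityR.Diluted
open Crest.Agent.R141.Red (avgLP lpInt pressure_eq)

/-- combined data of a clause of the diluted model: index triple and violating pattern -/
abbrev CC (N : ℕ) : Type := (Fin 3 → Fin N) × (Fin 3 → Bool)

/-- assignments satisfying the clause if its variables are distinct (no constraint otherwise) -/
def satC (N : ℕ) (c : CC N) : Set (Fin N → Bool) :=
  {σ | Function.Injective c.1 → (fun ℓ => σ (c.1 ℓ)) ≠ c.2}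

noncomputable def AA (N : ℕ) : Module.End ℝ (Set (Fin N → Bool) → ℝ) :=
  TT (satC N) (fun _ => 1 / (Fintype.card (CC N) : ℝ))

theorem AA_mono (N : ℕ) : MonoOp (AA N) := TT_mono _ _ fun _ => by positivity

theorem card_CC (N : ℕ) : Fintype.card (CC N) = N ^ 3 * 2 ^ 3 := by
  rw [Fintype.card_prod, Fintype.card_fun, Fintype.card_fun, Fintype.card_bool, Fintype.card_fin,
    Fintype.card_fin]

/-- clauses with distinct variables: violating pattern ↔ required pattern -/
def ccEquiv (N : ℕ) : {c : CC N // Function.Injective c.1} ≃ Clause 3 N where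
  toFun c := (⟨c.1.1, c.2⟩, fun i => !(c.1.2 i))
  invFun c := ⟨(c.1.1, fun i => !(c.2 i)), c.1.2⟩
  left_inv c := by
    obtain ⟨⟨v, s⟩, h⟩ := c
    simp
  right_inv c := by
    obtain ⟨⟨v, h⟩, s⟩ := c
    simp

theorem satC_of_inj (N : ℕ) (c : {c : CC N // Function.Injective c.1}) :
    satC N c.1 = satD 3 N (ccEquiv N c) := by
  obtain ⟨⟨v, s⟩, h⟩ := c
  ext σ
  simp only [satC, satD, ClauseSat, ccEquiv, Set.mem_ofPred_eq, Equiv.coe_fn_mk]
  constructor
  · intro h1
    have h2 := h1 h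
    by_contra h3
    push Not at h3
    apply h2
    funext ℓ
    have := h3 ℓ
    revert this
    cases σ (v ℓ) <;> cases s ℓ <;> simp
  · rintro ⟨i, hi⟩ _ h3
    have := congrFun h3 i
    rw [hi] at this
    revert this
    cases s i <;> simp

theorem satC_of_not_inj (N : ℕ) (c : CC N) (h : ¬ Function.Injective c.1) :
    satC N c = Set.univ := by
  ext σ
  simp [satC, h]

theorem AA_apply (N : ℕ) (hN : 3 ≤ N) (φ : Set (Fin N → Bool) → ℝ) (S : Set (Fin N → Bool)) :
    AA N φ S = qd 3 N * DD 3 N φ S + (1 - qd 3 N) * φ S := by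
  classical
  have hN0 : (0:ℝ) < N := by
    have : 0 < N := by omega
    exact_mod_cast this
  have hd : (0:ℝ) < N.descFactorial 3 := by exact_mod_cast Nat.descFactorial_pos.2 hN
  unfold AA DD
  rw [TT_apply, TT_apply]
  rw [← Fintype.sum_subtype_add_sum_subtype (fun c : CC N => Function.Injective c.1)]
  have hcard : (Fintype.card (CC N) : ℝ) = (N:ℝ) ^ 3 * 8 := by
    rw [card_CC]; push_cast; norm_num
  have hcl : (Fintype.card (Clause 3 N) : ℝ) = (N.descFactorial 3 : ℝ) * 8 := by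
    rw [card_clause]; push_cast; norm_num
  congr 1
  · rw [← (ccEquiv N).sum_comp, Finset.mul_sum]
    refine Finset.sum_congr rfl fun c _ => ?_
    rw [satC_of_inj, ← mul_assoc]
    congr 1
    rw [hcard, hcl]
    unfold qd
    field_simp
  · have h1 : ∀ c : {c : CC N // ¬ Function.Injective c.1},
        1 / (Fintype.card (CC N) : ℝ) * φ (S ∩ satC N c.1) =
        1 / (Fintype.card (CC N) : ℝ) * φ S := by
      intro c
      rw [satC_of_not_inj N c.1 c.2, Set.inter_univ]
    rw [Finset.sum_congr rfl fun c _ => h1 c, Finset.sum_const, Finset.card_univ, nsmul_eq_mul,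
      ← mul_assoc]
    congr 1
    have h2 : (Fintype.card {c : CC N // ¬ Function.Injective c.1} : ℝ) =
        (N:ℝ) ^ 3 * 8 - (N.descFactorial 3 : ℝ) * 8 := by
      rw [Fintype.card_subtype_compl, Fintype.card_congr (ccEquiv N), Nat.cast_sub, hcard, hcl]
      rw [← Fintype.card_congr (ccEquiv N)]
      exact Fintype.card_subtype_le _
    rw [h2, hcard]
    unfold qd
    field_simp

theorem AA_eq (N : ℕ) (hN : 3 ≤ N) : AA N = qd 3 N • DD 3 N + (1 - qd 3 N) • 1 := by
  refine LinearMap.ext fun φ => ?_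
  funext S
  rw [AA_apply N hN]
  rfl

theorem satProb_le_AA (N M : ℕ) (hN : 3 ≤ N) : satProb 3 N M ≤ ((AA N) ^ M) φ0 Set.univ := by
  rw [satProb_eq]
  have hle : DD 3 N φ0 ≤ AA N φ0 := by
    intro S
    rw [AA_apply N hN]
    have h1 := DD_φ0_le 3 N S
    have h2 := qd_le_one 3 N
    nlinarith
  have hc : Commute (AA N) (DD 3 N) := TT_comm _ _ _ _
  exact pow_le_pow_of_comm (AA_mono N) (DD_mono 3 N) hc hle M Set.univ

/-! ### lower bound on the log partition function -/

/-- number of repeated-variable clauses -/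
noncomputable def bad {N : ℕ} (c : CC N) : ℝ := by
  classical exact if Function.Injective c.1 then 0 else 1

theorem bad_nonneg {N : ℕ} (c : CC N) : 0 ≤ bad c := by
  unfold bad; split_ifs <;> norm_num

theorem satInter_ge {β : ℝ} (hβ : 0 ≤ β) (J s : Fin 3 → Bool) : -β ≤ satInter β J s := by
  unfold satInter; split_ifs
  · exact le_refl _
  · linarith

theorem logPartition_ge {β : ℝ} (hβ : 0 ≤ β) (N M : ℕ) (F : Fin M → CC N) :
    -(β * (∑ k, bad (F k) + M * (1 - φ0 (⋂ k, satC N (F k))))) ≤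
      logPartition N (fun k => satInter β (F k).2) (fun k => (F k).1) 0 := by
  classical
  have key : ∀ σ : Fin N → Bool, ∀ e : ℝ, e ≤ ∑ k : Fin M,
      satInter β (F k).2 (fun ℓ => σ ((F k).1 ℓ)) →
      e ≤ logPartition N (fun k => satInter β (F k).2) (fun k => (F k).1) 0 := by
    intro σ e he
    unfold logPartition
    rw [Real.le_log_iff_exp_le (Finset.sum_pos (fun _ _ => Real.exp_pos _) Finset.univ_nonempty)]
    have h1 : Real.exp e ≤ Real.exp ((∑ k : Fin M,
        satInter β (F k).2 (fun ℓ => σ ((F k).1 ℓ))) + ∑ i : Fin N, (0 : Fin N → ℝ) i * spinVal (σ i)) := by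
      apply Real.exp_le_exp.2
      simpa using he
    refine h1.trans ?_
    exact Finset.single_le_sum (f := fun σ : Fin N → Bool => Real.exp ((∑ k : Fin M,
        satInter β (F k).2 (fun ℓ => σ ((F k).1 ℓ))) + ∑ i : Fin N, (0 : Fin N → ℝ) i * spinVal (σ i)))
        (fun _ _ => (Real.exp_pos _).le) (Finset.mem_univ σ)
  by_cases h : (⋂ k, satC N (F k)).Nonempty
  · obtain ⟨σ, hσ⟩ := h
    rw [φ0_of_nonempty ⟨σ, hσ⟩]
    refine key σ _ ?_
    rw [sub_self, mul_zero, add_zero, Finset.mul_sum, ← Finset.sum_neg_distrib]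
    refine Finset.sum_le_sum fun k _ => ?_
    by_cases hk : Function.Injective (F k).1
    · have h1 : (fun ℓ => σ ((F k).1 ℓ)) ≠ (F k).2 := (Set.mem_iInter.1 hσ k) hk
      have h2 : bad (F k) = 0 := by simp [bad, hk]
      rw [h2]
      unfold satInter
      rw [if_neg h1]
      simp
    · have h2 : bad (F k) = 1 := by simp [bad, hk]
      rw [h2, mul_one]
      exact satInter_ge hβ _ _
  · rw [φ0_of_empty h]
    refine key (fun _ => true) _ ?_
    have h1 : ∑ k : Fin M, (-β) ≤ ∑ k : Fin M,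
        satInter β (F k).2 (fun ℓ => (fun _ => true : Fin N → Bool) ((F k).1 ℓ)) :=
      Finset.sum_le_sum fun k _ => satInter_ge hβ _ _
    refine le_trans ?_ h1
    rw [Finset.sum_const, Finset.card_univ, Fintype.card_fin, nsmul_eq_mul]
    have h2 : 0 ≤ ∑ k, bad (F k) := Finset.sum_nonneg fun k _ => bad_nonneg _
    nlinarith [mul_nonneg hβ h2]

/-- average over sequences of a sum of one-clause functions -/
theorem avg_sum (N M : ℕ) (hN : 0 < N) (f : CC N → ℝ) :
    ∑ F : Fin M → CC N, (1 / (Fintype.card (CC N) : ℝ)) ^ M * ∑ k, f (F k) =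
      M * ((1 / (Fintype.card (CC N) : ℝ)) * ∑ c, f c) := by
  classical
  have hC : (Fintype.card (CC N) : ℝ) ≠ 0 := by
    rw [card_CC]
    have : 0 < N ^ 3 * 2 ^ 3 := by positivity
    exact_mod_cast this.ne'
  have h1 : ∀ M : ℕ, ∑ F : Fin M → CC N, (1 / (Fintype.card (CC N) : ℝ)) ^ M = 1 := by
    intro M
    rw [Finset.sum_const, Finset.card_univ, Fintype.card_fun, Fintype.card_fin, nsmul_eq_mul]
    push_cast
    rw [← mul_pow, mul_one_div_cancel hC, one_pow]
  induction M with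
  | zero => simp
  | succ M ih =>
    rw [← (Fin.consEquiv (fun _ : Fin (M + 1) => CC N)).sum_comp, Fintype.sum_prod_type]
    simp only [Fin.consEquiv_apply, Fin.sum_univ_succ, Fin.cons_zero, Fin.cons_succ]
    have h2 : ∀ c : CC N, ∑ F : Fin M → CC N, (1 / (Fintype.card (CC N) : ℝ)) ^ (M + 1) *
        (f c + ∑ k, f (F k)) = (1 / (Fintype.card (CC N) : ℝ)) * f c +
          (1 / (Fintype.card (CC N) : ℝ)) * (M * ((1 / (Fintype.card (CC N) : ℝ)) * ∑ c, f c)) := by
      intro c
      rw [← ih, Finset.mul_sum]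
      have : ∀ F : Fin M → CC N, (1 / (Fintype.card (CC N) : ℝ)) ^ (M + 1) * (f c + ∑ k, f (F k)) =
          (1 / (Fintype.card (CC N) : ℝ)) * f c * (1 / (Fintype.card (CC N) : ℝ)) ^ M +
          (1 / (Fintype.card (CC N) : ℝ)) * ((1 / (Fintype.card (CC N) : ℝ)) ^ M * ∑ k, f (F k)) := by
        intro F; rw [pow_succ]; ring
      rw [Finset.sum_congr rfl fun F _ => this F, Finset.sum_add_distrib, ← Finset.mul_sum, h1,
        mul_one]
    rw [Finset.sum_congr rfl fun c _ => h2 c, Finset.sum_add_distrib, Finset.sum_const,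
      Finset.card_univ, nsmul_eq_mul, ← Finset.mul_sum]
    push_cast
    field_simp
    ring

theorem avg_bad (N : ℕ) (hN : 3 ≤ N) :
    (1 / (Fintype.card (CC N) : ℝ)) * ∑ c : CC N, bad c = 1 - qd 3 N := by
  classical
  have hN0 : (0:ℝ) < N := by
    have : 0 < N := by omega
    exact_mod_cast this
  have hcard : (Fintype.card (CC N) : ℝ) = (N:ℝ) ^ 3 * 8 := by
    rw [card_CC]; push_cast; norm_num
  have hcl : (Fintype.card (Clause 3 N) : ℝ) = (N.descFactorial 3 : ℝ) * 8 := by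
    rw [card_clause]; push_cast; norm_num
  have h2 : (Fintype.card {c : CC N // ¬ Function.Injective c.1} : ℝ) =
      (N:ℝ) ^ 3 * 8 - (N.descFactorial 3 : ℝ) * 8 := by
    rw [Fintype.card_subtype_compl, Fintype.card_congr (ccEquiv N), Nat.cast_sub, hcard, hcl]
    rw [← Fintype.card_congr (ccEquiv N)]
    exact Fintype.card_subtype_le _
  rw [← Fintype.sum_subtype_add_sum_subtype (fun c : CC N => Function.Injective c.1)]
  have e1 : ∑ c : {c : CC N // Function.Injective c.1}, bad c.1 = 0 :=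
    Finset.sum_eq_zero fun c _ => by simp [bad, c.2]
  have e2 : ∑ c : {c : CC N // ¬ Function.Injective c.1}, bad c.1 =
      (Fintype.card {c : CC N // ¬ Function.Injective c.1} : ℝ) := by
    rw [Finset.sum_congr rfl fun c _ => (by simp [bad, c.2] : bad c.1 = 1)]
    simp
  rw [e1, e2, h2, hcard, zero_add]
  unfold qd
  field_simp

/-- integral against a product of point masses at zero -/
theorem integral_pi_dirac_zero (N : ℕ) (f : (Fin N → ℝ) → ℝ) :
    ∫ hs, f hs ∂(Measure.pi fun _ : Fin N => (Measure.dirac (0:ℝ))) = f 0 := by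
  have h : (Measure.pi fun _ : Fin N => (Measure.dirac (0:ℝ))) = Measure.dirac (0 : Fin N → ℝ) := by
    refine Measure.pi_eq fun s hs => ?_
    rw [Measure.dirac_apply' _ (.univ_pi hs)]
    simp only [Measure.dirac_apply' _ (hs _)]
    by_cases h : ∀ i, (0:ℝ) ∈ s i
    · rw [Set.indicator_of_mem (by simpa [Set.mem_univ_pi] using h)]
      refine (Finset.prod_eq_one fun i _ => ?_).symm
      rw [Set.indicator_of_mem (h i)]; rfl
    · rw [Set.indicator_of_notMem (by simpa [Set.mem_univ_pi] using h)]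
      push Not at h
      obtain ⟨i, hi⟩ := h
      refine (Finset.prod_eq_zero (Finset.mem_univ i) ?_).symm
      rw [Set.indicator_of_notMem hi]
  rw [h]
  exact integral_dirac _ _

theorem lpInt_eq (β : ℝ) (N M : ℕ) :
    lpInt 3 (muSAT β) (Measure.dirac 0) N M =
      ∑ F : Fin M → CC N, (1 / (Fintype.card (CC N) : ℝ)) ^ M *
        logPartition N (fun k => satInter β (F k).2) (fun k => (F k).1) 0 := by
  unfold lpInt avgLP
  simp only [integral_pi_dirac_zero]
  rw [integral_pi_muSAT]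
  simp only [Finset.mul_sum]
  rw [← (Equiv.arrowProdEquivProdArrow (Fin M) (fun _ => Fin 3 → Fin N)
    (fun _ => Fin 3 → Bool)).symm.sum_comp, Fintype.sum_prod_type, Finset.sum_comm]
  refine Finset.sum_congr rfl fun J _ => Finset.sum_congr rfl fun idx _ => ?_
  rw [← mul_assoc]
  congr 1
  rw [card_CC, Fintype.card_fun, Fintype.card_fun, Fintype.card_fin, Fintype.card_fin,
    Fintype.card_fin]
  push_cast
  rw [one_div, mul_inv, mul_pow, inv_pow, inv_pow, mul_comm]

theorem lpInt_ge {β : ℝ} (hβ : 0 ≤ β) (N M : ℕ) (hN : 3 ≤ N) :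
    -(β * (M * (1 - qd 3 N) + M * (1 - satProb 3 N M))) ≤
      lpInt 3 (muSAT β) (Measure.dirac 0) N M := by
  classical
  rw [lpInt_eq]
  have hC : (Fintype.card (CC N) : ℝ) ≠ 0 := by
    rw [card_CC]
    have : 0 < N ^ 3 * 2 ^ 3 := by positivity
    exact_mod_cast this.ne'
  have h0 : ∑ F : Fin M → CC N, (1 / (Fintype.card (CC N) : ℝ)) ^ M = 1 := by
    rw [Finset.sum_const, Finset.card_univ, Fintype.card_fun, Fintype.card_fin, nsmul_eq_mul]
    push_cast
    rw [← mul_pow, mul_one_div_cancel hC, one_pow]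
  have h1 := avg_sum N M (by omega) (fun c => bad c)
  have h2 : ((AA N) ^ M) φ0 Set.univ = ∑ F : Fin M → CC N, (1 / (Fintype.card (CC N) : ℝ)) ^ M *
      φ0 (⋂ k, satC N (F k)) := by
    unfold AA
    rw [TT_pow_apply]
    simp only [Finset.prod_const, Finset.card_univ, Fintype.card_fin, Set.univ_inter]
  have h3 : ∑ F : Fin M → CC N, (1 / (Fintype.card (CC N) : ℝ)) ^ M *
      (-(β * (∑ k, bad (F k) + M * (1 - φ0 (⋂ k, satC N (F k)))))) =
      -(β * (M * (1 - qd 3 N) + M * (1 - ((AA N) ^ M) φ0 Set.univ))) := by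
    rw [avg_bad N hN] at h1
    rw [h2, ← h1]
    have : ∀ F : Fin M → CC N, (1 / (Fintype.card (CC N) : ℝ)) ^ M *
      (-(β * (∑ k, bad (F k) + M * (1 - φ0 (⋂ k, satC N (F k)))))) =
        (-β) * ((1 / (Fintype.card (CC N) : ℝ)) ^ M * ∑ k, bad (F k)) +
        ((-β) * M * (1 / (Fintype.card (CC N) : ℝ)) ^ M -
        (-β) * M * ((1 / (Fintype.card (CC N) : ℝ)) ^ M * φ0 (⋂ k, satC N (F k)))) := by
      intro F; ring
    have e1 : ∑ F : Fin M → CC N, (-β) * ((1 / (Fintype.card (CC N) : ℝ)) ^ M * ∑ k, bad (F k)) =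
        (-β) * ∑ F : Fin M → CC N, ((1 / (Fintype.card (CC N) : ℝ)) ^ M * ∑ k, bad (F k)) := by
      rw [Finset.mul_sum]
    have e2 : ∑ F : Fin M → CC N, (-β) * M * (1 / (Fintype.card (CC N) : ℝ)) ^ M =
        (-β) * M * ∑ F : Fin M → CC N, (1 / (Fintype.card (CC N) : ℝ)) ^ M := by
      rw [Finset.mul_sum]
    have e3 : ∑ F : Fin M → CC N, (-β) * M * ((1 / (Fintype.card (CC N) : ℝ)) ^ M *
          φ0 (⋂ k, satC N (F k))) =
        (-β) * M * ∑ F : Fin M → CC N, ((1 / (Fintype.card (CC N) : ℝ)) ^ M *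
          φ0 (⋂ k, satC N (F k))) := by
      rw [Finset.mul_sum]
    rw [Finset.sum_congr rfl fun F _ => this F, Finset.sum_add_distrib, Finset.sum_sub_distrib,
      e1, e2, e3, h0]
    ring
  have h4 : ∑ F : Fin M → CC N, (1 / (Fintype.card (CC N) : ℝ)) ^ M *
      (-(β * (∑ k, bad (F k) + M * (1 - φ0 (⋂ k, satC N (F k)))))) ≤
      ∑ F : Fin M → CC N, (1 / (Fintype.card (CC N) : ℝ)) ^ M *
        logPartition N (fun k => satInter β (F k).2) (fun k => (F k).1) 0 :=
    Finset.sum_le_sum fun F _ => mul_le_mul_of_nonneg_left (logPartition_ge hβ N M F)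
      (by positivity)
  rw [h3] at h4
  refine le_trans ?_ h4
  have h5 := satProb_le_AA N M hN
  have h6 : (0:ℝ) ≤ M := Nat.cast_nonneg _
  have h7 : (M:ℝ) * (1 - ((AA N) ^ M) φ0 Set.univ) ≤ M * (1 - satProb 3 N M) := by
    apply mul_le_mul_of_nonneg_left _ h6
    linarith
  have h8 := mul_le_mul_of_nonneg_left h7 hβ
  nlinarith

/-! ### Poisson average -/

theorem poi_loss {lam : ℝ} (h : 0 ≤ lam) {P : ℕ → ℝ} (hP : Antitone P) (hP0 : ∀ m, 0 ≤ P m)
    (hP1 : ∀ m, P m ≤ 1) (m1 : ℕ) (hm : lam < m1) :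
    Summable (fun M : ℕ => pw lam M * (M * (1 - P M))) ∧
    ∑' M : ℕ, pw lam M * (M * (1 - P M)) ≤ lam * (1 - P m1) + lam ^ 2 / ((m1 : ℝ) - lam) ^ 2 := by
  have hd : 0 < (m1 : ℝ) - lam := by linarith
  have hsumm : Summable (fun M : ℕ => pw lam M * (M * (1 - P M))) := by
    refine Summable.of_nonneg_of_le (fun M => ?_) (fun M => ?_) (pw_moment_one lam).summable
    · have := hP1 M
      exact mul_nonneg (pw_nonneg h M) (mul_nonneg (Nat.cast_nonneg _) (by linarith))
    · refine mul_le_mul_of_nonneg_left ?_ (pw_nonneg h M)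
      have h0 : (0:ℝ) ≤ M := Nat.cast_nonneg _
      nlinarith [hP0 M]
  refine ⟨hsumm, ?_⟩
  rw [hsumm.tsum_eq_zero_add]
  simp only [Nat.cast_zero, zero_mul, mul_zero, zero_add]
  have e : ∀ j : ℕ, pw lam (j + 1) * (((j + 1 : ℕ) : ℝ) * (1 - P (j + 1))) =
      lam * (pw lam j * (1 - P (j + 1))) := by
    intro j
    have := pw_succ lam j
    push_cast
    rw [← mul_assoc, this]; ring
  have hR : HasSum (fun j : ℕ => lam * (1 - P m1) * pw lam j +
      lam / ((m1 : ℝ) - lam) ^ 2 * (pw lam j * ((j : ℝ) - lam) ^ 2))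
      (lam * (1 - P m1) * 1 + lam / ((m1 : ℝ) - lam) ^ 2 * lam) :=
    ((pw_hasSum lam).mul_left _).add ((pw_var lam).mul_left _)
  have hL : Summable (fun j : ℕ => pw lam (j + 1) * (((j + 1 : ℕ) : ℝ) * (1 - P (j + 1)))) :=
    (summable_nat_add_iff (f := fun M : ℕ => pw lam M * (M * (1 - P M))) 1).2 hsumm
  have := hasSum_le (fun j => ?_) hL.hasSum hR
  · refine this.trans (le_of_eq ?_)
    ring
  · rw [e]
    have hp := pw_nonneg h j
    have h2 : 1 - P (j + 1) ≤ (1 - P m1) + ((j : ℝ) - lam) ^ 2 / ((m1 : ℝ) - lam) ^ 2 := by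
      by_cases hj : j + 1 ≤ m1
      · have := hP hj
        have h3 : 0 ≤ ((j : ℝ) - lam) ^ 2 / ((m1 : ℝ) - lam) ^ 2 := by positivity
        linarith
      · have h4 : m1 ≤ j := by omega
        have h5 : (m1 : ℝ) ≤ j := by exact_mod_cast h4
        have h6 : 1 ≤ ((j : ℝ) - lam) ^ 2 / ((m1 : ℝ) - lam) ^ 2 := by
          rw [one_le_div (by positivity)]
          apply pow_le_pow_left₀ hd.le
          linarith
        have := hP1 m1
        have := hP0 (j + 1)
        linarith
    have h7 := mul_le_mul_of_nonneg_left (mul_le_mul_of_nonneg_left h2 hp) h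
    refine h7.trans (le_of_eq ?_)
    field_simp

theorem pressure_ge {a β : ℝ} (ha : 0 ≤ a) (hβ : 0 ≤ β) (N m1 : ℕ) (hN : 3 ≤ N)
    (hm : a * N < m1) :
    -(β * (a * (1 - qd 3 N) + a * (1 - satProb 3 N m1) +
      a ^ 2 * N / ((m1 : ℝ) - a * N) ^ 2)) ≤ pressure 3 a (muSAT β) (Measure.dirac 0) N := by
  have hN0 : (0:ℝ) < N := by
    have : 0 < N := by omega
    exact_mod_cast this
  have hlam : 0 ≤ a * (N:ℝ) := by positivity
  have hd : 0 < (m1 : ℝ) - a * N := by linarith
  rw [pressure_eq]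
  have hpw : ∀ M, poissonWeight (a * N) M = pw (a * N) M := fun M => rfl
  simp only [hpw]
  have hq := qd_le_one 3 N
  obtain ⟨hs1, hb1⟩ := poi_loss hlam (satProb_antitone 3 N) (satProb_nonneg 3 N)
    (satProb_le_one 3 N) m1 hm
  have hG : HasSum (fun M : ℕ => pw (a * N) M *
      (-(β * (M * (1 - qd 3 N) + M * (1 - satProb 3 N M)))))
      ((-(β * (1 - qd 3 N))) * (a * N) +
        (-β) * ∑' M : ℕ, pw (a * N) M * (M * (1 - satProb 3 N M))) := by
    have := ((pw_moment_one (a * N)).mul_left (-(β * (1 - qd 3 N)))).add (hs1.hasSum.mul_left (-β))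
    refine hasSum_of_eq this fun M => ?_
    ring
  have hS : (-(β * (1 - qd 3 N))) * (a * N) +
        (-β) * ∑' M : ℕ, pw (a * N) M * (M * (1 - satProb 3 N M)) ≤
      ∑' M : ℕ, pw (a * N) M * lpInt 3 (muSAT β) (Measure.dirac 0) N M := by
    by_cases hsm : Summable (fun M : ℕ => pw (a * N) M * lpInt 3 (muSAT β) (Measure.dirac 0) N M)
    · refine hasSum_le (fun M => ?_) hG hsm.hasSum
      exact mul_le_mul_of_nonneg_left (lpInt_ge hβ N M hN) (pw_nonneg hlam M)
    · rw [tsum_eq_zero_of_not_summable hsm]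
      have h1 : 0 ≤ ∑' M : ℕ, pw (a * N) M * (M * (1 - satProb 3 N M)) := by
        refine tsum_nonneg fun M => mul_nonneg (pw_nonneg hlam M)
          (mul_nonneg (Nat.cast_nonneg _) ?_)
        have := satProb_le_one 3 N M
        linarith
      have h2 : 0 ≤ β * (1 - qd 3 N) := mul_nonneg hβ (by linarith)
      nlinarith [mul_nonneg hβ h1, mul_nonneg h2 hlam]
  have hmul := mul_le_mul_of_nonneg_left hS (by positivity : (0:ℝ) ≤ 1 / (N:ℝ))
  refine le_trans ?_ hmul
  have hb2 := mul_le_mul_of_nonneg_left hb1 hβ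
  have h3 : 1 / (N:ℝ) * (-(β * (1 - qd 3 N)) * (a * N) + -β * (a * N * (1 - satProb 3 N m1) +
      (a * N) ^ 2 / ((m1 : ℝ) - a * N) ^ 2)) ≤
      1 / (N:ℝ) * (-(β * (1 - qd 3 N)) * (a * ↑N) +
      -β * ∑' (M : ℕ), pw (a * ↑N) M * (↑M * (1 - satProb 3 N M))) := by
    apply mul_le_mul_of_nonneg_left _ (by positivity)
    linarith
  refine le_trans (le_of_eq ?_) h3
  field_simp
  ring

/-- RC1: below the threshold the pressure is asymptotically nonnegative. -/
theorem rc1 {α : ℝ} (hα : IsSharpThreshold (satProb 3) α) {a β : ℝ} (ha : 0 ≤ a) (haα : a < α)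
    (hβ : 0 ≤ β) {ε : ℝ} (hε : 0 < ε) :
    ∀ᶠ N : ℕ in atTop, -ε ≤ pressure 3 a (muSAT β) (Measure.dirac 0) N := by
  obtain ⟨b, hab, hbα⟩ := exists_between haα
  have hb0 : 0 ≤ b := ha.trans hab.le
  have hP := (hα b hb0).1 hbα
  have hinv : Tendsto (fun N : ℕ => ((N:ℝ))⁻¹) atTop (𝓝 0) :=
    tendsto_inv_atTop_zero.comp tendsto_natCast_atTop_atTop
  -- the bound
  have hlim : Tendsto (fun N : ℕ => β * (a * (3 * ((N:ℝ))⁻¹) + a * (1 - satProb 3 N ⌊b * N⌋₊) +
      4 * a ^ 2 / (b - a) ^ 2 * ((N:ℝ))⁻¹)) atTop (𝓝 (β * (a * (3 * 0) + a * (1 - 1) +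
      4 * a ^ 2 / (b - a) ^ 2 * 0))) := by
    refine Tendsto.const_mul _ (((Tendsto.const_mul _ (hinv.const_mul _)).add
      (Tendsto.const_mul _ (tendsto_const_nhds.sub hP))).add (hinv.const_mul _))
  have h0 : β * (a * (3 * 0) + a * (1 - 1) + 4 * a ^ 2 / (b - a) ^ 2 * 0) = 0 := by ring
  rw [h0] at hlim
  have hev := hlim.eventually (gt_mem_nhds hε)
  have hlarge : ∀ᶠ N : ℕ in atTop, 2 / (b - a) < (N:ℝ) :=
    tendsto_natCast_atTop_atTop.eventually_gt_atTop _
  filter_upwards [hev, hlarge, eventually_ge_atTop 3] with N h1 h2 h3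
  have hN0 : (0:ℝ) < N := by
    have : 0 < N := by omega
    exact_mod_cast this
  have hba : 0 < b - a := by linarith
  have h4 : 2 < (b - a) * N := by
    rw [div_lt_iff₀ hba] at h2; linarith
  have h5 : b * N < (⌊b * N⌋₊ : ℝ) + 1 := Nat.lt_floor_add_one _
  have h6 : (b - a) * N / 2 ≤ (⌊b * N⌋₊ : ℝ) - a * N := by nlinarith
  have h7 : 0 < (b - a) * N / 2 := by positivity
  have key := pressure_ge ha hβ N ⌊b * N⌋₊ h3 (by linarith)
  have h8 : a ^ 2 * N / ((⌊b * N⌋₊ : ℝ) - a * N) ^ 2 ≤ 4 * a ^ 2 / (b - a) ^ 2 * ((N:ℝ))⁻¹ := by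
    calc a ^ 2 * N / ((⌊b * N⌋₊ : ℝ) - a * N) ^ 2 ≤ a ^ 2 * N / ((b - a) * N / 2) ^ 2 := by
          apply div_le_div_of_nonneg_left (by positivity) (by positivity)
          exact pow_le_pow_left₀ h7.le h6 2
      _ = _ := by field_simp; ring
  have h9 : a * (1 - qd 3 N) ≤ a * (3 * ((N:ℝ))⁻¹) := by
    apply mul_le_mul_of_nonneg_left _ ha
    have := qd_three_ge N h3
    rw [div_eq_mul_inv] at this
    linarith
  have h10 : β * (a * (1 - qd 3 N) + a * (1 - satProb 3 N ⌊b * N⌋₊) +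
      a ^ 2 * N / ((⌊b * N⌋₊ : ℝ) - a * N) ^ 2) ≤ ε := by
    refine le_trans ?_ h1.le
    apply mul_le_mul_of_nonneg_left _ hβ
    linarith
  linarith

end Crest.Agent.R153.Wr
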