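import Mathlib
import Crest.Agent.R153.PressFin
import Crest.Agent.R153.Dict
import Crest.Agent.R153.LeftCut

/-! Row 153, RC2 (helper888): if the mean minimal number of violated clauses is linear at density
`c`, then at every density `c' > c` the pressure of soft 3-SAT is eventually at most `-1` for a
large inverse temperature. -/

set_option autoImplicit false

open MeasureTheory Crest.ProbabilityR.Diluted Crest.ProbabilityR.RandomSAT Filter Topology
open Crest.Agent.R153.Wr

namespace Crest.Agent.R153.Br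

section mcost

variable {N : ℕ} {C : Type*}

/-- minimal value of `h σ + Σ_{c ∈ F} v σ c` -/
noncomputable def mcost (v : (Fin N → Bool) → C → ℕ) (h : (Fin N → Bool) → ℕ) (F : List C) : ℕ :=
  Finset.univ.inf' Finset.univ_nonempty (fun σ => h σ + (F.map (v σ)).sum)

theorem mcost_le (v : (Fin N → Bool) → C → ℕ) (h : (Fin N → Bool) → ℕ) (F : List C)
    (σ : Fin N → Bool) : mcost v h F ≤ h σ + (F.map (v σ)).sum :=
  Finset.inf'_le _ (Finset.mem_univ σ)

theorem exists_mcost (v : (Fin N → Bool) → C → ℕ) (h : (Fin N → Bool) → ℕ) (F : List C) :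
    ∃ σ, h σ + (F.map (v σ)).sum = mcost v h F := by
  obtain ⟨σ, _, e⟩ := Finset.exists_mem_eq_inf' (Finset.univ_nonempty (α := Fin N → Bool))
    (fun σ => h σ + (F.map (v σ)).sum)
  exact ⟨σ, e.symm⟩

theorem mcost_cons (v : (Fin N → Bool) → C → ℕ) (h : (Fin N → Bool) → ℕ) (c : C) (F : List C) :
    mcost v h (c :: F) = mcost v (fun σ => h σ + v σ c) F := by
  unfold mcost
  congr 1
  funext σ
  rw [List.map_cons, List.sum_cons]
  ring

theorem mcost_mono (v : (Fin N → Bool) → C → ℕ) {h h' : (Fin N → Bool) → ℕ}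
    (hh : ∀ σ, h σ ≤ h' σ) (F : List C) : mcost v h F ≤ mcost v h' F := by
  obtain ⟨σ, e⟩ := exists_mcost v h' F
  have := mcost_le v h F σ
  have := hh σ
  omega

theorem mcost_add_le (v : (Fin N → Bool) → C → ℕ) {h h' : (Fin N → Bool) → ℕ}
    (hh : ∀ σ, h' σ ≤ h σ + 1) (F : List C) : mcost v h' F ≤ mcost v h F + 1 := by
  obtain ⟨σ, e⟩ := exists_mcost v h F
  have := mcost_le v h' F σ
  have := hh σ
  omega

end mcost

variable {N : ℕ}

/-- with-repetition form of a clause -/
def toW {N : ℕ} (c : Clause 3 N) : WClause 3 (Fin N) := fun i => (c.1.1 i, c.2 i)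

theorem wv_toW (σ : Fin N → Bool) (c : Clause 3 N) : wv σ (toW c) = viol σ c := by
  unfold wv viol toW ClauseSat
  by_cases h : ∃ i, σ (c.1.1 i) = c.2 i
  · rw [if_pos h, if_neg]
    push Not
    obtain ⟨i, hi⟩ := h
    refine ⟨i, ?_⟩
    simp [hi]
  · rw [if_neg h, if_pos]
    push Not at h
    intro i
    have := h i
    revert this
    cases σ (c.1.1 i) <;> cases c.2 i <;> simp

theorem wv_le_one (σ : Fin N → Bool) (c : WClause 3 (Fin N)) : wv σ c ≤ 1 := by
  unfold wv; split_ifs <;> norm_num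

theorem toW_injective : Function.Injective (toW (N := N)) := by
  intro c d h
  have h1 : ∀ i, (c.1.1 i, c.2 i) = (d.1.1 i, d.2 i) := fun i => congrFun h i
  refine Prod.ext (Subtype.ext (funext fun i => ?_)) (funext fun i => ?_)
  · exact (Prod.mk.inj (h1 i)).1
  · exact (Prod.mk.inj (h1 i)).2

theorem card_ratio (hN : 3 ≤ N) :
    (Fintype.card (Clause 3 N) : ℝ) = qd 3 N * (Fintype.card (WClause 3 (Fin N)) : ℝ) := by
  have hn : (N : ℝ) ≠ 0 := by
    have : 0 < N := by omega
    positivity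
  rw [card_clause]
  unfold qd
  simp only [Fintype.card_fun, Fintype.card_prod, Fintype.card_fin, Fintype.card_bool]
  push_cast
  field_simp
  norm_num

/-- averaging over with-repetition clauses -/
theorem avg_wr_ge (hN : 3 ≤ N) (G : WClause 3 (Fin N) → ℝ) (g0 : ℝ) (h0 : ∀ w, g0 ≤ G w)
    (h1 : ∀ c : Clause 3 N, G (toW c) ≤ g0 + 1) :
    avg (fun c : Clause 3 N => G (toW c)) - (1 - qd 3 N) ≤ avg G := by
  classical
  have hne : Nonempty (Clause 3 N) := ⟨(⟨fun i => ⟨i, by omega⟩, fun i j h => by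
    simpa [Fin.ext_iff] using h⟩, fun _ => true)⟩
  have hC : (0 : ℝ) < Fintype.card (Clause 3 N) := by exact_mod_cast Fintype.card_pos
  have hr := card_ratio hN
  have hq1 := qd_le_one 3 N
  have hW : (0 : ℝ) < Fintype.card (WClause 3 (Fin N)) := by
    have hneW : Nonempty (WClause 3 (Fin N)) := ⟨toW hne.some⟩
    exact_mod_cast Fintype.card_pos
  have hq0 : 0 < qd 3 N := by
    by_contra hcon
    push Not at hcon
    nlinarith
  -- sum over the image
  have hs : ∑ w, (G w - g0) ≥ ∑ c : Clause 3 N, (G (toW c) - g0) := by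
    rw [← Finset.sum_image (s := Finset.univ) (g := toW) (f := fun w => G w - g0)
      (fun a _ b _ h => toW_injective h)]
    exact Finset.sum_le_sum_of_subset_of_nonneg (Finset.subset_univ _)
      (fun w _ _ => by linarith [h0 w])
  rw [Finset.sum_sub_distrib, Finset.sum_sub_distrib, Finset.sum_const, Finset.sum_const,
    Finset.card_univ, Finset.card_univ, nsmul_eq_mul, nsmul_eq_mul] at hs
  have hA : avg (fun c : Clause 3 N => G (toW c)) ≤ g0 + 1 := by
    refine (avg_mono h1).trans (le_of_eq (avg_const _))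
  have eA : ∑ c : Clause 3 N, G (toW c) =
      avg (fun c : Clause 3 N => G (toW c)) * (Fintype.card (Clause 3 N) : ℝ) := by
    unfold avg; field_simp
  rw [eA] at hs
  generalize avg (fun c : Clause 3 N => G (toW c)) = A at *
  have eG : avg G = (∑ w, G w) / (Fintype.card (WClause 3 (Fin N)) : ℝ) := rfl
  rw [eG, le_div_iff₀ hW]
  rw [hr] at hs
  generalize (Fintype.card (WClause 3 (Fin N)) : ℝ) = W at *
  have : 0 ≤ (1 - qd 3 N) * W * (g0 + 1 - A) :=
    mul_nonneg (mul_nonneg (by linarith) hW.le) (by linarith)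
  nlinarith

/-- comparison of the mean minimal costs of the two models -/
theorem EL_wr_ge (hN : 3 ≤ N) (M : ℕ) : ∀ h : (Fin N → Bool) → ℕ,
    EL M (fun F : List (Clause 3 N) => (mcost viol h F : ℝ)) - M * (1 - qd 3 N) ≤
      EL M (fun F : List (WClause 3 (Fin N)) => (mcost wv h F : ℝ)) := by
  have hne : Nonempty (Clause 3 N) := ⟨(⟨fun i => ⟨i, by omega⟩, fun i j h => by
    simpa [Fin.ext_iff] using h⟩, fun _ => true)⟩
  have hneW : Nonempty (WClause 3 (Fin N)) := ⟨toW hne.some⟩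
  induction M with
  | zero =>
    intro h
    simp only [EL, Nat.cast_zero, zero_mul, sub_zero]
    apply le_of_eq
    congr 1
  | succ M ih =>
    intro h
    rw [EL_succ, EL_succ]
    simp only [mcost_cons]
    set G : WClause 3 (Fin N) → ℝ := fun w =>
      EL M (fun F : List (Clause 3 N) => (mcost viol (fun σ => h σ + wv σ w) F : ℝ)) with hG
    have h1 : avg (fun c : Clause 3 N => G (toW c)) - (1 - qd 3 N) ≤ avg G := by
      refine avg_wr_ge hN G (EL M (fun F : List (Clause 3 N) => (mcost viol h F : ℝ)))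
        (fun w => EL_mono fun F => ?_) (fun c => ?_)
      · exact_mod_cast mcost_mono viol (fun σ => Nat.le_add_right _ _) F
      · have e : EL M (fun F : List (Clause 3 N) => (mcost viol h F : ℝ)) + 1 =
            EL M (fun F : List (Clause 3 N) => (mcost viol h F : ℝ) + 1) := by
          rw [EL_add, EL_const]
        rw [e]
        refine EL_mono fun F => ?_
        exact_mod_cast mcost_add_le viol (fun σ => by
          have := wv_le_one σ (toW c); omega) F
    have h2 : avg G - M * (1 - qd 3 N) ≤ avg (fun w : WClause 3 (Fin N) =>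
        EL M (fun F : List (WClause 3 (Fin N)) => (mcost wv (fun σ => h σ + wv σ w) F : ℝ))) := by
      have e : avg G - M * (1 - qd 3 N) = avg (fun w => G w - M * (1 - qd 3 N)) := by
        rw [avg_sub, avg_const]
      rw [e]
      exact avg_mono fun w => ih _
    have h3 : (fun c : Clause 3 N => G (toW c)) = fun c : Clause 3 N =>
        EL M (fun F : List (Clause 3 N) => (mcost viol (fun σ => h σ + viol σ c) F : ℝ)) := by
      funext c
      simp only [hG, wv_toW]
    rw [h3] at h1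
    push_cast
    linarith

theorem mcost_zero_eq_mc (F : List (Clause 3 N)) : mcost viol (fun _ => 0) F = mc F := by
  unfold mcost mc vc
  simp

/-- mean minimal cost of `M` with-repetition clauses -/
noncomputable def aW (N M : ℕ) : ℝ :=
  EL M (fun F : List (WClause 3 (Fin N)) => (mcost wv (fun _ => 0) F : ℝ))

theorem aW_ge (hN : 3 ≤ N) (M : ℕ) :
    avg (fun F : Fin M → Clause 3 N => (minUnsat F : ℝ)) - M * (1 - qd 3 N) ≤ aW N M := by
  have := EL_wr_ge hN M (fun _ => 0)
  simp only [mcost_zero_eq_mc] at this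
  rwa [EL_mc_eq] at this

theorem aW_nonneg (N M : ℕ) : 0 ≤ aW N M := EL_nonneg fun F => Nat.cast_nonneg _

theorem aW_mono (hN : 3 ≤ N) : Monotone (aW N) := by
  have hneW : Nonempty (WClause 3 (Fin N)) := ⟨fun _ => (⟨0, by omega⟩, true)⟩
  refine monotone_nat_of_le_succ fun M => ?_
  unfold aW
  rw [EL_succ]
  rw [← avg_const (α := WClause 3 (Fin N))
    (EL M (fun F : List (WClause 3 (Fin N)) => (mcost wv (fun _ => 0) F : ℝ)))]
  refine avg_mono fun w => EL_mono fun F => ?_
  rw [mcost_cons]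
  exact_mod_cast mcost_mono wv (fun σ => Nat.zero_le _) F

/-! ### the partition function -/

theorem logZ_le {β : ℝ} (hβ : 0 ≤ β) {M : ℕ} (F : Fin M → WClause 3 (Fin N)) :
    logZ β F ≤ N * Real.log 2 - β * (mcost wv (fun _ => 0) (List.ofFn F) : ℝ) := by
  unfold logZ
  have hpos : 0 < ∑ σ : Fin N → Bool, Real.exp (-β * ∑ j, (wv σ (F j) : ℝ)) :=
    Finset.sum_pos (fun _ _ => Real.exp_pos _) Finset.univ_nonempty
  rw [Real.log_le_iff_le_exp hpos]
  have h1 : ∀ σ : Fin N → Bool, Real.exp (-β * ∑ j, (wv σ (F j) : ℝ)) ≤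
      Real.exp (-(β * (mcost wv (fun _ => 0) (List.ofFn F) : ℝ))) := by
    intro σ
    apply Real.exp_le_exp.2
    have h2 := mcost_le wv (fun _ => 0) (List.ofFn F) σ
    rw [List.map_ofFn, List.sum_ofFn, zero_add] at h2
    have h3 : (mcost wv (fun _ => 0) (List.ofFn F) : ℝ) ≤ ∑ j, (wv σ (F j) : ℝ) := by
      exact_mod_cast h2
    have := mul_le_mul_of_nonneg_left h3 hβ
    linarith
  refine (Finset.sum_le_sum fun σ _ => h1 σ).trans ?_
  rw [Finset.sum_const, Finset.card_univ, nsmul_eq_mul, Fintype.card_fun, Fintype.card_bool,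
    Fintype.card_fin, sub_eq_add_neg, Real.exp_add, mul_comm (N : ℝ), Real.exp_mul,
    Real.exp_log (by norm_num)]
  push_cast
  rw [Real.rpow_natCast]

theorem logZ_ge {β : ℝ} (hβ : 0 ≤ β) {M : ℕ} (F : Fin M → WClause 3 (Fin N)) :
    -(β * M) ≤ logZ β F := by
  unfold logZ
  have hpos : 0 < ∑ σ : Fin N → Bool, Real.exp (-β * ∑ j, (wv σ (F j) : ℝ)) :=
    Finset.sum_pos (fun _ _ => Real.exp_pos _) Finset.univ_nonempty
  rw [Real.le_log_iff_exp_le hpos]
  refine le_trans ?_ (Finset.single_le_sum (f := fun σ : Fin N → Bool =>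
    Real.exp (-β * ∑ j, (wv σ (F j) : ℝ))) (fun _ _ => (Real.exp_pos _).le)
    (Finset.mem_univ (fun _ => true)))
  apply Real.exp_le_exp.2
  have h1 : ∑ j, (wv (fun _ => true) (F j) : ℝ) ≤ ∑ _j : Fin M, (1 : ℝ) :=
    Finset.sum_le_sum fun j _ => by exact_mod_cast wv_le_one _ _
  simp only [Finset.sum_const, Finset.card_univ, Fintype.card_fin, nsmul_eq_mul, mul_one] at h1
  have := mul_le_mul_of_nonneg_left h1 hβ
  linarith

theorem avg_logZ_le {β : ℝ} (hβ : 0 ≤ β) (hN : 3 ≤ N) (M : ℕ) :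
    avg (fun F : Fin M → WClause 3 (Fin N) => logZ β F) ≤ N * Real.log 2 - β * aW N M := by
  have hneW : Nonempty (WClause 3 (Fin N)) := ⟨fun _ => (⟨0, by omega⟩, true)⟩
  refine (avg_mono fun F => logZ_le hβ F).trans (le_of_eq ?_)
  rw [avg_sub, avg_const, avg_const_mul]
  congr 2
  unfold aW
  rw [EL_eq_avg]

theorem avg_logZ_ge {β : ℝ} (hβ : 0 ≤ β) (hN : 3 ≤ N) (M : ℕ) :
    -(β * M) ≤ avg (fun F : Fin M → WClause 3 (Fin N) => logZ β F) := by
  have hneW : Nonempty (WClause 3 (Fin N)) := ⟨fun _ => (⟨0, by omega⟩, true)⟩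
  refine le_trans (le_of_eq ?_) (avg_mono fun F => logZ_ge hβ F)
  rw [avg_const]

/-- upper bound for the pressure -/
theorem pressure_le {c' β : ℝ} (hc' : 0 ≤ c') (hβ : 0 ≤ β) (hN : 3 ≤ N) (m0 : ℕ) {t : ℝ}
    (ht : 0 < t) (hm : (m0 : ℝ) + t ≤ c' * N + 1) :
    pressure 3 c' (muSAT β) (Measure.dirac 0) N ≤
      Real.log 2 - β * ((1 - c' * N / t ^ 2) * aW N m0) / N := by
  have hN0 : (0 : ℝ) < N := by
    have : 0 < N := by omega
    exact_mod_cast this
  have hlam : 0 ≤ c' * (N : ℝ) := by positivity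
  rw [pressure_muSAT]
  have hlog : 0 ≤ Real.log 2 := Real.log_nonneg (by norm_num)
  have ha := aW_nonneg N m0
  -- summability
  have hsum : Summable (fun M : ℕ => pw (c' * N) M *
      avg (fun F : Fin M → WClause 3 (Fin N) => logZ β F)) := by
    have hb : Summable (fun M : ℕ => pw (c' * N) M * (N * Real.log 2 + β * M)) := by
      have := ((pw_summable (c' * N)).mul_left (N * Real.log 2)).add
        ((pw_moment_one (c' * N)).summable.mul_left β)
      refine this.congr fun M => ?_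
      ring
    refine Summable.of_norm_bounded hb fun M => ?_
    rw [norm_mul, Real.norm_of_nonneg (pw_nonneg hlam M)]
    refine mul_le_mul_of_nonneg_left ?_ (pw_nonneg hlam M)
    rw [Real.norm_eq_abs, abs_le]
    have h1 := avg_logZ_le hβ hN M
    have h2 := avg_logZ_ge hβ hN M
    have h3 : 0 ≤ β * aW N M := mul_nonneg hβ (aW_nonneg N M)
    have h4 : 0 ≤ (N : ℝ) * Real.log 2 := by positivity
    have h5 : 0 ≤ β * M := by positivity
    constructor <;> linarith
  have h5 : HasSum (fun i : ℕ => if i ∈ Finset.range m0 then pw (c' * N) i else 0)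
      (∑ i ∈ Finset.range m0, if i ∈ Finset.range m0 then pw (c' * N) i else 0) :=
    hasSum_sum_of_ne_finset_zero (fun b hb => if_neg hb)
  rw [Finset.sum_congr rfl fun i hi => if_pos hi] at h5
  have hR : HasSum (fun M : ℕ => (N * Real.log 2 - β * aW N m0) * pw (c' * N) M +
      β * aW N m0 * (if M ∈ Finset.range m0 then pw (c' * N) M else 0))
      ((N * Real.log 2 - β * aW N m0) * 1 +
        β * aW N m0 * ∑ i ∈ Finset.range m0, pw (c' * N) i) :=
    ((pw_hasSum _).mul_left _).add (h5.mul_left _)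
  have key : ∑' M : ℕ, pw (c' * N) M * avg (fun F : Fin M → WClause 3 (Fin N) => logZ β F) ≤
      (N * Real.log 2 - β * aW N m0) * 1 +
        β * aW N m0 * ∑ i ∈ Finset.range m0, pw (c' * N) i := by
    refine hasSum_le (fun M => ?_) hsum.hasSum hR
    have h1 := avg_logZ_le hβ hN M
    have hp := pw_nonneg hlam M
    by_cases hM : M ∈ Finset.range m0
    · rw [if_pos hM]
      have h3 : 0 ≤ β * aW N M := mul_nonneg hβ (aW_nonneg N M)
      have : pw (c' * N) M * avg (fun F : Fin M → WClause 3 (Fin N) => logZ β F) ≤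
          pw (c' * N) M * (N * Real.log 2) := mul_le_mul_of_nonneg_left (by linarith) hp
      linarith
    · rw [if_neg hM]
      have hM' : m0 ≤ M := by simpa using hM
      have h3 : β * aW N m0 ≤ β * aW N M := mul_le_mul_of_nonneg_left (aW_mono hN hM') hβ
      have : pw (c' * N) M * avg (fun F : Fin M → WClause 3 (Fin N) => logZ β F) ≤
          pw (c' * N) M * (N * Real.log 2 - β * aW N m0) :=
        mul_le_mul_of_nonneg_left (by linarith) hp
      linarith
  have h6 := pw_range_le hlam m0 ht hm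
  have h7 : β * aW N m0 * ∑ i ∈ Finset.range m0, pw (c' * N) i ≤
      β * aW N m0 * (c' * N / t ^ 2) := mul_le_mul_of_nonneg_left h6 (mul_nonneg hβ ha)
  have h8 := mul_le_mul_of_nonneg_left (key.trans (add_le_add le_rfl h7))
    (by positivity : (0 : ℝ) ≤ 1 / (N : ℝ))
  refine h8.trans (le_of_eq ?_)
  field_simp
  ring

/-- **RC2.** -/
theorem rc2 {c c' κ : ℝ} (hc : 0 ≤ c) (hcc : c < c') (hκ : 0 < κ)
    (hE : ∀ᶠ n : ℕ in atTop,
      κ * n ≤ avg (fun F : Fin ⌊c * n⌋₊ → Clause 3 n => (minUnsat F : ℝ))) :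
    ∃ (β : ℕ) (η : ℝ), 0 < η ∧
      ∀ᶠ N : ℕ in atTop, pressure 3 c' (muSAT β) (Measure.dirac 0) N ≤ -η := by
  have hc'0 : 0 < c' := hc.trans_lt hcc
  obtain ⟨β, hβ⟩ := exists_nat_gt ((Real.log 2 + 1) * (4 / κ))
  refine ⟨β, 1, one_pos, ?_⟩
  have hd : 0 < c' - c := by linarith
  -- lower bounds on N
  have hl1 : ∀ᶠ N : ℕ in atTop, 2 * c' / (c' - c) ^ 2 < (N : ℝ) :=
    tendsto_natCast_atTop_atTop.eventually_gt_atTop _
  have hl2 : ∀ᶠ N : ℕ in atTop, 6 * c / κ < (N : ℝ) :=
    tendsto_natCast_atTop_atTop.eventually_gt_atTop _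
  filter_upwards [hE, hl1, hl2, eventually_ge_atTop 3] with N h1 h2 h3 hN
  have hN0 : (0 : ℝ) < N := by
    have : 0 < N := by omega
    exact_mod_cast this
  have hm : ((⌊c * N⌋₊ : ℕ) : ℝ) ≤ c * N := Nat.floor_le (by positivity)
  have ht : 0 < (c' - c) * N := by positivity
  have key := pressure_le hc'0.le (Nat.cast_nonneg β) hN ⌊c * N⌋₊ ht (by nlinarith)
  -- the energy
  have hq := qd_three_ge N hN
  have h4 := aW_ge hN ⌊c * N⌋₊
  have h5 : ((⌊c * N⌋₊ : ℕ) : ℝ) * (1 - qd 3 N) ≤ 3 * c := by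
    have h6 : (1 - qd 3 N) ≤ 3 / N := by linarith
    have h7 : 0 ≤ 1 - qd 3 N := by linarith [qd_le_one 3 N]
    calc ((⌊c * N⌋₊ : ℕ) : ℝ) * (1 - qd 3 N) ≤ (c * N) * (3 / N) :=
          mul_le_mul hm h6 h7 (by positivity)
      _ = 3 * c := by field_simp
  have h6 : κ / 2 * N ≤ aW N ⌊c * N⌋₊ := by
    have : 6 * c < κ * N := by
      rw [div_lt_iff₀ hκ] at h3; linarith
    linarith
  have h7 : c' * N / ((c' - c) * N) ^ 2 ≤ 1 / 2 := by
    rw [div_lt_iff₀ (by positivity)] at h2
    rw [div_le_iff₀ (by positivity)]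
    nlinarith
  have h8 : κ / 4 * N ≤ (1 - c' * N / ((c' - c) * N) ^ 2) * aW N ⌊c * N⌋₊ := by
    calc κ / 4 * N = (1 / 2) * (κ / 2 * N) := by ring
      _ ≤ _ := mul_le_mul (by linarith) h6 (by positivity) (by linarith)
  have h9 : Real.log 2 + 1 ≤ β * ((1 - c' * N / ((c' - c) * N) ^ 2) * aW N ⌊c * N⌋₊) / N := by
    rw [le_div_iff₀ hN0]
    have h10 : (Real.log 2 + 1) * (4 / κ) * (κ / 4 * N) ≤
        β * ((1 - c' * N / ((c' - c) * N) ^ 2) * aW N ⌊c * N⌋₊) :=
      mul_le_mul hβ.le h8 (by positivity) (Nat.cast_nonneg β)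
    have h11 : (Real.log 2 + 1) * (4 / κ) * (κ / 4 * N) = (Real.log 2 + 1) * N := by
      field_simp
    linarith
  linarith

end Crest.Agent.R153.Br
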