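import Mathlib
import Crest.Agent.R153.RC2
import Crest.Agent.R153.AWeakFinal

/-! Row 153, RC2, unconditional form (helper888). -/

set_option autoImplicit false

open MeasureTheory Crest.ProbabilityR.Diluted Crest.ProbabilityR.RandomSAT Filter Topology

namespace Crest.Agent.R153.Br

/-- above the threshold, for some inverse temperature, the pressure is eventually negative -/
theorem rc2_final {α c : ℝ} (hα : IsSharpThreshold (satProb 3) α) (hc : α < c) :
    ∃ (β : ℕ) (η : ℝ), 0 < η ∧
      ∀ᶠ N : ℕ in atTop, pressure 3 c (muSAT β) (Measure.dirac 0) N ≤ -η := by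
  obtain ⟨c1, h1, h2⟩ := exists_between hc
  obtain ⟨κ, hκ, h⟩ := aweak3 hα h1
  exact rc2 ((threshold_nonneg hα).trans h1.le) h2 hκ h

end Crest.Agent.R153.Br
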