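import Crest.Agent.R153.RC2Final

/-!
Row 153, RC2 at inverse temperatures `b log 2`: above the threshold the pressure of soft 3-SAT is
eventually at most `-1` for some natural `b`.
-/

set_option autoImplicit false

open MeasureTheory Crest.ProbabilityR.Diluted Crest.ProbabilityR.RandomSAT Filter Topology
open Crest.Agent.R153.Wr

namespace Crest.Agent.R153.Br

/-- RC2 for all large real inverse temperatures. -/
theorem rc2_real {c c' κ : ℝ} (hc : 0 ≤ c) (hcc : c < c') (hκ : 0 < κ)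
    (hE : ∀ᶠ n : ℕ in atTop,
      κ * n ≤ avg (fun F : Fin ⌊c * n⌋₊ → Clause 3 n => (minUnsat F : ℝ)))
    {β : ℝ} (hβ0 : 0 ≤ β) (hβ : (Real.log 2 + 1) * (4 / κ) < β) :
    ∀ᶠ N : ℕ in atTop, pressure 3 c' (muSAT β) (Measure.dirac 0) N ≤ -1 := by
  have hc'0 : 0 < c' := hc.trans_lt hcc
  have hd : 0 < c' - c := by linarith
  -- lower bounds on N
  have hl1 : ∀ᶠ N : ℕ in atTop, 2 * c' / (c' - c) ^ 2 < (N : ℝ) :=
    tendsto_natCast_atTop_atTop.eventually_gt_atTop _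
  have hl2 : ∀ᶠ N : ℕ in atTop, 6 * c / κ < (N : ℝ) :=
    tendsto_natCast_atTop_atTop.eventually_gt_atTop _
  filter_upwards [hE, hl1, hl2, eventually_ge_atTop 3] with N h1 h2 h3 hN
  have hN0 : (0 : ℝ) < N := by
    have : 0 < N := by omega
    exact_mod_cast this
  have hm : ((⌊c * N⌋₊ : ℕ) : ℝ) ≤ c * N := Nat.floor_le (by positivity)
  have ht : 0 < (c' - c) * N := by positivity
  have key := pressure_le hc'0.le hβ0 hN ⌊c * N⌋₊ ht (by nlinarith)
  -- the energy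
  have hq := qd_three_ge N hN
  have h4 := aW_ge hN ⌊c * N⌋₊
  have h5 : ((⌊c * N⌋₊ : ℕ) : ℝ) * (1 - qd 3 N) ≤ 3 * c := by
    have h6 : (1 - qd 3 N) ≤ 3 / N := by linarith
    have h7 : 0 ≤ 1 - qd 3 N := by linarith [qd_le_one 3 N]
    calc ((⌊c * N⌋₊ : ℕ) : ℝ) * (1 - qd 3 N) ≤ (c * N) * (3 / N) :=
          mul_le_mul hm h6 h7 (by positivity)
      _ = 3 * c := by field_simp
  have h6 : κ / 2 * N ≤ aW N ⌊c * N⌋₊ := by
    have : 6 * c < κ * N := by
      rw [div_lt_iff₀ hκ] at h3; linarith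
    linarith
  have h7 : c' * N / ((c' - c) * N) ^ 2 ≤ 1 / 2 := by
    rw [div_lt_iff₀ (by positivity)] at h2
    rw [div_le_iff₀ (by positivity)]
    nlinarith
  have h8 : κ / 4 * N ≤ (1 - c' * N / ((c' - c) * N) ^ 2) * aW N ⌊c * N⌋₊ := by
    calc κ / 4 * N = (1 / 2) * (κ / 2 * N) := by ring
      _ ≤ _ := mul_le_mul (by linarith) h6 (by positivity) (by linarith)
  have h9 : Real.log 2 + 1 ≤ β * ((1 - c' * N / ((c' - c) * N) ^ 2) * aW N ⌊c * N⌋₊) / N := by
    rw [le_div_iff₀ hN0]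
    have h10 : (Real.log 2 + 1) * (4 / κ) * (κ / 4 * N) ≤
        β * ((1 - c' * N / ((c' - c) * N) ^ 2) * aW N ⌊c * N⌋₊) :=
      mul_le_mul hβ.le h8 (by positivity) hβ0
    have h11 : (Real.log 2 + 1) * (4 / κ) * (κ / 4 * N) = (Real.log 2 + 1) * N := by
      field_simp
    linarith
  linarith

/-- above the threshold, for some `b`, the pressure at `b log 2` is eventually at most `-1` -/
theorem rc2_log {α c : ℝ} (hα : IsSharpThreshold (satProb 3) α) (hc : α < c) :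
    ∃ b : ℕ, ∀ᶠ N : ℕ in atTop,
      pressure 3 c (muSAT ((b : ℝ) * Real.log 2)) (Measure.dirac 0) N ≤ -1 := by
  obtain ⟨c1, h1, h2⟩ := exists_between hc
  obtain ⟨κ, hκ, h⟩ := aweak3 hα h1
  have hlog : 0 < Real.log 2 := Real.log_pos (by norm_num)
  obtain ⟨b, hb⟩ := exists_nat_gt ((Real.log 2 + 1) * (4 / κ) / Real.log 2)
  refine ⟨b, rc2_real ((threshold_nonneg hα).trans h1.le) h2 hκ h (by positivity) ?_⟩
  rwa [div_lt_iff₀ hlog] at hb

end Crest.Agent.R153.Br
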