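import Crest.Agent.R153.GDefs
import Crest.Agent.R153.Var

/-! Row 153: S0217 from the horizon bound on `G.DD` at level `J = 0` (helper211). -/

set_option autoImplicit false

open Crest.ProbabilityR.RandomSAT

namespace Crest.Agent.R153

variable {k n : ℕ}

/-- assignments of cost `0` -/
def zset (h : G.Cost n) : Finset (Asg n) := Finset.univ.filter (fun σ => h σ = 0)

theorem mem_zset {h : G.Cost n} {σ : Asg n} : σ ∈ zset h ↔ h σ = 0 := by
  unfold zset; simp

theorem zset_zero : zset (fun _ : Asg n => 0) = Finset.univ := by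
  ext σ; simp [mem_zset]

theorem zset_cut (h : G.Cost n) (c : Clause k n) : zset (G.cut h c) = cut (zset h) c := by
  ext σ
  rw [mem_zset, mem_cut, mem_zset]
  by_cases hs : ClauseSat σ c
  · rw [G.cut_of_sat hs]; simp [hs]
  · rw [G.cut_of_not_sat hs]; simp [hs]

theorem zset_cutLit (h : G.Cost n) (l : Fin n × Bool) :
    zset (G.cutLit h l) = cutLit (zset h) l := by
  ext σ
  rw [mem_zset, mem_cutLit, mem_zset]
  by_cases hs : σ l.1 = l.2
  · rw [G.cutLit_of_eq hs]; simp [hs]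
  · rw [G.cutLit_of_ne hs]; simp [hs]

theorem ne_zset (h : G.Cost n) : G.ne 0 h = ne (zset h) := by
  by_cases hh : ∃ σ, h σ ≤ 0
  · obtain ⟨σ, hσ⟩ := hh
    rw [G.ne_of_exists ⟨σ, hσ⟩, ne_of_nonempty ⟨σ, mem_zset.2 (Nat.le_zero.1 hσ)⟩]
  · rw [G.ne_eq_zero hh, ne_eq_zero]
    rintro ⟨σ, hσ⟩
    exact hh ⟨σ, (mem_zset.1 hσ).le⟩

theorem hit_zset (F : List (Clause k n)) : ∀ h : G.Cost n, G.hit 0 h F = hit (zset h) F := by
  induction F with
  | nil => intro h; exact ne_zset h
  | cons c F ih =>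
    intro h
    rw [G.hit_cons, ne_zset, ih, zset_cut]
    rfl

theorem DD_eq_G (j n M : ℕ) : DD j n 0 M = G.DD 0 j n 0 M := by
  unfold DD G.DD
  show EL M _ = EL M _
  refine EL_congr fun F => avg_congr fun l => ?_
  rw [show G.cutL (fun _ : Asg n => 0) ([] : List (Clause (j + 2) n)) = fun _ => 0 from rfl,
    hit_zset, hit_zset, zset_cutLit, zset_zero]
  rfl

/-- the bound for `M ≤ C0 * n` gives the bound for all `M` -/
theorem dd_of_G (j : ℕ) (hG : ∀ C0 : ℕ, ∃ A : ℝ, ∀ n : ℕ, j + 3 ≤ n → ∀ J M : ℕ, M ≤ C0 * n →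
      G.DD J j n 0 M ≤ A) :
    ∃ A : ℝ, ∀ n : ℕ, j + 3 ≤ n → ∀ M : ℕ, DD j n 0 M ≤ A := by
  obtain ⟨C0, CT, hC0, hCT, hT⟩ := exists_tail (j + 3) (by omega)
  obtain ⟨A, hA⟩ := hG C0
  refine ⟨2 * |A| + 2 * CT, fun n hn M => ?_⟩
  have hne : Nonempty (Clause (j + 3) n) := nonempty_clause_var hn
  rcases le_or_gt M (C0 * n) with hM | hM
  · rw [DD_eq_G]
    refine (hA n hn 0 M hM).trans ?_
    have := le_abs_self A
    have := abs_nonneg A
    linarith
  · have h1 : DD j n 0 M = EL M (fun F : List (Clause (j + 3) n) => avg (fun l : Fin n × Bool =>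
        (hit Finset.univ F - hit (cutLit Finset.univ l) F) ^ 2)) := rfl
    have h2 : DD j n 0 (C0 * n) = EL M (fun F : List (Clause (j + 3) n) =>
        avg (fun l : Fin n × Bool =>
        (hit Finset.univ (F.take (C0 * n)) -
          hit (cutLit Finset.univ l) (F.take (C0 * n))) ^ 2)) := by
      rw [EL_take hM.le (fun F : List (Clause (j + 3) n) => avg (fun l : Fin n × Bool =>
        (hit Finset.univ F - hit (cutLit Finset.univ l) F) ^ 2))]
      rfl
    have h3 : DD j n 0 M ≤ EL M (fun F : List (Clause (j + 3) n) =>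
        2 * avg (fun l : Fin n × Bool =>
        (hit Finset.univ (F.take (C0 * n)) -
          hit (cutLit Finset.univ l) (F.take (C0 * n))) ^ 2) +
        2 * (hit Finset.univ F - hit Finset.univ (F.take (C0 * n))) ^ 2) := by
      rw [h1]
      refine EL_mono fun F => ?_
      rw [← avg_const_mul]
      have hb : ∀ x : ℝ, 0 ≤ x → avg (fun l : Fin n × Bool => (x : ℝ)) = x := by
        intro x _
        have : Nonempty (Fin n × Bool) := ⟨(⟨0, by omega⟩, true)⟩
        exact avg_const x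
      rw [← hb (2 * (hit Finset.univ F - hit Finset.univ (F.take (C0 * n))) ^ 2) (by positivity),
        ← avg_add]
      refine avg_mono fun l => ?_
      have e1 : hit (cutLit Finset.univ l) (F.take (C0 * n)) ≤ hit (cutLit Finset.univ l) F :=
        hit_take_le _ _ _
      have e2 : hit (cutLit Finset.univ l) F ≤ hit Finset.univ F :=
        hit_mono (cutLit_subset _ _) F
      have e3 : hit (cutLit Finset.univ l) (F.take (C0 * n)) ≤
          hit Finset.univ (F.take (C0 * n)) := hit_mono (cutLit_subset _ _) _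
      have e4 : hit Finset.univ (F.take (C0 * n)) ≤ hit Finset.univ F := hit_take_le _ _ _
      set a := hit Finset.univ (F.take (C0 * n)) - hit (cutLit Finset.univ l) (F.take (C0 * n))
        with ha
      set b := hit Finset.univ F - hit Finset.univ (F.take (C0 * n)) with hb'
      have h4 : (hit Finset.univ F - hit (cutLit Finset.univ l) F) ^ 2 ≤ (a + b) ^ 2 := by
        refine pow_le_pow_left₀ (by linarith) ?_ 2
        rw [ha, hb']; linarith
      nlinarith [sq_nonneg (a - b)]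
    refine h3.trans ?_
    rw [EL_add, EL_const_mul, EL_const_mul, ← h2, DD_eq_G]
    have h5 := hA n hn 0 (C0 * n) le_rfl
    have h6 := hT n hn M Finset.univ
    have := le_abs_self A
    linarith

/-- S0217 for clause length `j + 3` from the horizon bound -/
theorem s0217_of_G (j : ℕ) (hG : ∀ C0 : ℕ, ∃ A : ℝ, ∀ n : ℕ, j + 3 ≤ n → ∀ J M : ℕ, M ≤ C0 * n →
      G.DD J j n 0 M ≤ A) :
    ∃ C : ℝ, ∀ n : ℕ, j + 3 ≤ n →
      Summable (fun m : ℕ => satProb (j + 3) n m) ∧
      Summable (fun m : ℕ => (2 * (m : ℝ) + 1) * satProb (j + 3) n m) ∧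
      (∑' m : ℕ, (2 * (m : ℝ) + 1) * satProb (j + 3) n m)
          - (∑' m : ℕ, satProb (j + 3) n m) ^ 2 ≤ C * n :=
  s0217_of_DD (dd_of_G j hG)

/-- S0217 for every clause length `k ≥ 3` -/
theorem s0217_all (hG : ∀ j C0 : ℕ, ∃ A : ℝ, ∀ n : ℕ, j + 3 ≤ n → ∀ J M : ℕ, M ≤ C0 * n →
      G.DD J j n 0 M ≤ A) (k : ℕ) (hk : 3 ≤ k) :
    ∃ C : ℝ, ∀ n : ℕ, k ≤ n →
      Summable (fun m : ℕ => satProb k n m) ∧
      Summable (fun m : ℕ => (2 * (m : ℝ) + 1) * satProb k n m) ∧
      (∑' m : ℕ, (2 * (m : ℝ) + 1) * satProb k n m)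
          - (∑' m : ℕ, satProb k n m) ^ 2 ≤ C * n := by
  obtain ⟨j, rfl⟩ : ∃ j, k = j + 3 := ⟨k - 3, by omega⟩
  exact s0217_of_G j (hG j)

end Crest.Agent.R153
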