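import Mathlib
import Crest.Agent.R141.KI0
import Crest.Agent.R153.SatLaw

/-!
# Row 153: the 3-SAT interaction law has a nonnegative factorization (helper354)
-/

set_option autoImplicit false

open MeasureTheory Crest.ProbabilityR.Diluted Crest.Agent.R141

namespace Crest.Agent.R153

/-- fair coin on `Bool` -/
noncomputable def coinB : Measure Bool :=
  (2 : ENNReal)⁻¹ • (Measure.dirac true + Measure.dirac false)

theorem coinB_singleton (b : Bool) : coinB {b} = 2⁻¹ := by
  unfold coinB
  cases b <;> simp

instance : IsProbabilityMeasure coinB := by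
  constructor
  unfold coinB
  simp only [Measure.smul_apply, Measure.add_apply, measure_univ, smul_eq_mul]
  rw [one_add_one_eq_two]
  exact ENNReal.inv_mul_cancel (by norm_num) (by norm_num)

/-- three fair coins -/
noncomputable def coin3 : Measure (Fin 3 → Bool) := Measure.pi fun _ => coinB

instance : IsProbabilityMeasure coin3 := by unfold coin3; infer_instance

theorem coin3_eq : coin3 = (8 : ENNReal)⁻¹ • ∑ J : Fin 3 → Bool, Measure.dirac J := by
  apply Measure.ext_of_singleton
  intro ω
  unfold coin3
  rw [Measure.pi_singleton]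
  simp only [coinB_singleton, Finset.prod_const, Finset.card_univ, Fintype.card_fin,
    Measure.smul_apply, Measure.finsetSum_apply, smul_eq_mul]
  rw [Finset.sum_eq_single ω]
  · simp only [Measure.dirac_apply, Set.indicator_of_mem, Set.mem_singleton_iff, Pi.one_apply,
      mul_one]
    rw [← ENNReal.inv_pow]
    norm_num
  · intro J _ hJ
    simp [hJ]
  · simp

theorem map_coin3 (β : ℝ) : coin3.map (satInter β) = muSAT β := by
  have hmeas : Measurable (satInter β) := (measurable_of_countable _)
  refine Measure.ext fun s hs => ?_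
  rw [Measure.map_apply hmeas hs, coin3_eq, muSAT_eq]
  simp only [Measure.smul_apply, Measure.finsetSum_apply, smul_eq_mul]
  congr 1
  refine Finset.sum_congr rfl fun J _ => ?_
  rw [Measure.dirac_apply' _ (hmeas hs), Measure.dirac_apply' _ hs]
  rfl

/-- The 3-SAT law has a factorization with nonnegative site functions. -/
theorem hasFactorizationNN_muSAT {β : ℝ} (hβ : 0 ≤ β) : HasFactorizationNN 3 (muSAT β) := by
  have hb0 : 0 ≤ 1 - Real.exp (-β) := by
    have : Real.exp (-β) ≤ 1 := Real.exp_le_one_iff.mpr (by linarith)
    linarith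
  have hb1 : 1 - Real.exp (-β) < 1 := by
    have := Real.exp_pos (-β)
    linarith
  refine ⟨Fin 3 → Bool, inferInstance, coin3, inferInstance, fun _ => 1,
    fun _ => Real.exp (-β) - 1, fun ℓ ω e => if e = ω ℓ then 1 else 0,
    measurable_const, measurable_const, fun ℓ => (measurable_of_countable _), ?_, ?_, ?_, ?_, ?_, ?_, ?_⟩
  · -- independence
    have := ProbabilityTheory.iIndepFun_pi (μ := fun _ : Fin 3 => coinB)
      (X := fun _ : Fin 3 => fun (c : Bool) (e : Bool) => (if e = c then (1 : ℝ) else 0))
      (fun _ => (measurable_of_countable _).aemeasurable)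
    exact this
  · intro ℓ
    refine ⟨(measurable_of_countable _).aemeasurable, (measurable_of_countable _).aemeasurable, ?_⟩
    have h : ∀ i : Fin 3, coin3.map (fun ω => fun e : Bool => if e = ω i then (1 : ℝ) else 0) =
        coinB.map (fun (c : Bool) (e : Bool) => (if e = c then (1 : ℝ) else 0)) := by
      intro i
      have h1 : coin3.map (fun ω => ω i) = coinB := by
        have := (measurePreserving_eval (fun _ : Fin 3 => coinB) i).map_eq
        exact this
      conv_rhs => rw [← h1]
      exact (Measure.map_map (g := fun (c : Bool) (e : Bool) => (if e = c then (1 : ℝ) else 0))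
        (measurable_of_countable _) (measurable_pi_apply i)).symm
    rw [h ℓ, h ⟨0, Fin.pos ℓ⟩]
  · exact ProbabilityTheory.indepFun_const_left _ _
  · refine Filter.Eventually.of_forall fun ω => ⟨one_pos, fun s => ?_⟩
    have hprod : |∏ ℓ : Fin 3, (if s ℓ = ω ℓ then (1 : ℝ) else 0)| ≤ 1 := by
      rw [Finset.abs_prod]
      refine Finset.prod_le_one (fun _ _ => abs_nonneg _) fun i _ => ?_
      split_ifs <;> simp
    rw [abs_mul]
    have hb : |Real.exp (-β) - 1| < 1 := by
      rw [abs_sub_comm, abs_of_nonneg hb0]; exact hb1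
    calc |Real.exp (-β) - 1| * |∏ ℓ : Fin 3, (if s ℓ = ω ℓ then (1 : ℝ) else 0)|
        ≤ |Real.exp (-β) - 1| * 1 := by
          exact mul_le_mul_of_nonneg_left hprod (abs_nonneg _)
      _ < 1 := by rw [mul_one]; exact hb
  · intro n _
    refine ⟨integrable_const _, ?_⟩
    rw [integral_const]
    refine smul_nonneg (by positivity) (pow_nonneg ?_ _)
    linarith
  · rw [← map_coin3 β]
    congr 1
    funext ω s
    unfold satInter
    by_cases h : s = ω
    · subst h
      simp
    · have : ∃ ℓ, s ℓ ≠ ω ℓ := by
        by_contra hcon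
        push Not at hcon
        exact h (funext hcon)
      obtain ⟨ℓ, hℓ⟩ := this
      have h0 : (∏ ℓ : Fin 3, (if s ℓ = ω ℓ then (1 : ℝ) else 0)) = 0 :=
        Finset.prod_eq_zero (Finset.mem_univ ℓ) (if_neg hℓ)
      rw [if_neg h]
      simp only [h0]
      simp
  · intro ℓ
    refine Filter.Eventually.of_forall fun ω e => ?_
    show (0 : ℝ) ≤ if e = ω ℓ then 1 else 0
    split_ifs <;> norm_num

end Crest.Agent.R153
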