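import Crest.Agent.R141.KI
import Crest.Agent.R153.SatFact

/-!
# Row 153: the key inequality for the 3-SAT law (helper354)
-/

set_option autoImplicit false

open MeasureTheory Crest.ProbabilityR.Diluted Crest.Agent.R141

namespace Crest.Agent.R153

theorem kiProp_muSAT {β : ℝ} (hβ : 0 ≤ β) : KIProp 3 (muSAT β) :=
  kiProp_of_factorizationNN (by norm_num) (muSAT β) (integrable_muSAT β _)
    (hasFactorizationNN_muSAT hβ)

end Crest.Agent.R153
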