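import Crest.Agent.R153.S0218Glue
import Crest.Agent.R153.RC1
import Crest.Agent.R153.RC2Log
import Crest.Agent.R153.SatKI
import Crest.Agent.R141.Upper
import Crest.Agent.S0217

/-!
Row 153: S0218 from the lower bound half (`PartL`) of row 141.
-/

set_option autoImplicit false

namespace Crest.Agent.R153

open MeasureTheory Filter Topology Crest.ProbabilityR.RandomSAT Crest.ProbabilityR.Diluted
open Crest.Agent.R141

/-- Soundness of the right cut: a negative trial bounds the threshold. -/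
theorem le_of_hasNegTrial {α : ℝ} (hα : IsSharpThreshold (satProb 3) α) {c : ℝ} (hc : 0 < c)
    (h : HasNegTrial c) : α ≤ c := by
  by_contra hcon
  push Not at hcon
  obtain ⟨b, r, m, X, hm, hX, hlt⟩ := h
  have hβ : 0 ≤ (b : ℝ) * Real.log 2 :=
    mul_nonneg (Nat.cast_nonneg b) (Real.log_nonneg (by norm_num))
  set B := trialFunctional 3 c (muSAT ((b : ℝ) * Real.log 2)) (Measure.dirac 0) r m X with hB
  have hU : PartU 3 c (muSAT ((b : ℝ) * Real.log 2)) (Measure.dirac 0) :=
    partU_of_KI 3 (by norm_num) c hc.le _ _ (integrable_muSAT _ _) (integrable_dirac (by simp))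
      (kiProp_muSAT hβ)
  have h1 := Wr.rc1 hα hc.le hcon hβ (ε := -B / 2) (by linarith)
  obtain ⟨N, h2, h3⟩ := (h1.and (eventually_ge_atTop 1)).exists
  have h4 := hU N h3 r m X hm hX
  linarith

/-- Completeness of the right cut: above the threshold there is a negative trial. -/
theorem hasNegTrial_of_lt {α : ℝ} (hα : IsSharpThreshold (satProb 3) α) {c : ℝ}
    (hL : PartL 3 c) (hc : α < c) : HasNegTrial c := by
  obtain ⟨b, hb⟩ := Br.rc2_log hα hc
  obtain ⟨r, m, X, hm, hX, hle⟩ := partL_sat hL ((b : ℝ) * Real.log 2) (-1) hb.frequently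
    (ε := 1 / 2) (by norm_num)
  exact ⟨b, r, m, X, hm, hX, by linarith⟩

/-- S0218 from `PartL`. -/
theorem s0218_of_partL (hL : ∀ c : ℝ, 0 < c → PartL 3 c) (α : ℝ)
    (hα : IsSharpThreshold (satProb 3) α) :
    ∃ f : ℕ → ℕ, Computable f ∧ ∀ r : ℕ, |(f r : ℝ) / 2 ^ r - α| ≤ 1 / 2 ^ r :=
  s0218_of hα (Crest.Agent.S0217.result 3 le_rfl)
    (fun _ hc h => le_of_hasNegTrial hα hc h)
    (fun c hc h => hasNegTrial_of_lt hα (hL c hc) h)

end Crest.Agent.R153
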