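import Crest.Agent.R153.GridFinal
import Crest.Agent.R153.Cuts
import Crest.Agent.R153.LeftCert
import Crest.Agent.R153.LeftCut

/-!
Row 153: S0218 from S0217 (`k = 3`), the soundness of the right cut and the existence of negative
trials above the threshold.
-/

set_option autoImplicit false

namespace Crest.Agent.R153

open Crest.ProbabilityR.RandomSAT

/-- The glue of S0218. -/
theorem s0218_of {α : ℝ} (hα : IsSharpThreshold (satProb 3) α)
    (hvar : ∃ C : ℝ, ∀ n : ℕ, 3 ≤ n →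
      Summable (fun m : ℕ => satProb 3 n m) ∧
      Summable (fun m : ℕ => (2 * (m : ℝ) + 1) * satProb 3 n m) ∧
      (∑' m : ℕ, (2 * (m : ℝ) + 1) * satProb 3 n m)
          - (∑' m : ℕ, satProb 3 n m) ^ 2 ≤ C * n)
    (hU : ∀ c : ℝ, 0 < c → HasNegTrial c → α ≤ c)
    (hL : ∀ c : ℝ, 0 < c → α < c → HasNegTrial c) :
    ∃ f : ℕ → ℕ, Computable f ∧ ∀ r : ℕ, |(f r : ℝ) / 2 ^ r - α| ≤ 1 / 2 ^ r := by
  have h0 := threshold_nonneg hα
  obtain ⟨Lo, hLo, lo1, lo2⟩ := exists_left_certificate hα (Wr.left_cut hα hvar)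
  obtain ⟨Up, hUp, up1, up2⟩ := exists_right_certificate
  refine computable_of_cuts α h0 Lo Up hLo hUp lo1 lo2 (fun a k w h => ?_) (fun a k h => ?_)
  · obtain ⟨ha, hneg⟩ := up1 a k w h
    have ha' : (0 : ℝ) < a := by exact_mod_cast ha
    exact hU _ (by positivity) hneg
  · have hpos : (0 : ℝ) < (a : ℝ) / 2 ^ k := h0.trans_lt h
    have ha : 0 < a := by
      rcases Nat.eq_zero_or_pos a with h1 | h1
      · rw [h1] at hpos; simp at hpos
      · exact h1
    exact up2 a k ha (hL _ hpos h)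

end Crest.Agent.R153
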