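import Mathlib
import Crest.Prelude.Def_DilutedSpinGlass
import Crest.Agent.R153.SatTrial
import Crest.Agent.R153.PMTend

/-!
Row 153, part C4: bounds, continuity in `(m, X)` and truncation of the trial functional of soft 3-SAT.
-/

set_option autoImplicit false
open MeasureTheory Filter Topology
open Crest.ProbabilityR.Diluted

namespace Crest.Agent.R153

variable {β c : ℝ} {r : ℕ}

lemma integral_log_powerMeans_between {L : Type*} [Fintype L] {m : Fin r → ℝ}
    (hm : ∀ d, 0 < m d) {W : (L → Fin (r + 1) → unitInterval) → ℝ} (hW : Measurable W)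
    {a : ℝ} (hab : ∀ u, Real.exp (-a) ≤ W u ∧ W u ≤ 1) :
    -a ≤ ∫ u, Real.log (powerMeans m W u) ∂(uniformArrays L r) ∧
      ∫ u, Real.log (powerMeans m W u) ∂(uniformArrays L r) ≤ 0 := by
  have h0 := powerMeans_bounds m hm hW (Real.exp_pos _) hab
  have h1 : ∀ u, -a ≤ Real.log (powerMeans m W u) ∧ Real.log (powerMeans m W u) ≤ 0 := by
    intro u
    have hpos : 0 < powerMeans m W u := lt_of_lt_of_le (Real.exp_pos _) (h0.2 u).1
    refine ⟨?_, Real.log_nonpos hpos.le (h0.2 u).2⟩
    rw [Real.le_log_iff_exp_le hpos]; exact (h0.2 u).1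
  have hprob : IsProbabilityMeasure (uniformArrays L r) := by
    unfold uniformArrays; infer_instance
  have hint : Integrable (fun u => Real.log (powerMeans m W u)) (uniformArrays L r) := by
    refine Integrable.of_bound (h0.1.log).aestronglyMeasurable |a| (ae_of_all _ fun u => ?_)
    rw [Real.norm_eq_abs, abs_of_nonpos (h1 u).2]
    exact le_trans (by linarith [(h1 u).1]) (le_abs_self a)
  constructor
  · have := integral_mono (integrable_const (-a)) hint (fun u => (h1 u).1)
    simpa using this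
  · have := integral_mono hint (integrable_const (0 : ℝ)) (fun u => (h1 u).2)
    simpa using this

lemma siteAvg_bounds (hβ : 0 ≤ β) {m : Fin r → ℝ} (hm : ∀ d, 0 < m d)
    {X : (Fin (r + 1) → unitInterval) → ℝ} (hX : Measurable X) (k : ℕ) :
    -(β * k) ≤ siteAvg β r m X k ∧ siteAvg β r m X k ≤ 0 := by
  have h := fun J : Fin k → Fin 3 → Bool =>
    integral_log_powerMeans_between (a := β * k) hm (measurable_site hX β J)
      (fun u => siteTerm_satInter_bounds hβ J _)
  have h8 : (0 : ℝ) < 8 ^ k := by positivity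
  have hcard : (Fintype.card (Fin k → Fin 3 → Bool) : ℝ) = 8 ^ k := by
    simp
  unfold siteAvg
  constructor
  · have h1 : ∑ _J : Fin k → Fin 3 → Bool, -(β * k) ≤ ∑ J : Fin k → Fin 3 → Bool,
        ∫ u, Real.log (powerMeans m
      (fun u' : (Fin k × Fin 2) → Fin (r + 1) → unitInterval =>
        siteTerm (p := 3) 0 (fun j => satInter β (J j)) (fun j ℓ => X (u' (j, ℓ)))) u)
      ∂(uniformArrays (Fin k × Fin 2) r) := Finset.sum_le_sum fun J _ => (h J).1
    rw [Finset.sum_const, Finset.card_univ, nsmul_eq_mul, hcard] at h1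
    rw [inv_mul_eq_div, le_div_iff₀ h8]
    linarith
  · refine mul_nonpos_of_nonneg_of_nonpos (by positivity) ?_
    exact Finset.sum_nonpos fun J _ => (h J).2

lemma edgeAvg_bounds (hβ : 0 ≤ β) {m : Fin r → ℝ} (hm : ∀ d, 0 < m d)
    {X : (Fin (r + 1) → unitInterval) → ℝ} (hX : Measurable X) :
    -β ≤ edgeAvg β r m X ∧ edgeAvg β r m X ≤ 0 := by
  have h := fun s₀ : Fin 3 → Bool =>
    integral_log_powerMeans_between (a := β) hm (measurable_edge hX β s₀)
      (fun u => edgeTerm_satInter_bounds hβ s₀ _)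
  unfold edgeAvg
  constructor
  · have h1 : ∑ _J : Fin 3 → Bool, -β ≤ ∑ s₀ : Fin 3 → Bool,
        ∫ u, Real.log (powerMeans m
      (fun u' : Fin 3 → Fin (r + 1) → unitInterval =>
        edgeTerm (satInter β s₀) (fun ℓ => X (u' ℓ))) u)
      ∂(uniformArrays (Fin 3) r) := Finset.sum_le_sum fun J _ => (h J).1
    rw [Finset.sum_const, Finset.card_univ, nsmul_eq_mul] at h1
    have h8 : (Fintype.card (Fin 3 → Bool) : ℝ) = 8 := by simp
    rw [h8] at h1
    linarith
  · refine mul_nonpos_of_nonneg_of_nonpos (by positivity) ?_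
    exact Finset.sum_nonpos fun J _ => (h J).2

lemma poissonWeight_nonneg {lam : ℝ} (h : 0 ≤ lam) (k : ℕ) : 0 ≤ poissonWeight lam k := by
  unfold poissonWeight; positivity

lemma summable_poissonWeight_mul (lam b : ℝ) :
    Summable (fun k : ℕ => poissonWeight lam k * (b * k)) := by
  have h1 : Summable (fun k : ℕ => lam ^ k / (k.factorial : ℝ)) := Real.summable_pow_div_factorial lam
  have h2 : Summable (fun k : ℕ => (k : ℝ) * (lam ^ k / (k.factorial : ℝ))) := by
    rw [← summable_nat_add_iff 1]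
    have h3 : (fun k : ℕ => ((k + 1 : ℕ) : ℝ) * (lam ^ (k + 1) / ((k + 1).factorial : ℝ))) =
        fun k : ℕ => lam * (lam ^ k / (k.factorial : ℝ)) := by
      funext k
      rw [Nat.factorial_succ]
      have hk : ((k + 1 : ℕ) : ℝ) ≠ 0 := by positivity
      have hf : ((k.factorial : ℕ) : ℝ) ≠ 0 := by positivity
      push_cast at hk ⊢
      field_simp
      ring
    rw [h3]
    exact h1.mul_left lam
  have h4 : (fun k : ℕ => poissonWeight lam k * (b * k)) =
      fun k : ℕ => (Real.exp (-lam) * b) * ((k : ℝ) * (lam ^ k / (k.factorial : ℝ))) := by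
    funext k; unfold poissonWeight; ring
  rw [h4]
  exact h2.mul_left _

lemma norm_term_le (hβ : 0 ≤ β) (hc : 0 ≤ c) {m : Fin r → ℝ} (hm : ∀ d, 0 < m d)
    {X : (Fin (r + 1) → unitInterval) → ℝ} (hX : Measurable X) (k : ℕ) :
    ‖poissonWeight (c * 3) k * siteAvg β r m X k‖ ≤ poissonWeight (c * 3) k * (β * k) := by
  have hw := poissonWeight_nonneg (lam := c * 3) (by positivity) k
  have h := siteAvg_bounds hβ hm hX k
  rw [norm_mul, Real.norm_of_nonneg hw, Real.norm_eq_abs, abs_of_nonpos h.2]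
  exact mul_le_mul_of_nonneg_left (by linarith [h.1]) hw

lemma summable_site (hβ : 0 ≤ β) (hc : 0 ≤ c) {m : Fin r → ℝ} (hm : ∀ d, 0 < m d)
    {X : (Fin (r + 1) → unitInterval) → ℝ} (hX : Measurable X) :
    Summable (fun k : ℕ => poissonWeight (c * 3) k * siteAvg β r m X k) :=
  Summable.of_norm_bounded (summable_poissonWeight_mul _ _) (norm_term_le hβ hc hm hX)

/-! ### continuity -/

lemma ae_labels {L : Type*} [Fintype L] {X : (Fin (r + 1) → unitInterval) → ℝ}
    {Xn : ℕ → (Fin (r + 1) → unitInterval) → ℝ}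
    (hX : ∀ᵐ v ∂(Measure.pi fun _ : Fin (r + 1) => (volume : Measure unitInterval)),
      Tendsto (fun n => Xn n v) atTop (𝓝 (X v))) :
    ∀ᵐ u ∂(uniformArrays L r), ∀ l : L, Tendsto (fun n => Xn n (u l)) atTop (𝓝 (X (u l))) := by
  rw [ae_all_iff]
  intro l
  have h := (measurePreserving_eval (fun _ : L =>
    (Measure.pi fun _ : Fin (r + 1) => (volume : Measure unitInterval))) l)
  exact h.quasiMeasurePreserving.ae hX

lemma tendsto_siteAvg (hβ : 0 ≤ β) {m : Fin r → ℝ} (hm : ∀ d, 0 < m d)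
    {mn : ℕ → Fin r → ℝ} (hmn0 : ∀ n d, 0 < mn n d) (hmn : Tendsto mn atTop (𝓝 m))
    {X : (Fin (r + 1) → unitInterval) → ℝ} (hX : Measurable X)
    {Xn : ℕ → (Fin (r + 1) → unitInterval) → ℝ} (hXn : ∀ n, Measurable (Xn n))
    (hlim : ∀ᵐ v ∂(Measure.pi fun _ : Fin (r + 1) => (volume : Measure unitInterval)),
      Tendsto (fun n => Xn n v) atTop (𝓝 (X v))) (k : ℕ) :
    Tendsto (fun n => siteAvg β r (mn n) (Xn n) k) atTop (𝓝 (siteAvg β r m X k)) := by
  unfold siteAvg
  refine Tendsto.const_mul _ ?_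
  refine tendsto_finsetSum _ fun J _ => ?_
  refine tendsto_integral_log_powerMeans hm hmn0 hmn (measurable_site hX β J)
    (fun n => measurable_site (hXn n) β J) (Real.exp_pos (-(β * k)))
    (fun u => siteTerm_satInter_bounds hβ J _) (fun n u => siteTerm_satInter_bounds hβ J _) ?_
  filter_upwards [ae_labels (L := Fin k × Fin 2) hlim] with u hu
  simp only [siteTerm_satInter]
  refine Tendsto.const_mul _ ?_
  refine tendsto_finsetSum _ fun ε _ => ?_
  refine tendsto_finsetProd _ fun j _ => ?_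
  unfold msgW
  refine Tendsto.const_sub _ (Tendsto.const_mul _ ?_)
  by_cases h : ε = J j 2
  · simp only [h, if_true]
    exact (((continuous_tilt _).tendsto _).comp (hu (j, 0))).mul
      (((continuous_tilt _).tendsto _).comp (hu (j, 1)))
  · simp only [h, if_false]
    exact tendsto_const_nhds

lemma tendsto_edgeAvg (hβ : 0 ≤ β) {m : Fin r → ℝ} (hm : ∀ d, 0 < m d)
    {mn : ℕ → Fin r → ℝ} (hmn0 : ∀ n d, 0 < mn n d) (hmn : Tendsto mn atTop (𝓝 m))
    {X : (Fin (r + 1) → unitInterval) → ℝ} (hX : Measurable X)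
    {Xn : ℕ → (Fin (r + 1) → unitInterval) → ℝ} (hXn : ∀ n, Measurable (Xn n))
    (hlim : ∀ᵐ v ∂(Measure.pi fun _ : Fin (r + 1) => (volume : Measure unitInterval)),
      Tendsto (fun n => Xn n v) atTop (𝓝 (X v))) :
    Tendsto (fun n => edgeAvg β r (mn n) (Xn n)) atTop (𝓝 (edgeAvg β r m X)) := by
  unfold edgeAvg
  refine Tendsto.const_mul _ ?_
  refine tendsto_finsetSum _ fun s₀ _ => ?_
  refine tendsto_integral_log_powerMeans hm hmn0 hmn (measurable_edge hX β s₀)
    (fun n => measurable_edge (hXn n) β s₀) (Real.exp_pos (-β))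
    (fun u => edgeTerm_satInter_bounds hβ s₀ _) (fun n u => edgeTerm_satInter_bounds hβ s₀ _) ?_
  filter_upwards [ae_labels (L := Fin 3) hlim] with u hu
  simp only [edgeTerm_satInter]
  refine Tendsto.const_sub _ (Tendsto.const_mul _ ?_)
  refine tendsto_finsetProd _ fun j _ => ?_
  exact ((continuous_tilt _).tendsto _).comp (hu j)

theorem tendsto_trialFunctional_muSAT (hβ : 0 ≤ β) (hc : 0 ≤ c) {m : Fin r → ℝ}
    (hm : ∀ d, 0 < m d) {mn : ℕ → Fin r → ℝ} (hmn0 : ∀ n d, 0 < mn n d)
    (hmn : Tendsto mn atTop (𝓝 m))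
    {X : (Fin (r + 1) → unitInterval) → ℝ} (hX : Measurable X)
    {Xn : ℕ → (Fin (r + 1) → unitInterval) → ℝ} (hXn : ∀ n, Measurable (Xn n))
    (hlim : ∀ᵐ v ∂(Measure.pi fun _ : Fin (r + 1) => (volume : Measure unitInterval)),
      Tendsto (fun n => Xn n v) atTop (𝓝 (X v))) :
    Tendsto (fun n => trialFunctional 3 c (muSAT β) (Measure.dirac 0) r (mn n) (Xn n)) atTop
      (𝓝 (trialFunctional 3 c (muSAT β) (Measure.dirac 0) r m X)) := by
  simp only [trialFunctional_muSAT]
  refine Tendsto.sub (Tendsto.const_add _ ?_)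
    (Tendsto.const_mul _ (tendsto_edgeAvg hβ hm hmn0 hmn hX hXn hlim))
  refine tendsto_tsum_of_dominated_convergence (summable_poissonWeight_mul (c * 3) β) ?_ ?_
  · intro k
    exact Tendsto.const_mul _ (tendsto_siteAvg hβ hm hmn0 hmn hX hXn hlim k)
  · exact Eventually.of_forall fun n k => norm_term_le hβ hc (hmn0 n) (hXn n) k

/-! ### truncation of the Poisson sum -/

/-- the trial functional with the Poisson sum truncated to `k < K` -/
noncomputable def truncFunctional (c β : ℝ) (r : ℕ) (m : Fin r → ℝ)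
    (X : (Fin (r + 1) → unitInterval) → ℝ) (K : ℕ) : ℝ :=
  Real.log 2 + (∑ k ∈ Finset.range K, poissonWeight (c * 3) k * siteAvg β r m X k)
    - 2 * c * edgeAvg β r m X

theorem trialFunctional_le_trunc (hβ : 0 ≤ β) (hc : 0 ≤ c) {m : Fin r → ℝ}
    (hm : ∀ d, 0 < m d) {X : (Fin (r + 1) → unitInterval) → ℝ} (hX : Measurable X) (K : ℕ) :
    trialFunctional 3 c (muSAT β) (Measure.dirac 0) r m X ≤ truncFunctional c β r m X K := by
  rw [trialFunctional_muSAT]
  unfold truncFunctional
  have h1 := (summable_site hβ hc hm hX).sum_add_tsum_nat_add K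
  have h2 : ∑' k : ℕ, poissonWeight (c * 3) (k + K) * siteAvg β r m X (k + K) ≤ 0 := by
    refine tsum_nonpos fun k => ?_
    exact mul_nonpos_of_nonneg_of_nonpos (poissonWeight_nonneg (by positivity) _)
      (siteAvg_bounds hβ hm hX _).2
  linarith

theorem tendsto_truncFunctional (hβ : 0 ≤ β) (hc : 0 ≤ c) {m : Fin r → ℝ}
    (hm : ∀ d, 0 < m d) {X : (Fin (r + 1) → unitInterval) → ℝ} (hX : Measurable X) :
    Tendsto (truncFunctional c β r m X) atTop
      (𝓝 (trialFunctional 3 c (muSAT β) (Measure.dirac 0) r m X)) := by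
  rw [trialFunctional_muSAT]
  unfold truncFunctional
  refine Tendsto.sub_const (Tendsto.const_add _ ?_) _
  exact (summable_site hβ hc hm hX).hasSum.tendsto_sum_nat

/-- `B < 0` iff some truncation is negative. -/
theorem trialFunctional_neg_iff (hβ : 0 ≤ β) (hc : 0 ≤ c) {m : Fin r → ℝ}
    (hm : ∀ d, 0 < m d) {X : (Fin (r + 1) → unitInterval) → ℝ} (hX : Measurable X) :
    trialFunctional 3 c (muSAT β) (Measure.dirac 0) r m X < 0 ↔
      ∃ K, truncFunctional c β r m X K < 0 := by
  constructor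
  · intro h
    exact ((tendsto_truncFunctional hβ hc hm hX).eventually (gt_mem_nhds h)).exists
  · rintro ⟨K, hK⟩
    exact lt_of_le_of_lt (trialFunctional_le_trunc hβ hc hm hX K) hK

end Crest.Agent.R153
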