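import Crest.Agent.R153.LossSq

/-! Row 153 (S0217): adding several clauses one after the other (helper852). -/

set_option autoImplicit false

open Crest.ProbabilityR.RandomSAT

namespace Crest.Agent.R153

/-- sum of the squared losses when the clauses of `Q` are added one after the other -/
noncomputable def SQ {k m n : ℕ} : Finset (Asg n) → List (Clause m n) → List (Clause k n) → ℝ
  | _, [], _ => 0
  | Y, q :: Q, F => (hit Y F - hit (cut Y q) F) ^ 2 + SQ (cut Y q) Q F

theorem SQ_nonneg {k m n : ℕ} (Q : List (Clause m n)) (F : List (Clause k n)) :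
    ∀ Y : Finset (Asg n), 0 ≤ SQ Y Q F := by
  induction Q with
  | nil => intro Y; exact le_rfl
  | cons q Q ih => intro Y; exact add_nonneg (sq_nonneg _) (ih _)

theorem sq_add_loss_le {k m n : ℕ} (F : List (Clause k n)) (x : ℝ) (Q : List (Clause m n)) :
    ∀ Y : Finset (Asg n),
    (hit Y F - hit (cutL Y Q) F + x) ^ 2 ≤ (Q.length + 1) * (SQ Y Q F + x ^ 2) := by
  induction Q with
  | nil => intro Y; simp [cutL_nil, SQ]
  | cons q Q ih =>
    intro Y
    have h := ih (cut Y q)
    rw [cutL_cons]
    show _ ≤ _ * ((hit Y F - hit (cut Y q) F) ^ 2 + SQ (cut Y q) Q F + x ^ 2)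
    set a := hit Y F - hit (cut Y q) F with ha
    set r := hit (cut Y q) F - hit (cutL (cut Y q) Q) F + x with hr
    set s := SQ (cut Y q) Q F + x ^ 2 with hs
    have hN : (0 : ℝ) < (Q.length : ℝ) + 1 := by positivity
    set N : ℝ := (Q.length : ℝ) + 1 with hNdef
    have e1 : hit Y F - hit (cutL (cut Y q) Q) F + x = a + r := by rw [ha, hr]; ring
    have e2 : (hit Y F - hit (cut Y q) F) ^ 2 + SQ (cut Y q) Q F + x ^ 2 = a ^ 2 + s := by
      rw [hs, ha]; ring
    rw [e1]
    have e3 : a ^ 2 + SQ (cut Y q) Q F + x ^ 2 = a ^ 2 + s := by rw [hs]; ring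
    rw [e3]
    push_cast [List.length_cons]
    have h2 : 0 ≤ N * ((N + 1) * (a ^ 2 + s) - (a + r) ^ 2) := by
      have : N * ((N + 1) * (a ^ 2 + s) - (a + r) ^ 2) =
        (N * a - r) ^ 2 + N * (N * s - r ^ 2) + (N * s - r ^ 2) := by ring
      rw [this]
      have h3 : 0 ≤ N * s - r ^ 2 := by linarith
      positivity
    have h4 : 0 ≤ (N + 1) * (a ^ 2 + s) - (a + r) ^ 2 := by
      by_contra hcon
      push Not at hcon
      have := mul_neg_of_pos_of_neg hN hcon
      linarith
    rw [← hNdef]
    linarith

theorem cutL_snoc {m n : ℕ} (X : Finset (Asg n)) (E : List (Clause m n)) (q : Clause m n) :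
    cutL X (E ++ [q]) = cut (cutL X E) q := by
  rw [cutL_append, cutL_cons, cutL_nil]

/-- `i` clauses of the environment, then one more clause -/
theorem EL_snoc {α : Type*} [Fintype α] (i : ℕ) (f : List α → ℝ) :
    EL i (fun E => avg (fun q => f (E ++ [q]))) = EL (i + 1) f := by
  rw [EL_append i 1]
  rfl

theorem EL_SQ_le {j n : ℕ} (ε A Cε : ℝ) (hε : 0 < ε) (hε1 : ε ≤ 1)
    (hDD : ∀ i M : ℕ, DD j n i M ≤ A * 2 ^ i) (hCε : 0 ≤ Cε)
    (hT : ∀ (M : ℕ) (X : Finset (Asg n)),
      EL M (fun F : List (Clause (j + 3) n) => (Teps ε X F) ^ 2) ≤ Cε) (a : ℕ) :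
    ∀ b i : ℕ,
      EL i (fun E : List (Clause (j + 2) n) => EL b (fun Q : List (Clause (j + 2) n) =>
        EL a (fun F : List (Clause (j + 3) n) => SQ (cutL Finset.univ E) Q F))) ≤
        ε ^ (j + 1) * A * 2 ^ i * (2 ^ b - 1) + b * Cε := by
  intro b
  induction b with
  | zero =>
    intro i
    have : (fun E : List (Clause (j + 2) n) => EL 0 (fun Q : List (Clause (j + 2) n) =>
        EL a (fun F : List (Clause (j + 3) n) => SQ (cutL Finset.univ E) Q F))) =
        fun _ => 0 := by
      funext E
      exact EL_zero_fun a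
    rw [this, EL_zero_fun]
    simp
  | succ b ih =>
    intro i
    -- the new clause, conditionally on the environment
    have h1 : ∀ E : List (Clause (j + 2) n), EL (b + 1) (fun Q : List (Clause (j + 2) n) =>
        EL a (fun F : List (Clause (j + 3) n) => SQ (cutL Finset.univ E) Q F)) ≤
        (ε ^ (j + 1) * EL a (fun F : List (Clause (j + 3) n) => avg (fun l : Fin n × Bool =>
          (hit (cutL Finset.univ E) F - hit (cutLit (cutL Finset.univ E) l) F) ^ 2)) + Cε) +
        avg (fun q : Clause (j + 2) n => EL b (fun Q : List (Clause (j + 2) n) =>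
        EL a (fun F : List (Clause (j + 3) n) => SQ (cutL Finset.univ (E ++ [q])) Q F))) := by
      intro E
      have e1 : EL (b + 1) (fun Q : List (Clause (j + 2) n) =>
        EL a (fun F : List (Clause (j + 3) n) => SQ (cutL Finset.univ E) Q F)) =
        avg (fun q : Clause (j + 2) n => EL b (fun Q : List (Clause (j + 2) n) =>
          EL a (fun F : List (Clause (j + 3) n) =>
            (hit (cutL Finset.univ E) F - hit (cut (cutL Finset.univ E) q) F) ^ 2))) +
        avg (fun q : Clause (j + 2) n => EL b (fun Q : List (Clause (j + 2) n) =>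
        EL a (fun F : List (Clause (j + 3) n) => SQ (cutL Finset.univ (E ++ [q])) Q F))) := by
        rw [EL_succ, ← avg_add]
        refine avg_congr fun q => ?_
        rw [← EL_add]
        refine EL_congr fun Q => ?_
        rw [← EL_add]
        refine EL_congr fun F => ?_
        rw [cutL_snoc]
        rfl
      rw [e1]
      refine add_le_add ?_ le_rfl
      calc avg (fun q : Clause (j + 2) n => EL b (fun _ : List (Clause (j + 2) n) =>
            EL a (fun F : List (Clause (j + 3) n) =>
              (hit (cutL Finset.univ E) F - hit (cut (cutL Finset.univ E) q) F) ^ 2)))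
          ≤ avg (fun q : Clause (j + 2) n => EL a (fun F : List (Clause (j + 3) n) =>
              (hit (cutL Finset.univ E) F - hit (cut (cutL Finset.univ E) q) F) ^ 2)) :=
            avg_mono fun q => EL_const_le (EL_nonneg fun F => sq_nonneg _)
        _ = EL a (fun F : List (Clause (j + 3) n) => avg (fun q : Clause (j + 2) n =>
              (hit (cutL Finset.univ E) F - hit (cut (cutL Finset.univ E) q) F) ^ 2)) := by
            rw [EL_avg_comm]
        _ ≤ EL a (fun F : List (Clause (j + 3) n) => ε ^ (j + 1) * avg (fun l : Fin n × Bool =>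
              (hit (cutL Finset.univ E) F - hit (cutLit (cutL Finset.univ E) l) F) ^ 2) +
              (Teps ε (cutL Finset.univ E) F) ^ 2) :=
            EL_mono fun F => avg_loss_sq_le ε hε hε1 _ F
        _ = ε ^ (j + 1) * EL a (fun F : List (Clause (j + 3) n) => avg (fun l : Fin n × Bool =>
              (hit (cutL Finset.univ E) F - hit (cutLit (cutL Finset.univ E) l) F) ^ 2)) +
              EL a (fun F : List (Clause (j + 3) n) =>
              (Teps ε (cutL Finset.univ E) F) ^ 2) := by
            rw [EL_add, EL_const_mul]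
        _ ≤ _ := add_le_add le_rfl (hT a _)
    have h2 := EL_mono (M := i) h1
    refine h2.trans ?_
    rw [EL_add, EL_add, EL_const_mul]
    have h3 : EL i (fun E : List (Clause (j + 2) n) => EL a (fun F : List (Clause (j + 3) n) =>
        avg (fun l : Fin n × Bool =>
          (hit (cutL Finset.univ E) F - hit (cutLit (cutL Finset.univ E) l) F) ^ 2))) ≤
        A * 2 ^ i := hDD i a
    have h4 : EL i (fun _ : List (Clause (j + 2) n) => Cε) ≤ Cε := EL_const_le hCε
    have h5 := EL_snoc i (fun E : List (Clause (j + 2) n) => EL b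
      (fun Q : List (Clause (j + 2) n) => EL a (fun F : List (Clause (j + 3) n) =>
        SQ (cutL Finset.univ E) Q F)))
    rw [h5]
    have h6 := ih (i + 1)
    have h7 : ε ^ (j + 1) * EL i (fun E : List (Clause (j + 2) n) => EL a
        (fun F : List (Clause (j + 3) n) => avg (fun l : Fin n × Bool =>
          (hit (cutL Finset.univ E) F - hit (cutLit (cutL Finset.univ E) l) F) ^ 2))) ≤
        ε ^ (j + 1) * (A * 2 ^ i) := mul_le_mul_of_nonneg_left h3 (by positivity)
    push_cast
    rw [pow_succ (2 : ℝ) i] at h6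
    rw [pow_succ (2 : ℝ) b]
    linarith

/-- loss of a last `(j+1)`-clause after `b` clauses -/
theorem EL_last_le {j n : ℕ} (hn : j + 1 ≤ n) (A : ℝ)
    (hDD : ∀ i M : ℕ, DD j n i M ≤ A * 2 ^ i) (a b i : ℕ) :
    EL i (fun E : List (Clause (j + 2) n) => avg (fun s : Clause (j + 1) n =>
      EL b (fun Q : List (Clause (j + 2) n) => EL a (fun F : List (Clause (j + 3) n) =>
        (hit (cutL (cutL Finset.univ E) Q) F - hit (cut (cutL (cutL Finset.univ E) Q) s) F) ^ 2)))) ≤
      A * 2 ^ (i + b) := by
  refine le_trans ?_ (hDD (i + b) a)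
  unfold DD
  rw [EL_append i b]
  refine EL_mono fun E => ?_
  rw [← EL_avg_comm]
  refine EL_mono fun Q => ?_
  rw [← EL_avg_comm]
  refine EL_mono fun F => ?_
  rw [cutL_append]
  exact avg_loss_sq_le_lit hn _ F

end Crest.Agent.R153
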